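import Vale.Agent.P248.PG

/-! The scalar coefficients of the elliptic deformation. -/

open MeasureTheory Set Filter Topology Real

namespace Vale.Agent.P248

noncomputable def cc (t : ℝ) : ℝ := 1 + t ^ 2
noncomputable def ic (t : ℝ) : ℝ := (1 + t ^ 2)⁻¹
noncomputable def QQ (t τ : ℝ) : ℝ := ic t * cos τ ^ 2 + cc t * sin τ ^ 2
noncomputable def rho (t τ : ℝ) : ℝ := (√(QQ t τ))⁻¹
noncomputable def aa (t τ : ℝ) : ℝ := rho t τ * cos τ
noncomputable def bb (t τ : ℝ) : ℝ := rho t τ * sin τ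
noncomputable def mu (t τ : ℝ) : ℝ := aa t τ ^ 2 + bb t τ ^ 2
noncomputable def eta (t τ : ℝ) : ℝ := aa t τ ^ 2 * ic t - cc t * bb t τ ^ 2
noncomputable def ch (t : ℝ) : ℝ := (cc t + ic t) / 2
noncomputable def sh (t : ℝ) : ℝ := (cc t - ic t) / 2
noncomputable def rr (t : ℝ) : ℝ := t * ic t

lemma one_le_cc (t : ℝ) : 1 ≤ cc t := by unfold cc; nlinarith [sq_nonneg t]
lemma cc_pos (t : ℝ) : 0 < cc t := by linarith [one_le_cc t]
lemma ic_pos (t : ℝ) : 0 < ic t := inv_pos.2 (cc_pos t)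
lemma cc_ic (t : ℝ) : cc t * ic t = 1 := mul_inv_cancel₀ (cc_pos t).ne'
lemma ic_le_one (t : ℝ) : ic t ≤ 1 := inv_le_one_of_one_le₀ (one_le_cc t)
lemma sh_nonneg (t : ℝ) : 0 ≤ sh t := by unfold sh; linarith [one_le_cc t, ic_le_one t]

lemma ic_le_QQ (t τ : ℝ) : ic t ≤ QQ t τ := by
  unfold QQ
  nlinarith [one_le_cc t, ic_le_one t, sin_sq_add_cos_sq τ, sq_nonneg (sin τ),
    mul_nonneg (sub_nonneg.2 ((ic_le_one t).trans (one_le_cc t))) (sq_nonneg (sin τ))]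

lemma QQ_pos (t τ : ℝ) : 0 < QQ t τ := (ic_pos t).trans_le (ic_le_QQ t τ)
lemma rho_pos (t τ : ℝ) : 0 < rho t τ := inv_pos.2 (sqrt_pos.2 (QQ_pos t τ))

lemma rho_sq (t τ : ℝ) : rho t τ ^ 2 * QQ t τ = 1 := by
  rw [rho, inv_pow, sq_sqrt (QQ_pos t τ).le, inv_mul_cancel₀ (QQ_pos t τ).ne']

lemma ell (t τ : ℝ) : aa t τ ^ 2 * ic t + cc t * bb t τ ^ 2 = 1 := by
  rw [← rho_sq t τ, aa, bb, QQ]; ring

lemma mu_rho (t τ : ℝ) : mu t τ = rho t τ ^ 2 := by
  rw [mu, aa, bb]; linear_combination rho t τ ^ 2 * sin_sq_add_cos_sq τ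

lemma mu_pos (t τ : ℝ) : 0 < mu t τ := by rw [mu_rho]; exact pow_pos (rho_pos t τ) 2

lemma mu_eq (t τ : ℝ) : mu t τ = ch t + sh t * eta t τ := by
  rw [mu, ch, sh, eta]
  linear_combination ((cc t + ic t) / 2) * ell t τ - (aa t τ ^ 2 + bb t τ ^ 2) * cc_ic t

lemma eta_le (t τ : ℝ) : eta t τ ≤ 1 := by
  have := ell t τ; have := cc_pos t; unfold eta; nlinarith [sq_nonneg (bb t τ)]

lemma le_eta (t τ : ℝ) : -1 ≤ eta t τ := by
  have := ell t τ; have := ic_pos t; unfold eta; nlinarith [sq_nonneg (aa t τ)]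

lemma mu_le (t τ : ℝ) : mu t τ ≤ cc t := by
  have := mul_le_mul_of_nonneg_left (eta_le t τ) (sh_nonneg t)
  rw [mu_eq]; unfold ch; unfold sh at *; linarith

lemma kap_nonneg (t τ : ℝ) : 0 ≤ 2 * ch t - mu t τ := by
  have := mu_le t τ; have := ic_pos t; unfold ch; linarith

lemma hasDerivAt_cc (t : ℝ) : HasDerivAt cc (2 * rr t * cc t) t := by
  refine ((hasDerivAt_pow 2 t).const_add 1).congr_deriv ?_
  rw [rr]; simp; linear_combination (-2 * t) * cc_ic t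

lemma hasDerivAt_ic (t : ℝ) : HasDerivAt ic (-(2 * rr t * ic t)) t := by
  refine (((hasDerivAt_pow 2 t).const_add 1).inv (cc_pos t).ne').congr_deriv ?_
  have : 1 + t ^ 2 ≠ 0 := (cc_pos t).ne'
  rw [rr, ic]; field_simp; simp; ring

lemma hasDerivAt_ch (t : ℝ) : HasDerivAt ch (2 * rr t * sh t) t :=
  (((hasDerivAt_cc t).fun_add (hasDerivAt_ic t)).div_const 2).congr_deriv (by rw [sh]; ring)

lemma hasDerivAt_rho {Q : ℝ → ℝ} {Q' s : ℝ} (h : HasDerivAt Q Q' s) (hQ : 0 < Q s) :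
    HasDerivAt (fun s => (√(Q s))⁻¹) (-(1 / 2) * (√(Q s))⁻¹ ^ 3 * Q') s := by
  have := sqrt_pos.2 hQ
  refine ((h.sqrt hQ.ne').fun_inv this.ne').congr_deriv ?_
  field_simp

lemma rho_t (t τ : ℝ) : HasDerivAt (fun s => rho s τ) (rr t * eta t τ * rho t τ) t := by
  refine (hasDerivAt_rho (Q := fun s => QQ s τ) (((hasDerivAt_ic t).mul_const _).fun_add
    ((hasDerivAt_cc t).mul_const _)) (QQ_pos t τ)).congr_deriv ?_
  rw [eta, aa, bb, rho]; ring

lemma aa_t (t τ : ℝ) : HasDerivAt (fun s => aa s τ) (rr t * eta t τ * aa t τ) t :=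
  ((rho_t t τ).mul_const _).congr_deriv (by rw [aa]; ring)

lemma bb_t (t τ : ℝ) : HasDerivAt (fun s => bb s τ) (rr t * eta t τ * bb t τ) t :=
  ((rho_t t τ).mul_const _).congr_deriv (by rw [bb]; ring)

lemma mu_t (t τ : ℝ) : HasDerivAt (fun s => mu s τ) (2 * rr t * eta t τ * mu t τ) t :=
  (((aa_t t τ).fun_pow 2).fun_add ((bb_t t τ).fun_pow 2)).congr_deriv (by rw [mu]; simp; ring)

lemma rho_tau (t τ : ℝ) :
    HasDerivAt (rho t) (-(rho t τ ^ 3 * (cc t - ic t) * sin τ * cos τ)) τ := by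
  refine (hasDerivAt_rho (Q := QQ t) ((((hasDerivAt_cos τ).fun_pow 2).const_mul _).fun_add
    (((hasDerivAt_sin τ).fun_pow 2).const_mul _)) (QQ_pos t τ)).congr_deriv ?_
  rw [rho]; simp; ring

lemma aa_tau (t τ : ℝ) : HasDerivAt (aa t) (-(cc t * bb t τ * mu t τ)) τ := by
  refine ((rho_tau t τ).fun_mul (hasDerivAt_cos τ)).congr_deriv ?_
  have h := rho_sq t τ
  rw [mu_rho, bb]; rw [QQ] at h
  linear_combination (rho t τ * sin τ) * h - rho t τ ^ 3 * cc t * sin τ * sin_sq_add_cos_sq τ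

lemma bb_tau (t τ : ℝ) : HasDerivAt (bb t) (aa t τ * ic t * mu t τ) τ := by
  refine ((rho_tau t τ).fun_mul (hasDerivAt_sin τ)).congr_deriv ?_
  have h := rho_sq t τ
  rw [mu_rho, aa]; rw [QQ] at h
  linear_combination (-rho t τ * cos τ) * h + rho t τ ^ 3 * ic t * cos τ * sin_sq_add_cos_sq τ

lemma eta_tau (t τ : ℝ) : HasDerivAt (eta t) (-(4 * aa t τ * bb t τ * mu t τ)) τ := by
  refine ((((aa_tau t τ).fun_pow 2).mul_const _).fun_sub
    (((bb_tau t τ).fun_pow 2).const_mul _)).congr_deriv ?_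
  simp; linear_combination (-4 * aa t τ * bb t τ * mu t τ) * cc_ic t

lemma aa_zero (t : ℝ) : aa t 0 = √(cc t) := by simp [aa, rho, QQ, ic, cc, sqrt_inv]
lemma aa_pi (t : ℝ) : aa t π = -√(cc t) := by simp [aa, rho, QQ, ic, cc, sqrt_inv]
lemma bb_zero (t : ℝ) : bb t 0 = 0 := by simp [bb]
lemma bb_pi (t : ℝ) : bb t π = 0 := by simp [bb]
lemma aa_half (t : ℝ) : aa t (π / 2) = 0 := by simp [aa]
lemma bb_half (t : ℝ) : bb t (π / 2) = (√(cc t))⁻¹ := by simp [bb, rho, QQ]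

variable {α : Type*} [SeminormedAddCommGroup α]

@[fun_prop]
lemma PG.div_const {f : α → ℝ} (hf : PG f) (c : ℝ) : PG fun x => f x / c := by
  simp only [div_eq_mul_inv]; fun_prop

@[fun_prop]
lemma PG.cc : PG cc := by unfold P248.cc; fun_prop

@[fun_prop]
lemma PG.ic : PG ic :=
  PG.of_bound (Continuous.inv₀ (by fun_prop) fun t => (cc_pos t).ne') 1 fun t => by
    rw [Real.norm_of_nonneg (ic_pos t).le]; exact ic_le_one t

@[fun_prop]
lemma PG.ch : PG ch := by unfold P248.ch; fun_prop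

@[fun_prop]
lemma PG.sh : PG sh := by unfold P248.sh; fun_prop

@[fun_prop]
lemma PG.rr : PG rr := by unfold P248.rr; fun_prop

@[fun_prop]
lemma PG.rho {f g : α → ℝ} (hf : PG f) (hg : PG g) : PG fun x => rho (f x) (g x) := by
  have h1 : PG fun x => QQ (f x) (g x) := by unfold QQ; fun_prop
  refine PG.of_le (g := fun x => P248.cc (f x)) (h1.1.sqrt.inv₀ fun x => (sqrt_pos.2 (QQ_pos _ _)).ne')
    (by fun_prop) fun x => ?_
  rw [Real.norm_of_nonneg (rho_pos _ _).le, Real.norm_of_nonneg (cc_pos _).le]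
  have := mu_le (f x) (g x)
  rw [mu_rho] at this
  nlinarith [one_le_cc (f x), rho_pos (f x) (g x)]

@[fun_prop]
lemma PG.aa {f g : α → ℝ} (hf : PG f) (hg : PG g) : PG fun x => aa (f x) (g x) := by
  unfold P248.aa; fun_prop

@[fun_prop]
lemma PG.bb {f g : α → ℝ} (hf : PG f) (hg : PG g) : PG fun x => bb (f x) (g x) := by
  unfold P248.bb; fun_prop

@[fun_prop]
lemma PG.mu {f g : α → ℝ} (hf : PG f) (hg : PG g) : PG fun x => mu (f x) (g x) := by
  unfold P248.mu; fun_prop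

@[fun_prop]
lemma PG.eta {f g : α → ℝ} (hf : PG f) (hg : PG g) : PG fun x => eta (f x) (g x) := by
  unfold P248.eta; fun_prop

end Vale.Agent.P248
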