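import Mathlib

/-! A finite Dynkin system with a four-set interpolation property splits. -/

open Set

namespace Vale.Agent.P248

variable {Ω : Type*}

/-- Dynkin system with an interpolation property -/
structure Sys (B : Set (Set Ω)) (u : Set Ω) : Prop where
  fin : B.Finite
  sub : ∀ X ∈ B, X ⊆ u
  empty : ∅ ∈ B
  top : u ∈ B
  diff : ∀ X ∈ B, ∀ Y ∈ B, X ⊆ Y → Y \ X ∈ B
  h4 : ∀ X1 ∈ B, ∀ X2 ∈ B, ∀ X3 ∈ B, ∀ X4 ∈ B,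
    (∀ p ∈ u, ¬((p ∈ X1 ↔ p ∈ X2) ∧ (p ∈ X2 ↔ p ∈ X3) ∧ (p ∈ X3 ↔ p ∈ X4))) →
    ∃ G ∈ B, (∀ p ∈ u, (p ∈ X1 ↔ p ∈ X2) → (p ∈ G ↔ p ∈ X1)) ∧
      ∀ p ∈ u, (p ∈ X3 ↔ p ∈ X4) → (p ∈ G ↔ p ∉ X3)

/-- minimal nonempty members -/
def Atom (B : Set (Set Ω)) (a : Set Ω) : Prop :=
  a ∈ B ∧ a.Nonempty ∧ ∀ X ∈ B, X ⊆ a → X.Nonempty → X = a

namespace Sys

variable {B : Set (Set Ω)} {u : Set Ω} (h : Sys B u)
include h

lemma compl {X : Set Ω} (hX : X ∈ B) : u \ X ∈ B := h.diff X hX u h.top (h.sub X hX)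

lemma union {X Y : Set Ω} (hX : X ∈ B) (hY : Y ∈ B) (hd : ∀ p ∈ X, p ∉ Y) : X ∪ Y ∈ B := by
  have h1 := h.sub X hX
  have h2 := h.sub Y hY
  have := h.compl (h.diff Y hY _ (h.compl hX) (by grind))
  convert this using 1
  grind

lemma restrict {t : Set Ω} (ht : t ∈ B) : Sys {X ∈ B | X ⊆ t} t where
  fin := h.fin.subset (sep_subset _ _)
  sub _ hX := hX.2
  empty := ⟨h.empty, empty_subset _⟩
  top := ⟨ht, subset_rfl⟩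
  diff X hX Y hY e := ⟨h.diff X hX.1 Y hY.1 e, diff_subset.trans hY.2⟩
  h4 := by
    rintro X1 ⟨h1, s1⟩ X2 ⟨h2, s2⟩ X3 ⟨h3, s3⟩ X4 ⟨h4, s4⟩ hc
    obtain ⟨G, hG, g1, g2⟩ := h.h4 X1 h1 X2 h2 _ (h.union h3 (h.compl ht) (by grind)) _
      (h.union h4 (h.compl ht) (by grind)) (by grind)
    have := h.sub G hG
    have := h.sub t ht
    exact ⟨G, ⟨hG, by grind⟩, by grind, by grind⟩

lemma exists_atom {Y : Set Ω} (hY : Y ∈ B) (hne : Y.Nonempty) : ∃ a, Atom B a ∧ a ⊆ Y := by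
  obtain ⟨a, ha⟩ := (h.fin.subset (sep_subset _ fun X => X ⊆ Y ∧ X.Nonempty)).exists_minimal
    ⟨Y, hY, subset_rfl, hne⟩
  exact ⟨a, ⟨ha.1.1, ha.1.2.2, fun X hX e hn =>
    e.antisymm (ha.2 ⟨hX, e.trans ha.1.2.1, hn⟩ e)⟩, ha.1.2.1⟩

lemma At {a Y Z : Set Ω} (ha : Atom B a) (hY : Y ∈ B) (hZ : Z ∈ B) {q : Ω} (q1 : q ∈ Y) (q2 : q ∈ Z)
    (hs : ∀ p ∈ Y, p ∈ Z → p ∈ a) : ∀ p ∈ a, p ∈ Y ∨ p ∈ Z := by
  obtain ⟨G, hG, g1, g2⟩ := h.h4 ∅ h.empty a ha.1 _ (h.compl hY) _ (h.compl hZ) (by grind)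
  have := h.sub G hG
  have := h.sub Y hY
  have := ha.2.2 G hG (by grind) ⟨q, by grind⟩
  grind

lemma step {a b A A' D D' : Set Ω} (ha : a ∈ B) (hb : Atom B b) (hA : A ∈ B) (hA' : A' ∈ B)
    (hD : D ∈ B) (hD' : D' ∈ B) (hM : ∀ X ∈ B, X.Nonempty → ∃ p ∈ X, p ∈ a ∨ p ∈ b)
    (hne : A'.Nonempty) (e1 : ∀ p ∈ u, p ∉ a ↔ p ∈ A ∨ p ∈ A') (e2 : ∀ p ∈ A, p ∉ A')
    (d1 : ∀ p ∈ a, p ∉ b → p ∈ D ∧ p ∈ D') (d2 : ∀ p ∈ b, p ∉ a → p ∉ D ∧ p ∉ D')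
    (d3 : ∀ p ∈ A', p ∈ D → p ∉ D') : ∀ p ∈ A, p ∈ D → p ∉ D' := by
  have s1 := h.sub _ ha
  have s2 := h.sub _ hA
  have s3 := h.sub _ hA'
  have s4 := h.sub _ hb.1
  obtain ⟨G, hG, g1, g2⟩ := h.h4 _ (h.compl ha) _ (h.union hA' ha (by grind)) D hD D' hD' (by grind)
  have hZ := h.diff _ (h.compl hG) _ (h.union ha hA (by grind)) (by grind)
  have h1 : ∀ p ∈ a, p ∉ G := fun q q1 q2 => by
    have := h.At hb ha hZ q1 (by grind) (by grind)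
    obtain ⟨p, hp, hp'⟩ := hM _ hA' hne
    grind
  have h2 := hM _ (h.diff _ hZ _ hA (by grind))
  intro p p1 p2 p3
  have := h2 ⟨p, by grind⟩
  grind

lemma G1 {a b : Set Ω} (ha : Atom B a) (hb : Atom B b) (hab : a ≠ b) {q : Ω} (q1 : q ∈ a)
    (q2 : q ∈ b) (hM : ∀ X ∈ B, X.Nonempty → ∃ p ∈ X, p ∈ a ∨ p ∈ b) :
    Atom B (u \ a) ∨ Atom B (u \ b) := by
  have s1 := h.sub _ ha.1
  have s2 := h.sub _ hb.1
  have split : ∀ {a b : Set Ω}, Atom B a → Atom B b → a ≠ b → ¬Atom B (u \ a) →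
      ∃ A ∈ B, ∃ A' ∈ B, A.Nonempty ∧ A'.Nonempty ∧ (∀ p ∈ u, p ∉ a ↔ p ∈ A ∨ p ∈ A') ∧
        ∀ p ∈ A, p ∉ A' := by
    intro a b ha hb hab hn
    have h1 : (u \ a).Nonempty := by
      by_contra h0
      exact hab (ha.2.2 b hb.1 ((h.sub _ hb.1).trans (diff_eq_empty.1
        (not_nonempty_iff_eq_empty.1 h0))) hb.2.1).symm
    simp only [Atom, h.compl ha.1, h1, true_and, not_forall] at hn
    obtain ⟨X, hX, x1, x2, x3⟩ := hn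
    exact ⟨X, hX, _, h.diff X hX _ (h.compl ha.1) x1, x2,
      nonempty_of_ssubset (x1.ssubset_of_ne x3), by grind, by grind⟩
  by_contra hcon
  rw [not_or] at hcon
  obtain ⟨A, hA, A', hA', n1, n2, a1, a2⟩ := split ha hb hab hcon.1
  obtain ⟨C, hC, C', hC', n3, n4, c1, c2⟩ := split hb ha hab.symm hcon.2
  have DD : ∀ X ∈ B, ∀ Y ∈ B, (∀ p ∈ X, p ∉ a) → (∀ p ∈ Y, p ∉ b) → ∃ D ∈ B,
      (∀ p ∈ a, p ∉ b → p ∈ D) ∧ (∀ p ∈ b, p ∉ a → p ∉ D) ∧ (∀ p ∈ X, p ∈ Y → p ∈ D) ∧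
      ∀ p ∈ u, p ∉ a → p ∉ X → p ∉ Y → p ∉ D := fun X hX Y hY x1 y1 => by
    obtain ⟨G, hG, g1, g2⟩ := h.h4 _ (h.union ha.1 hX (by grind)) Y hY _ (h.compl ha.1) b hb.1
      (by grind)
    have := h.sub X hX
    exact ⟨G, hG, by grind, by grind, by grind, by grind⟩
  have sA := h.sub _ hA
  have sA' := h.sub _ hA'
  have key : ∀ C ∈ B, ∀ C' ∈ B, C'.Nonempty → (∀ p ∈ u, p ∉ b ↔ p ∈ C ∨ p ∈ C') →
      (∀ p ∈ C, p ∉ C') → ∀ p ∈ A, p ∉ C := by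
    intro C hC C' hC' n4 c1 c2
    have sC := h.sub _ hC
    have sC' := h.sub _ hC'
    obtain ⟨D1, hD1, x1, x2, x3, x4⟩ := DD A hA C' hC' (by grind) (by grind)
    obtain ⟨D2, hD2, y1, y2, y3, y4⟩ := DD A hA C hC (by grind) (by grind)
    obtain ⟨D3, hD3, z1, z2, z3, z4⟩ := DD A' hA' C' hC' (by grind) (by grind)
    have k1 := h.step ha.1 hb hA hA' hD1 hD2 hM n2 a1 a2 (by grind) (by grind) (by grind)
    have k2 := h.step hb.1 ha hC hC' (h.compl hD1) (h.compl hD3)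
      (fun X hX hn => (hM X hX hn).imp fun p hp => ⟨hp.1, hp.2.symm⟩) n4 c1 c2 (by grind) (by grind)
      (by grind)
    grind
  have k1 := key C hC C' hC' n4 c1 c2
  have k2 := key C' hC' C hC n3 (by grind) (by grind)
  have := hb.2.2 A hA (by grind) n1
  grind

/-- a disjoint union of two atoms containing a further member -/
def Tight (B : Set (Set Ω)) (t : Set Ω) : Prop := t ∈ B ∧ ∃ b, b ⊆ t ∧ Atom B b ∧ Atom B (t \ b) ∧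
  ∃ a ∈ B, a ⊆ t ∧ (∃ p ∈ a, p ∈ b) ∧ ¬a ⊆ b ∧ ¬b ⊆ a

lemma exists_tight {a b : Set Ω} (ha : Atom B a) (hb : Atom B b) (hab : a ≠ b) {q : Ω} (q1 : q ∈ a)
    (q2 : q ∈ b) : ∃ t, Tight B t ∧ a ⊆ t ∧ b ⊆ t := by
  obtain ⟨t, ⟨ht, t1, t2⟩, hm⟩ := (h.fin.subset (sep_subset _ fun X => a ⊆ X ∧ b ⊆ X)).exists_minimal
    ⟨u, h.top, h.sub _ ha.1, h.sub _ hb.1⟩
  have r1 : ∀ {a}, Atom B a → a ⊆ t → Atom {X ∈ B | X ⊆ t} a := fun ha e =>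
    ⟨⟨ha.1, e⟩, ha.2.1, fun X hX => ha.2.2 X hX.1⟩
  have r2 : ∀ {a}, Atom {X ∈ B | X ⊆ t} a → Atom B a := fun ha =>
    ⟨ha.1.1, ha.2.1, fun X hX e => ha.2.2 X ⟨hX, e.trans ha.1.2⟩ e⟩
  have n1 : ¬a ⊆ b := fun e => hab (hb.2.2 a ha.1 e ha.2.1)
  have n2 : ¬b ⊆ a := fun e => hab (ha.2.2 b hb.1 e hb.2.1).symm
  rcases (h.restrict ht).G1 (r1 ha t1) (r1 hb t2) hab q1 q2 (fun X hX ⟨p, hp⟩ => by
    by_contra hc
    have : t ⊆ t \ X := hm ⟨h.diff X hX.1 t ht hX.2, by grind, by grind⟩ diff_subset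
    exact (this (hX.2 hp)).2 hp) with h1 | h1
  · exact ⟨t, ⟨ht, a, t1, ha, r2 h1, b, hb.1, t2, ⟨q, q2, q1⟩, n2, n1⟩, t1, t2⟩
  · exact ⟨t, ⟨ht, b, t2, hb, r2 h1, a, ha.1, t1, ⟨q, q1, q2⟩, n1, n2⟩, t1, t2⟩

lemma quad {t b b' a Y : Set Ω} (ht : t ∈ B) (hb' : Atom B b') (e : ∀ p, p ∈ t ↔ p ∈ b ∨ p ∈ b')
    (ha : a ∈ B) (hat : a ⊆ t) (a1 : ∃ p ∈ a, p ∈ b') (a2 : ¬b' ⊆ a) (hY : Y ∈ B)
    (hd : ∀ p ∈ Y, p ∉ b) : b' ⊆ Y ∨ ∀ p ∈ Y, p ∉ b' := by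
  by_contra hc
  push Not at hc
  obtain ⟨c1, q, q1, q2⟩ := hc
  obtain ⟨r, r1, r2⟩ := a1
  obtain ⟨s, s1, s2⟩ := not_subset.1 a2
  have h1 := fun (q : Ω) (q1 : q ∈ Y) (q2 : q ∈ a) => h.At hb' hY ha q1 q2 (by grind)
  have h2 := fun (q : Ω) (q1 : q ∈ Y) (q2 : q ∈ t \ a) =>
    h.At hb' hY (h.diff a ha t ht hat) q1 q2 (by grind)
  grind

lemma central {t : Set Ω} (ht : ∀ a, Atom B a → a ⊆ t ∨ ∀ p ∈ a, p ∉ t) : ∀ Y ∈ B, Y ∩ t ∈ B := by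
  by_contra hc
  push Not at hc
  obtain ⟨Y, ⟨hY, y1⟩, hm⟩ := (h.fin.subset (sep_subset _ fun X => X ∩ t ∉ B)).exists_minimal hc
  obtain ⟨a, ha, e⟩ := h.exists_atom hY (by
    by_contra h0
    rw [not_nonempty_iff_eq_empty.1 h0, empty_inter] at y1
    exact y1 h.empty)
  have h1 : (Y \ a) ∩ t ∈ B := by
    by_contra h0
    obtain ⟨p, hp⟩ := ha.2.1
    exact (hm ⟨h.diff a ha.1 Y hY e, h0⟩ diff_subset (e hp)).2 hp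
  refine y1 ?_
  rcases ht a ha with h2 | h2
  · convert h.union h1 ha.1 (by grind) using 1; grind
  · convert h1 using 1; grind

theorem main (hn : ∃ X ∈ B, X.Nonempty ∧ X ≠ u) : (∃ a, Atom B a ∧ Atom B (u \ a)) ∨
    ∃ t ∈ B, t.Nonempty ∧ t ≠ u ∧ ∀ Y ∈ B, Y ∩ t ∈ B := by
  by_cases hT : ∃ t, Tight B t
  · obtain ⟨t, ⟨ht, b, b1, hb, hb', a, ha, a1, a2, a3, a4⟩, hm⟩ :=
      (h.fin.subset (fun X hX => hX.1 : {X | Tight B X} ⊆ B)).exists_maximal hT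
    have key : ∀ b b' c, Atom B b → Atom B b' → (∀ p, p ∈ t ↔ p ∈ b ∨ p ∈ b') →
        (∀ p ∈ b, p ∉ b') → (∃ p ∈ a, p ∈ b) → ¬b ⊆ a → (∃ p ∈ a, p ∈ b') → ¬b' ⊆ a → Atom B c →
        ∀ q ∈ c, q ∈ b → c ⊆ t := by
      intro b b' c hb hb' e d x1 x2 y1 y2 hc q q1 q2
      by_cases hcb : c = b
      · grind
      obtain ⟨t', h1, h2, h3⟩ := h.exists_tight hc hb hcb q1 q2
      have s1 := h.sub _ ht
      rcases h.quad ht hb' e ha a1 y1 y2 (h.compl h1.1) (by grind) with h4 | h4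
      · rcases h.quad ht hb (b := b') (by grind) ha a1 x1 x2 hc.1 (by grind) with h5 | h5
        · exact absurd (hc.2.2 b hb.1 h5 hb.2.1).symm hcb
        · grind
      · exact h2.trans (hm h1 (by grind))
    have a5 : ∃ p ∈ a, p ∈ t \ b := by grind
    have a6 : ¬t \ b ⊆ a := fun e => by
      have h1 := h.diff a ha t ht a1
      have := hb.2.2 _ h1 (by grind) (by obtain ⟨p, hp⟩ := not_subset.1 a4; exact ⟨p, by grind⟩)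
      grind
    have hc := h.central (t := t) fun c hc => by
      by_contra h0
      push Not at h0
      obtain ⟨h1, q, q1, q2⟩ := h0
      by_cases hq : q ∈ b
      · exact h1 (key b _ c hb hb' (by grind) (by grind) a2 a4 a5 a6 hc q q1 hq)
      · exact h1 (key _ b c hb' hb (by grind) (by grind) a5 a6 a2 a4 hc q q1 ⟨q2, hq⟩)
    by_cases htu : t = u
    · exact Or.inl ⟨b, hb, htu ▸ hb'⟩
    · exact Or.inr ⟨t, ht, hb.2.1.mono b1, htu, hc⟩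
  · obtain ⟨X, hX, x1, x2⟩ := hn
    obtain ⟨a, ha, e⟩ := h.exists_atom hX x1
    refine Or.inr ⟨a, ha.1, ha.2.1, fun e' => x2 ((h.sub X hX).antisymm (e' ▸ e)),
      h.central fun c hc => ?_⟩
    by_contra h0
    push Not at h0
    obtain ⟨h1, q, q1, q2⟩ := h0
    exact hT ((h.exists_tight hc ha (fun e => h1 e.subset) q1 q2).imp fun _ h => h.1)

lemma perp {a Z C D : Set Ω} (ha : Atom B a) (ha' : Atom B (u \ a)) (hZ : Z ∈ B) (z1 : Z ≠ u)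
    (z2 : Z ≠ a) (z3 : Z ≠ u \ a) (hC : C ∈ B) (c1 : C ⊆ Z) (c2 : C.Nonempty) (c3 : C ≠ Z)
    (hD : D ∈ B) (d1 : ∀ p ∈ a, p ∈ Z → p ∈ D) (d2 : ∀ p ∈ D, p ∉ a → p ∈ Z) : D = a ∨ D = Z := by
  have s1 := h.sub _ hZ
  have s2 := h.sub _ ha.1
  have s3 := h.sub _ hD
  have meet : ∀ {b b' : Set Ω}, Atom B b → Atom B b' → (∀ p, p ∈ u ↔ p ∈ b ∨ p ∈ b') →
      (∀ p ∈ b, p ∉ b') → Z ≠ b' → ∀ X ∈ B, X ⊆ Z → X.Nonempty → ∃ p ∈ X, p ∈ b := by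
    intro b b' hb hb' e d z X hX x1 x2
    by_contra hc
    have e1 := hb'.2.2 X hX (by grind) x2
    have e2 := hb.2.2 _ (h.diff X hX Z hZ x1) (by grind) (nonempty_of_ssubset
      (x1.ssubset_of_ne (by grind)))
    exact z1 (by grind)
  have hC' := h.diff C hC Z hZ c1
  have c4 : (Z \ C).Nonempty := nonempty_of_ssubset (c1.ssubset_of_ne c3)
  obtain ⟨p1, p2, p3⟩ := meet ha' ha (by grind) (by grind) z2 C hC c1 c2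
  obtain ⟨q1, q2, q3⟩ := meet ha' ha (by grind) (by grind) z2 _ hC' diff_subset c4
  obtain ⟨r1, r2, r3⟩ := meet ha ha' (by grind) (by grind) z3 C hC c1 c2
  have h1 := fun (q : Ω) (q1 : q ∈ C) (q2 : q ∈ u \ D) => h.At ha' hC (h.compl hD) q1 q2 (by grind)
  have h2 := fun (q : Ω) (q1 : q ∈ Z \ C) (q2 : q ∈ u \ D) =>
    h.At ha' hC' (h.compl hD) q1 q2 (by grind)
  by_cases hZD : Z ⊆ D
  · refine Or.inr (by_contra fun hne => ?_)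
    have := ha.2.2 _ (h.diff Z hZ D hD hZD) (by grind)
      (nonempty_of_ssubset (hZD.ssubset_of_ne (Ne.symm hne)))
    grind
  · obtain ⟨s, s4, s5⟩ := not_subset.1 hZD
    have k : (∀ p ∈ u \ a, p ∈ C ∨ p ∈ u \ D) ∧ ∀ p ∈ u \ a, p ∈ Z \ C ∨ p ∈ u \ D := by
      by_cases hs : s ∈ C
      · have k1 := h1 s hs ⟨s1 s4, s5⟩
        exact ⟨k1, h2 q1 q2 ((k1 q1 q3).resolve_left q2.2)⟩
      · have k2 := h2 s ⟨s4, hs⟩ ⟨s1 s4, s5⟩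
        exact ⟨h1 p1 p2 ((k2 p1 p3).resolve_left fun h => h.2 p2), k2⟩
    refine Or.inl (ha.2.2 D hD (fun p hp => by_contra fun h0 => ?_) ⟨r1, d1 r1 r3 (c1 r2)⟩)
    exact ((k.2 p ⟨s3 hp, h0⟩).resolve_right fun h => h.2 hp).2
      ((k.1 p ⟨s3 hp, h0⟩).resolve_right fun h => h.2 hp)

end Sys

end Vale.Agent.P248
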