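import Vale.Agent.P248.Def2

/-! The first deformation: the initial value is the Gaussian integral. -/

open MeasureTheory Set Filter Topology Real Matrix

namespace Vale.Agent.P248

variable {ι : Type*} [Fintype ι]

lemma gauss1 : ∫ u : ι → ℝ, Real.exp (-(u ⬝ᵥ u / 2)) = √(2 * π) ^ Fintype.card ι := by
  have : ∀ u : ι → ℝ, Real.exp (-(u ⬝ᵥ u / 2)) = ∏ i, Real.exp (-(1 / 2) * u i ^ 2) := by
    intro u
    rw [← Real.exp_sum, dotProduct, ← Finset.mul_sum]
    simp only [sq]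
    congr 1; ring
  simp only [this]
  rw [integral_fintype_prod_volume_eq_pow (fun x : ℝ => Real.exp (-(1 / 2) * x ^ 2)),
    integral_gaussian]
  congr 2; ring

lemma gauss2 : ∫ a : (ι → ℝ) × (ι → ℝ), Real.exp (-((a.1 ⬝ᵥ a.1 + a.2 ⬝ᵥ a.2) / 2)) =
    (2 * π) ^ Fintype.card ι := by
  have : ∀ a : (ι → ℝ) × (ι → ℝ), Real.exp (-((a.1 ⬝ᵥ a.1 + a.2 ⬝ᵥ a.2) / 2)) =
      Real.exp (-(a.1 ⬝ᵥ a.1 / 2)) * Real.exp (-(a.2 ⬝ᵥ a.2 / 2)) := by
    intro a; rw [← Real.exp_add]; congr 1; ring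
  simp only [this]
  rw [Measure.volume_eq_prod, integral_prod_mul (fun u : ι → ℝ => Real.exp (-(u ⬝ᵥ u / 2)))
    (fun u : ι → ℝ => Real.exp (-(u ⬝ᵥ u / 2))), gauss1, ← mul_pow,
    Real.mul_self_sqrt (by positivity)]

lemma norm_sq_le_dot (u : ι → ℝ) : ‖u‖ ^ 2 ≤ u ⬝ᵥ u := by
  have h : 0 ≤ u ⬝ᵥ u := Finset.sum_nonneg fun i _ => mul_self_nonneg _
  rw [← Real.le_sqrt (norm_nonneg _) h, pi_norm_le_iff_of_nonneg (sqrt_nonneg _)]
  intro i
  refine Real.abs_le_sqrt ?_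
  rw [sq]
  exact Finset.single_le_sum (f := fun i => u i * u i) (fun _ _ => mul_self_nonneg _)
    (Finset.mem_univ i)

lemma cc_zero : cc 0 = 1 := by simp [cc]
lemma ic_zero : ic 0 = 1 := by simp [ic]
lemma ch_zero : ch 0 = 1 := by simp [ch, cc_zero, ic_zero]
lemma sh_zero : sh 0 = 0 := by simp [sh, cc_zero, ic_zero]
lemma mu_zero (τ : ℝ) : mu 0 τ = 1 := by simp [mu_eq, ch_zero, sh_zero]

namespace Pot

variable (p : Pot ι)

lemma G_e (k : ℝ → ℝ) (hk : PG k) (a e : (ι → ℝ) × (ι → ℝ)) (i : ι) :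
    HasDerivAt (fun s : ℝ => av fun τ => (k τ • p.g (UU 0 τ (a + s • e))) i)
      (av fun τ => k τ * (p.H (UU 0 τ a) *ᵥ UU 0 τ e) i) 0 := by
  have := hasDerivAt_av (F := fun s τ => k τ * p.g (UU 0 τ (a + s • e)) i)
    (F' := fun s τ => k τ * (p.H (UU 0 τ (a + s • e)) *ᵥ UU 0 τ e) i) (PG.cont (by fun_prop))
    (PG.cont (by fun_prop))
    (fun s τ => (hasDerivAt_pi.1 (p.dg' (UU_e 0 τ a e s)) i).const_mul _) 0
  simp only [zero_smul, add_zero] at this
  exact this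

variable [DecidableEq ι]

theorem V_zero {δ D : ℝ} (hδ : 0 < δ) (hd : ∀ a, δ * ‖a‖ - D ≤ p.N (0, a)) :
    p.V 0 = (2 * π) ^ Fintype.card ι := by
  have := haar2 (ι := ι)
  have hA := p.pA; have hN := p.pN; have hAD := p.pAD
  have hA0 : ∀ i j, PG fun z : ℝ × (ι → ℝ) × (ι → ℝ) => p.A (0, z.2) i j :=
    fun i j => (hA i j).comp (g := fun z : ℝ × (ι → ℝ) × (ι → ℝ) => (0, z.2)) (by fun_prop)
  have hAD0 : ∀ e i j, PG fun z : ℝ × (ι → ℝ) × (ι → ℝ) => p.AD e (0, z.2) i j :=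
    fun e i j => (hAD e i j).comp (g := fun z : ℝ × (ι → ℝ) × (ι → ℝ) => (0, z.2)) (by fun_prop)
  have hG : ∀ k : ℝ → ℝ, PG k → ∀ i, PG fun z : ℝ × (ι → ℝ) × (ι → ℝ) =>
      av fun τ => (k τ • p.g (UU 0 τ z.2)) i := fun k hk i => PG.av (by fun_prop)
  have hH : ∀ k : ℝ → ℝ, PG k → ∀ e i, PG fun z : ℝ × (ι → ℝ) × (ι → ℝ) =>
      av fun τ => k τ * (p.H (UU 0 τ z.2) *ᵥ UU 0 τ e) i := fun k hk e i => PG.av (by fun_prop)
  have hGa := hG (aa 0) (by fun_prop); have hGb := hG (bb 0) (by fun_prop)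
  have hHa := hH (aa 0) (by fun_prop); have hHb := hH (bb 0) (by fun_prop)
  set A1 : ℝ × (ι → ℝ) × (ι → ℝ) → Matrix ι ι ℝ :=
    fun z => (1 - sin z.1 ^ 2) • p.A (0, z.2) + sin z.1 ^ 2 • (1 : Matrix ι ι ℝ) with hA1
  set N1 : ℝ × (ι → ℝ) × (ι → ℝ) → ℝ := fun z => (1 - sin z.1 ^ 2) * p.N (0, z.2) +
    sin z.1 ^ 2 * ((z.2.1 ⬝ᵥ z.2.1 + z.2.2 ⬝ᵥ z.2.2) / 2) with hN1
  have pA1 : ∀ i j, PG fun z => A1 z i j := fun i j => by
    simp only [hA1, Matrix.add_apply, Matrix.smul_apply, smul_eq_mul]; fun_prop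
  have ds : ∀ σ : ℝ, HasDerivAt (fun σ => sin σ ^ 2) (2 * sin σ * cos σ) σ := fun σ =>
    ((hasDerivAt_sin σ).fun_pow 2).congr_deriv (by simp)
  have lin : ∀ u v : ι → ℝ, HasDerivAt (fun s : ℝ => u + s • v) v 0 := fun u v => by
    simpa using ((hasDerivAt_id (0 : ℝ)).smul_const v).const_add u
  have h := general (μ := volume) (fun k => (Pi.single k 1, 0)) (fun k => (0, Pi.single k 1))
    (A := A1) (At := fun z => (2 * sin z.1 * cos z.1) • (1 - p.A (0, z.2)))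
    (SP := fun z => Matrix.of fun i j => (2 * sin z.1 * cos z.1) * ((Pi.single j 1 : ι → ℝ) i / 2 -
      av fun τ => aa 0 τ * (p.H (UU 0 τ z.2) *ᵥ UU 0 τ (Pi.single j 1, 0)) i))
    (CR := fun z => Matrix.of fun i j => (2 * sin z.1 * cos z.1) * (-((Pi.single j 1 : ι → ℝ) i / 2)
      + av fun τ => bb 0 τ * (p.H (UU 0 τ z.2) *ᵥ UU 0 τ (0, Pi.single j 1)) i))
    (AP := fun k z => (1 - sin z.1 ^ 2) • p.AD (Pi.single k 1, 0) (0, z.2))
    (AR := fun k z => (1 - sin z.1 ^ 2) • p.AD (0, Pi.single k 1) (0, z.2))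
    (N := N1) (Nt := fun z => (2 * sin z.1 * cos z.1) *
      ((z.2.1 ⬝ᵥ z.2.1 + z.2.2 ⬝ᵥ z.2.2) / 2 - p.N (0, z.2)))
    (NP := fun z => A1 z *ᵥ z.2.1) (NR := fun z => A1 z *ᵥ z.2.2)
    (S := fun z i => (2 * sin z.1 * cos z.1) * (z.2.1 i / 2 -
      av fun τ => (aa 0 τ • p.g (UU 0 τ z.2)) i))
    (C := fun z i => (2 * sin z.1 * cos z.1) * (-(z.2.2 i / 2) +
      av fun τ => (bb 0 τ • p.g (UU 0 τ z.2)) i)) pA1
    (fun i j => by simp only [Matrix.smul_apply, Matrix.sub_apply, smul_eq_mul]; fun_prop)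
    (fun i j => by simp only [of_apply]; fun_prop) (fun i j => by simp only [of_apply]; fun_prop)
    (fun k i j => by simp only [Matrix.smul_apply, smul_eq_mul]; fun_prop)
    (fun k i j => by simp only [Matrix.smul_apply, smul_eq_mul]; fun_prop)
    (PG.cont (by simp only [hN1]; fun_prop)) (by fun_prop) (by fun_prop) (by fun_prop)
    (by fun_prop) (by fun_prop) (fun T => ⟨δ, hδ, |D| + δ ^ 2, fun t _ a => ?_⟩)
    (fun t a i j => ?_) (fun t a => ?_)
    (fun t a k i j => ((p.A_e 0 a _ i j).const_mul (1 - sin t ^ 2)).add_const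
      (sin t ^ 2 * (1 : Matrix ι ι ℝ) i j))
    (fun t a k i j => ((p.A_e 0 a _ i j).const_mul (1 - sin t ^ 2)).add_const
      (sin t ^ 2 * (1 : Matrix ι ι ℝ) i j))
    (fun z i k l => by simp only [Matrix.smul_apply, p.AD_symP _ i k l])
    (fun z i k l => by simp only [Matrix.smul_apply, p.AD_symR _ i k l])
    (fun t a k => ?_) (fun t a k => ?_) (fun t a k l => ?_) (fun t a k l => ?_) (fun z i j => ?_)
  · have hc : ∀ σ, HasDerivAt (fun s => ∫ a, Real.exp (-N1 (s, a)) * (A1 (s, a)).det) 0 σ := by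
      intro σ
      refine (h σ).congr_deriv (integral_eq_zero_of_ae (Eventually.of_forall fun a => ?_))
      have hs : ∀ i j, A1 (σ, a) i j = A1 (σ, a) j i := fun i j => by
        simp only [hA1, Matrix.add_apply, Matrix.smul_apply, (p.A_psd _).1 i j, (PSD.one (ι := ι)).1 i j]
      simp only [mulVec_dot_adj hs, Pi.zero_apply]
      have e1 := dot_av a.1 (f := fun τ => aa 0 τ • p.g (UU 0 τ a)) (PG.cont (by fun_prop))
      have e2 := dot_av a.2 (f := fun τ => bb 0 τ • p.g (UU 0 τ a)) (PG.cont (by fun_prop))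
      have e3 : p.N (0, a) = (av fun τ => a.1 ⬝ᵥ aa 0 τ • p.g (UU 0 τ a)) +
          av fun τ => a.2 ⬝ᵥ bb 0 τ • p.g (UU 0 τ a) := by
        rw [← av_add (PG.cont (by fun_prop)) (PG.cont (by fun_prop)), N]
        congr 1
        ext τ
        simp only [mu_zero, ch_zero, χ]
        rw [dotProduct_comm]
        conv_lhs => enter [2, 2, 1, 1]; rw [UU]
        simp only [add_dotProduct, smul_dotProduct, dotProduct_smul, smul_eq_mul]
        ring
      rw [e3, ← e1, ← e2]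
      simp only [dotProduct, mul_add, mul_sub, Finset.sum_add_distrib, Finset.sum_sub_distrib,
        mul_neg, Finset.sum_neg_distrib, mul_div_assoc', ← Finset.sum_div, mul_left_comm _
        (2 * sin σ * cos σ), ← Finset.mul_sum]
      ring
    have := is_const_of_deriv_eq_zero (fun σ => (hc σ).differentiableAt) (fun σ => (hc σ).deriv)
      0 (π / 2)
    simp only [hA1, hN1, sin_zero, sin_pi_div_two] at this
    simp only [V]
    simpa [gauss2] using this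
  · have h1 := hd a
    have h2 : δ * ‖a‖ - δ ^ 2 ≤ (a.1 ⬝ᵥ a.1 + a.2 ⬝ᵥ a.2) / 2 := by
      have h3 := norm_sq_le_dot a.1
      have h4 := norm_sq_le_dot a.2
      rw [Prod.norm_def]
      rcases le_total ‖a.1‖ ‖a.2‖ with h | h
      · rw [max_eq_right h]; nlinarith [sq_nonneg (‖a.2‖ - δ), sq_nonneg ‖a.1‖, sq_nonneg δ]
      · rw [max_eq_left h]; nlinarith [sq_nonneg (‖a.1‖ - δ), sq_nonneg ‖a.2‖, sq_nonneg δ]
    have h5 := sin_sq_le_one t
    have h6 := sq_nonneg (sin t)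
    have h7 := mul_le_mul_of_nonneg_left (show δ * ‖a‖ - (|D| + δ ^ 2) ≤ _ by
      linarith [le_abs_self D, sq_nonneg δ]) (sub_nonneg.2 h5) (c := p.N (0, a))
    have h8 := mul_le_mul_of_nonneg_left (show δ * ‖a‖ - (|D| + δ ^ 2) ≤ _ by
      linarith [abs_nonneg D]) h6 (c := (a.1 ⬝ᵥ a.1 + a.2 ⬝ᵥ a.2) / 2)
    simp only [hN1]
    linarith
  · refine ((((ds t).const_sub 1).mul_const (p.A (0, a) i j)).fun_add
      ((ds t).mul_const ((1 : Matrix ι ι ℝ) i j))).congr_deriv ?_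
    simp only [Matrix.smul_apply, Matrix.sub_apply, smul_eq_mul]; ring
  · exact ((((ds t).const_sub 1).mul_const (p.N (0, a))).fun_add ((ds t).mul_const
      ((a.1 ⬝ᵥ a.1 + a.2 ⬝ᵥ a.2) / 2))).congr_deriv (by ring)
  · refine (((p.N_P 0 a (Pi.single k 1)).const_mul (1 - sin t ^ 2)).fun_add
      ((((HasDerivAt.dot (lin a.1 _) (lin a.1 _)).fun_add (HasDerivAt.dot (lin a.2 _)
      (lin a.2 _))).div_const 2).const_mul (sin t ^ 2))).congr_deriv ?_
    simp [hA1, cc_zero, ch_zero, sh_zero, add_mulVec, smul_mulVec]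
  · refine (((p.N_R 0 a (Pi.single k 1)).const_mul (1 - sin t ^ 2)).fun_add
      ((((HasDerivAt.dot (lin a.1 _) (lin a.1 _)).fun_add (HasDerivAt.dot (lin a.2 _)
      (lin a.2 _))).div_const 2).const_mul (sin t ^ 2))).congr_deriv ?_
    simp [hA1, ic_zero, ch_zero, sh_zero, add_mulVec, smul_mulVec]
  · exact (((hasDerivAt_pi.1 (lin a.1 (Pi.single l 1)) k).div_const 2).fun_sub
      (p.G_e (aa 0) (by fun_prop) a (Pi.single l 1, 0) k)).const_mul (2 * sin t * cos t)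
  · exact (((hasDerivAt_pi.1 (lin a.2 (Pi.single l 1)) k).div_const 2).fun_neg.fun_add
      (p.G_e (bb 0) (by fun_prop) a (0, Pi.single l 1) k)).const_mul (2 * sin t * cos t)
  · have : p.A (0, z.2) i j = (av fun τ => aa 0 τ * (p.H (UU 0 τ z.2) *ᵥ
        UU 0 τ (Pi.single j 1, 0)) i) +
        av fun τ => bb 0 τ * (p.H (UU 0 τ z.2) *ᵥ UU 0 τ (0, Pi.single j 1)) i := by
      rw [← av_add (PG.cont (by fun_prop)) (PG.cont (by fun_prop)), A, of_apply]
      congr 1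
      ext τ
      have := mu_zero τ
      rw [mu] at this
      have e1 : UU 0 τ (Pi.single j 1, 0) = aa 0 τ • (Pi.single j 1 : ι → ℝ) := by simp [UU]
      have e2 : UU 0 τ (0, Pi.single j 1) = bb 0 τ • (Pi.single j 1 : ι → ℝ) := by simp [UU]
      simp only [e1, e2, mulVec_smul, mulVec_single_one, Pi.smul_apply, col_apply, smul_eq_mul]
      linear_combination (-p.H (UU 0 τ z.2) i j) * this
    simp only [Matrix.smul_apply, Matrix.sub_apply, smul_eq_mul, of_apply, this, one_apply, Pi.single_apply]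
    ring

end Pot

end Vale.Agent.P248
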