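import Vale.Agent.P248.Pot

/-! The monotone deformation. -/

open MeasureTheory Set Filter Topology Real Matrix

namespace Vale.Agent.P248

variable {ι : Type*} [Fintype ι]

lemma haar2 : (volume : Measure ((ι → ℝ) × (ι → ℝ))).IsAddHaarMeasure :=
  Measure.prod.instIsAddHaarMeasure _ _

namespace Pot

variable (p : Pot ι)

noncomputable def SD (e : (ι → ℝ) × (ι → ℝ)) (z : ℝ × (ι → ℝ) × (ι → ℝ)) (k : ι) : ℝ :=
  av fun τ => eta z.1 τ * ((fun m => p.T (UU z.1 τ z.2) k m ⬝ᵥ UU z.1 τ e) ⬝ᵥ XX z.1 τ z.2 +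
    (p.H (UU z.1 τ z.2) *ᵥ XX z.1 τ e) k)
noncomputable def CD (e : (ι → ℝ) × (ι → ℝ)) (z : ℝ × (ι → ℝ) × (ι → ℝ)) (k : ι) : ℝ :=
  av fun τ => eta z.1 τ * ((fun m => p.T (UU z.1 τ z.2) k m ⬝ᵥ UU z.1 τ e) ⬝ᵥ YY z.1 τ z.2 +
    (p.H (UU z.1 τ z.2) *ᵥ YY z.1 τ e) k)
noncomputable def At (z : ℝ × (ι → ℝ) × (ι → ℝ)) : Matrix ι ι ℝ :=
  Matrix.of fun i j => av fun τ => p.T (UU z.1 τ z.2) i j ⬝ᵥ (rr z.1 * eta z.1 τ) • UU z.1 τ z.2
noncomputable def Nt (z : ℝ × (ι → ℝ) × (ι → ℝ)) : ℝ :=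
  av fun τ => rr z.1 * (3 * eta z.1 τ * mu z.1 τ * p.φ (UU z.1 τ z.2) +
    (4 * sh z.1 - eta z.1 τ * mu z.1 τ) * p.χ (UU z.1 τ z.2) + (2 * ch z.1 - mu z.1 τ) *
      eta z.1 τ * (UU z.1 τ z.2 ⬝ᵥ p.H (UU z.1 τ z.2) *ᵥ UU z.1 τ z.2))
noncomputable def qX (z : ℝ × (ι → ℝ) × (ι → ℝ)) : ℝ :=
  av fun τ => eta z.1 τ ^ 2 * (XX z.1 τ z.2 ⬝ᵥ p.H (UU z.1 τ z.2) *ᵥ XX z.1 τ z.2)
noncomputable def qY (z : ℝ × (ι → ℝ) × (ι → ℝ)) : ℝ :=
  av fun τ => eta z.1 τ ^ 2 * (YY z.1 τ z.2 ⬝ᵥ p.H (UU z.1 τ z.2) *ᵥ YY z.1 τ z.2)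
noncomputable def avχ (z : ℝ × (ι → ℝ) × (ι → ℝ)) : ℝ := av fun τ => p.χ (UU z.1 τ z.2)

lemma pSD (e : (ι → ℝ) × (ι → ℝ)) (k : ι) : PG fun z => p.SD e z k := PG.av (by fun_prop)
lemma pCD (e : (ι → ℝ) × (ι → ℝ)) (k : ι) : PG fun z => p.CD e z k := PG.av (by fun_prop)
lemma pAt (i j : ι) : PG fun z => p.At z i j := PG.av (by fun_prop)
lemma pNt : PG p.Nt := PG.av (by fun_prop)
lemma pqX : PG p.qX := PG.av (by fun_prop)
lemma pqY : PG p.qY := PG.av (by fun_prop)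
lemma pavχ : PG p.avχ := PG.av (by fun_prop)

lemma S_e (t : ℝ) (a e : (ι → ℝ) × (ι → ℝ)) (k : ι) :
    HasDerivAt (fun s : ℝ => p.S0 (t, a + s • e) k) (p.SD e (t, a) k) 0 := by
  have := hasDerivAt_av (F := fun s τ => eta t τ * (p.H (UU t τ (a + s • e)) *ᵥ XX t τ (a + s • e)) k)
    (F' := fun s τ => eta t τ * ((fun m => p.T (UU t τ (a + s • e)) k m ⬝ᵥ UU t τ e) ⬝ᵥ
      XX t τ (a + s • e) + (p.H (UU t τ (a + s • e)) *ᵥ XX t τ e) k)) (PG.cont (by fun_prop))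
    (PG.cont (by fun_prop)) (fun s τ => (p.dHv (UU_e t τ a e s) (XX_e t τ a e s) k).const_mul _) 0
  simp only [zero_smul, add_zero] at this
  exact this

lemma C_e (t : ℝ) (a e : (ι → ℝ) × (ι → ℝ)) (k : ι) :
    HasDerivAt (fun s : ℝ => p.C0 (t, a + s • e) k) (p.CD e (t, a) k) 0 := by
  have := hasDerivAt_av (F := fun s τ => eta t τ * (p.H (UU t τ (a + s • e)) *ᵥ YY t τ (a + s • e)) k)
    (F' := fun s τ => eta t τ * ((fun m => p.T (UU t τ (a + s • e)) k m ⬝ᵥ UU t τ e) ⬝ᵥ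
      YY t τ (a + s • e) + (p.H (UU t τ (a + s • e)) *ᵥ YY t τ e) k)) (PG.cont (by fun_prop))
    (PG.cont (by fun_prop)) (fun s τ => (p.dHv (UU_e t τ a e s) (YY_e t τ a e s) k).const_mul _) 0
  simp only [zero_smul, add_zero] at this
  exact this

lemma A_t (t : ℝ) (a : (ι → ℝ) × (ι → ℝ)) (i j : ι) :
    HasDerivAt (fun s : ℝ => p.A (s, a) i j) (p.At (t, a) i j) t :=
  hasDerivAt_av (F := fun s τ => p.H (UU s τ a) i j)
    (F' := fun s τ => p.T (UU s τ a) i j ⬝ᵥ (rr s * eta s τ) • UU s τ a) (PG.cont (by fun_prop))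
    (PG.cont (by fun_prop)) (fun s τ => p.dH (UU_t s τ a) i j) t

lemma N_t (t : ℝ) (a : (ι → ℝ) × (ι → ℝ)) :
    HasDerivAt (fun s : ℝ => p.N (s, a)) (p.Nt (t, a)) t := by
  refine hasDerivAt_av (F := fun s τ => mu s τ * p.φ (UU s τ a) + (2 * ch s - mu s τ) * p.χ (UU s τ a))
    (F' := fun s τ => rr s * (3 * eta s τ * mu s τ * p.φ (UU s τ a) +
    (4 * sh s - eta s τ * mu s τ) * p.χ (UU s τ a) + (2 * ch s - mu s τ) *
      eta s τ * (UU s τ a ⬝ᵥ p.H (UU s τ a) *ᵥ UU s τ a))) (PG.cont (by fun_prop))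
    (PG.cont (by fun_prop)) (fun s τ => ?_) t
  refine (((mu_t s τ).fun_mul (p.dφ (UU_t s τ a))).fun_add ((((hasDerivAt_ch s).const_mul 2).fun_sub
    (mu_t s τ)).fun_mul (p.dχ (UU_t s τ a)))).congr_deriv ?_
  simp only [mulVec_smul, dotProduct_smul, smul_eq_mul, χ]
  ring

lemma scalar_id (t : ℝ) (a : (ι → ℝ) × (ι → ℝ)) :
    rr t * (cc t * ch t * (a.1 ⬝ᵥ p.S0 (t, a))) - rr t * (ic t * ch t * (a.2 ⬝ᵥ p.C0 (t, a))) -
      p.Nt (t, a) = rr t * sh t * (-4 * p.avχ (t, a) + cc t * p.qX (t, a) + ic t * p.qY (t, a)) := by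
  unfold S0 C0 Nt avχ qX qY
  rw [dot_av _ (PG.cont (by fun_prop)), dot_av _ (PG.cont (by fun_prop)), ← av_mul, ← av_mul,
    ← av_mul, ← av_mul, ← av_mul, ← av_mul, ← av_mul,
    ← av_sub (PG.cont (by fun_prop)) (PG.cont (by fun_prop)),
    ← av_sub (PG.cont (by fun_prop)) (PG.cont (by fun_prop)),
    ← av_add (PG.cont (by fun_prop)) (PG.cont (by fun_prop)),
    ← av_add (PG.cont (by fun_prop)) (PG.cont (by fun_prop)), ← av_mul]
  refine av_eq_of_deriv (G := fun τ => -rr t * (eta t τ * (p.g (UU t τ a) ⬝ᵥ WW t τ a) +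
      4 * (aa t τ * bb t τ * p.φ (UU t τ a))))
    (G' := fun τ => -rr t * (mu t τ * eta t τ * (WW t τ a ⬝ᵥ p.H (UU t τ a) *ᵥ WW t τ a +
      3 * p.φ (UU t τ a) - p.χ (UU t τ a))))
    (PG.cont (by fun_prop)) (PG.cont (by fun_prop)) (fun τ => ?_)
    (by simp [bb_pi, bb_zero, UU_pi, WW_pi, eta_pi, p.odd]) fun τ => ?_
  · refine ((((eta_tau t τ).fun_mul (HasDerivAt.dot (p.dg' (UU_tau t τ a)) (WW_tau t τ a))).fun_add
      ((((aa_tau t τ).fun_mul (bb_tau t τ)).fun_mul (p.dφ (UU_tau t τ a))).const_mul 4)).const_mul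
      _).congr_deriv ?_
    simp only [mulVec_smul, dotProduct_smul, dotProduct_neg, smul_eq_mul, χ,
      dotProduct_comm _ (WW t τ a), eta]
    ring
  · simp only
    rw [X_eq, Y_eq]
    conv_lhs => rw [P_eq t τ a, R_eq t τ a]
    simp only [mulVec_add, mulVec_sub, mulVec_smul, dotProduct_add, dotProduct_sub, dotProduct_smul,
      add_dotProduct, sub_dotProduct, smul_dotProduct, smul_eq_mul,
      p.sym _ (WW t τ a) (UU t τ a), mu_eq]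
    set x := UU t τ a ⬝ᵥ p.H (UU t τ a) *ᵥ UU t τ a
    set y := UU t τ a ⬝ᵥ p.H (UU t τ a) *ᵥ WW t τ a
    set w := WW t τ a ⬝ᵥ p.H (UU t τ a) *ᵥ WW t τ a
    have h1 := cc_ic t
    have h2 := ell t τ
    linear_combination (rr t * eta t τ * ((ch t - sh t * eta t τ) * x *
      (aa t τ ^ 2 * ic t + cc t * bb t τ ^ 2))) * h1 + (rr t * eta t τ *
      ((ch t - sh t * eta t τ) * x - (ch t + sh t * eta t τ) * w)) * h2

variable [DecidableEq ι]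

lemma At_eq (z : ℝ × (ι → ℝ) × (ι → ℝ)) (i j : ι) : p.At z i j =
    rr z.1 * p.SD (Pi.single j 1, 0) z i - rr z.1 * p.CD (0, Pi.single j 1) z i := by
  unfold At SD CD
  rw [of_apply, ← av_mul, ← av_mul, ← av_sub (PG.cont (by fun_prop)) (PG.cont (by fun_prop))]
  congr 1
  ext τ
  have e1 : (fun m => p.T (UU z.1 τ z.2) i m ⬝ᵥ UU z.1 τ (Pi.single j 1, 0)) =
      aa z.1 τ • p.T (UU z.1 τ z.2) i j := by
    ext m; simp [UU, p.sT _ i m j]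
  have e2 : (fun m => p.T (UU z.1 τ z.2) i m ⬝ᵥ UU z.1 τ (0, Pi.single j 1)) =
      bb z.1 τ • p.T (UU z.1 τ z.2) i j := by
    ext m; simp [UU, p.sT _ i m j]
  have e3 : XX z.1 τ (Pi.single j 1, 0) = YY z.1 τ (0, (Pi.single j 1 : ι → ℝ)) := by
    simp [XX, YY]
  rw [e1, e2, e3, X_eq, Y_eq _ _ z.2]
  simp only [dotProduct_add, dotProduct_sub, dotProduct_smul, smul_dotProduct, smul_eq_mul]
  linear_combination (-rr z.1 * eta z.1 τ * (p.T (UU z.1 τ z.2) i j ⬝ᵥ UU z.1 τ z.2)) * ell z.1 τ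

lemma AD_symP (z : ℝ × (ι → ℝ) × (ι → ℝ)) (i k l : ι) :
    p.AD (Pi.single i 1, 0) z k l = p.AD (Pi.single l 1, 0) z k i := by
  simp [AD, UU, p.sT _ k l i]

lemma AD_symR (z : ℝ × (ι → ℝ) × (ι → ℝ)) (i k l : ι) :
    p.AD (0, Pi.single i 1) z k l = p.AD (0, Pi.single l 1) z k i := by
  simp [AD, UU, p.sT _ k l i]

/-- the deformed integral -/
noncomputable def V (t : ℝ) : ℝ := ∫ a, Real.exp (-p.N (t, a)) * (p.A (t, a)).det

noncomputable def DX (z : ℝ × (ι → ℝ) × (ι → ℝ)) : ℝ :=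
  p.qX z * (p.A z).det - p.S0 z ⬝ᵥ (p.A z).adjugate *ᵥ p.S0 z
noncomputable def DY (z : ℝ × (ι → ℝ) × (ι → ℝ)) : ℝ :=
  p.qY z * (p.A z).det - p.C0 z ⬝ᵥ (p.A z).adjugate *ᵥ p.C0 z
noncomputable def Dens (z : ℝ × (ι → ℝ) × (ι → ℝ)) : ℝ :=
  -4 * p.avχ z * (p.A z).det + cc z.1 * p.DX z + ic z.1 * p.DY z

theorem V_deriv (hd : ∀ T, ∃ δ > 0, ∃ D, ∀ t, |t| ≤ T → ∀ a, δ * ‖a‖ - D ≤ p.N (t, a)) (t : ℝ) :
    HasDerivAt p.V (∫ a, Real.exp (-p.N (t, a)) * (rr t * sh t * p.Dens (t, a))) t := by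
  have := p.pA; have := p.pS0; have := p.pC0; have := p.pSD; have := p.pCD
  have := haar2 (ι := ι)
  have h := general (μ := volume) (fun k => (Pi.single k 1, 0)) (fun k => (0, Pi.single k 1))
    (A := p.A) (At := p.At)
    (SP := fun z => Matrix.of fun i j => rr z.1 * p.SD (Pi.single j 1, 0) z i)
    (CR := fun z => Matrix.of fun i j => rr z.1 * p.CD (0, Pi.single j 1) z i)
    (AP := fun k => p.AD (Pi.single k 1, 0)) (AR := fun k => p.AD (0, Pi.single k 1))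
    (N := p.N) (Nt := p.Nt)
    (NP := fun z => cc z.1 • (ch z.1 • p.A z *ᵥ z.2.1 - sh z.1 • p.S0 z))
    (NR := fun z => ic z.1 • (ch z.1 • p.A z *ᵥ z.2.2 + sh z.1 • p.C0 z))
    (S := fun z => rr z.1 • p.S0 z) (C := fun z => rr z.1 • p.C0 z) p.pA p.pAt
    (fun i j => by simp only [of_apply]; fun_prop) (fun i j => by simp only [of_apply]; fun_prop)
    (fun _ => p.pAD _) (fun _ => p.pAD _) p.pN.1 p.pNt (by fun_prop) (by fun_prop) (by fun_prop)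
    (by fun_prop) hd p.A_t p.N_t (fun t a k => p.A_e t a _) (fun t a k => p.A_e t a _) p.AD_symP
    p.AD_symR (fun t a k => (p.N_P t a _).congr_deriv (by rw [single_dotProduct, one_mul]))
    (fun t a k => (p.N_R t a _).congr_deriv (by rw [single_dotProduct, one_mul]))
    (fun t a k l => (p.S_e t a _ k).const_mul (rr t))
    (fun t a k l => (p.C_e t a _ k).const_mul (rr t))
    p.At_eq t
  refine h.congr_deriv (integral_congr_ae (Eventually.of_forall fun a => ?_))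
  simp only [mulVec_smul, dotProduct_smul, smul_dotProduct, add_dotProduct, sub_dotProduct,
    smul_eq_mul, mulVec_dot_adj (p.A_psd _).1, Dens, DX, DY]
  linear_combination (Real.exp (-p.N (t, a)) * (p.A (t, a)).det) * p.scalar_id t a

omit [DecidableEq ι] in
lemma av_sq (z : ℝ × (ι → ℝ) × (ι → ℝ)) {Z : ℝ → ι → ℝ} (hZ : PG Z) (v : ι → ℝ) :
    (av fun τ => eta z.1 τ ^ 2 * (Z τ ⬝ᵥ p.H (UU z.1 τ z.2) *ᵥ Z τ)) -
      2 * (v ⬝ᵥ fun i => av fun τ => (eta z.1 τ • p.H (UU z.1 τ z.2) *ᵥ Z τ) i) + v ⬝ᵥ p.A z *ᵥ v =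
      av fun τ => (eta z.1 τ • Z τ - v) ⬝ᵥ p.H (UU z.1 τ z.2) *ᵥ (eta z.1 τ • Z τ - v) := by
  rw [dot_av _ (PG.cont (by fun_prop)), dot_A, ← av_mul,
    ← av_sub (PG.cont (by fun_prop)) (PG.cont (by fun_prop)),
    ← av_add (PG.cont (by fun_prop)) (PG.cont (by fun_prop))]
  congr 1
  ext τ
  simp only [mulVec_sub, mulVec_smul, dotProduct_sub, dotProduct_smul, sub_dotProduct,
    smul_dotProduct, smul_eq_mul, p.sym _ (Z τ) v]
  ring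

lemma le_DX (z : ℝ × (ι → ℝ) × (ι → ℝ)) (m : ℝ) (h : ∀ v, m ≤ av fun τ =>
    (eta z.1 τ • XX z.1 τ z.2 - v) ⬝ᵥ p.H (UU z.1 τ z.2) *ᵥ (eta z.1 τ • XX z.1 τ z.2 - v)) :
    m * (p.A z).det ≤ p.DX z :=
  gram (p.A_psd z) _ _ _ fun v => (h v).trans_eq (p.av_sq z (by fun_prop) v).symm

lemma DX_nonneg (z : ℝ × (ι → ℝ) × (ι → ℝ)) : 0 ≤ p.DX z := by
  simpa using p.le_DX z 0 fun v => av_nonneg fun τ => (p.psd _).2 _

lemma DY_nonneg (z : ℝ × (ι → ℝ) × (ι → ℝ)) : 0 ≤ p.DY z := by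
  have := gram (p.A_psd z) (p.C0 z) (p.qY z) 0 fun v => (av_nonneg fun τ => (p.psd _).2 _).trans_eq
    (p.av_sq z (Z := fun τ => YY z.1 τ z.2) (by fun_prop) v).symm
  rwa [zero_mul] at this

lemma le_Dens (hχ : ∀ u, p.χ u ≤ 0) (z : ℝ × (ι → ℝ) × (ι → ℝ)) : p.DX z ≤ p.Dens z := by
  have h1 : p.avχ z ≤ 0 := by
    have := av_mono (f := fun τ => p.χ (UU z.1 τ z.2)) (PG.cont (by fun_prop)) continuous_const
      fun τ _ => hχ _
    rwa [av_const] at this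
  have h2 := mul_nonneg (neg_nonneg.2 h1) (p.A_psd z).det_nonneg
  have h3 := mul_nonneg (ic_pos z.1).le (p.DY_nonneg z)
  have h4 := mul_nonneg (sub_nonneg.2 (one_le_cc z.1)) (p.DX_nonneg z)
  unfold Dens
  linarith

end Pot

end Vale.Agent.P248
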