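import Mathlib

namespace Vale.Agent.P248

/-- Hanner polytopes: symmetric segments, closed under Cartesian products and under convex hulls
of `H₁ × {0} ∪ {0} × H₂`.  A point of `ℝ^(k+l)` is split into its first `k` and last `l`
coordinates. -/
inductive IsHanner : (n : ℕ) → Set (Fin n → ℝ) → Prop
  | segment (a : ℝ) (ha : 0 < a) : IsHanner 1 {x | -a ≤ x 0 ∧ x 0 ≤ a}
  | prod {k l : ℕ} {H₁ : Set (Fin k → ℝ)} {H₂ : Set (Fin l → ℝ)} :
      IsHanner k H₁ → IsHanner l H₂ → IsHanner (k + l)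
        {x | (fun i => x (Fin.castAdd l i)) ∈ H₁ ∧ (fun j => x (Fin.natAdd k j)) ∈ H₂}
  | hull {k l : ℕ} {H₁ : Set (Fin k → ℝ)} {H₂ : Set (Fin l → ℝ)} :
      IsHanner k H₁ → IsHanner l H₂ → IsHanner (k + l)
        (convexHull ℝ ((fun y => Fin.append y (0 : Fin l → ℝ)) '' H₁ ∪
          (fun z => Fin.append (0 : Fin k → ℝ) z) '' H₂))

end Vale.Agent.P248
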