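import Vale.Agent.P248.PG

/-! Symmetric convex bodies, support functions and polars. -/

open MeasureTheory Set Filter Topology Real Matrix

namespace Vale.Agent.P248

variable {ι : Type*} [Fintype ι]

/-- origin-symmetric convex body -/
structure Body (K : Set (ι → ℝ)) : Prop where
  cpt : IsCompact K
  cvx : Convex ℝ K
  int : (interior K).Nonempty
  sym : ∀ x ∈ K, -x ∈ K

/-- support function -/
noncomputable def hK (K : Set (ι → ℝ)) (u : ι → ℝ) : ℝ := sSup ((fun x => u ⬝ᵥ x) '' K)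

/-- polar body -/
def pol (K : Set (ι → ℝ)) : Set (ι → ℝ) := {y | ∀ x ∈ K, y ⬝ᵥ x ≤ 1}

lemma abs_dot_le (u v : ι → ℝ) : |u ⬝ᵥ v| ≤ Fintype.card ι * (‖u‖ * ‖v‖) := by
  refine (Finset.abs_sum_le_sum_abs _ _).trans ?_
  rw [← nsmul_eq_mul, ← Finset.card_univ, ← Finset.sum_const]
  refine Finset.sum_le_sum fun i _ => ?_
  rw [abs_mul]
  exact mul_le_mul (norm_le_pi_norm u i) (norm_le_pi_norm v i) (abs_nonneg _) (norm_nonneg _)

lemma exists_dot_norm (u : ι → ℝ) : ∃ v : ι → ℝ, ‖v‖ ≤ 1 ∧ ‖u‖ ≤ u ⬝ᵥ v := by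
  classical
  refine ⟨fun i => SignType.sign (u i), ?_, ?_⟩
  · refine (pi_norm_le_iff_of_nonneg zero_le_one).2 fun i => ?_
    rcases lt_trichotomy (u i) 0 with h | h | h <;> simp [h]
  · have h : ∀ i, u i * SignType.sign (u i) = |u i| := fun i => by
      rw [mul_comm, sign_mul_self]
    simp only [dotProduct, h]
    exact (pi_norm_le_iff_of_nonneg (Finset.sum_nonneg fun _ _ => abs_nonneg _)).2 fun i =>
      Finset.single_le_sum (f := fun i => |u i|) (fun _ _ => abs_nonneg _) (Finset.mem_univ i)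

lemma dual_eq_dot (f : StrongDual ℝ (ι → ℝ)) : ∃ u : ι → ℝ, ∀ x, f x = u ⬝ᵥ x := by
  classical
  refine ⟨fun i => f (Pi.single i 1), fun x => ?_⟩
  conv_lhs => rw [← Finset.univ_sum_single x, map_sum]
  refine Finset.sum_congr rfl fun i _ => ?_
  rw [mul_comm, ← smul_eq_mul, ← map_smul, ← Pi.single_smul, smul_eq_mul, mul_one]

namespace Body

variable {K : Set (ι → ℝ)} (hB : Body K)
include hB

lemma exists_ball : ∃ δ > 0, ∀ y : ι → ℝ, ‖y‖ ≤ δ → y ∈ K := by
  obtain ⟨x, hx⟩ := hB.int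
  obtain ⟨r, hr, h⟩ := Metric.nhds_basis_closedBall.mem_iff.1 (mem_interior_iff_mem_nhds.1 hx)
  refine ⟨r, hr, fun y hy => ?_⟩
  have h1 : x + y ∈ K := h (by simpa using hy)
  have h2 : -(x - y) ∈ K := hB.sym _ (h (by simpa using hy))
  have := hB.cvx h1 h2 (a := 1 / 2) (b := 1 / 2) (by norm_num) (by norm_num) (by norm_num)
  convert this using 1
  ext i; simp; ring

lemma zero_mem : (0 : ι → ℝ) ∈ K := by
  obtain ⟨δ, hδ, h⟩ := hB.exists_ball
  exact h 0 (by simpa using hδ.le)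

lemma le_hK (u : ι → ℝ) {x : ι → ℝ} (hx : x ∈ K) : u ⬝ᵥ x ≤ hK K u :=
  le_csSup (hB.cpt.image (by fun_prop)).bddAbove (mem_image_of_mem _ hx)

lemma exists_hK (u : ι → ℝ) : ∃ x ∈ K, u ⬝ᵥ x = hK K u :=
  (hB.cpt.image (f := fun x => u ⬝ᵥ x) (by fun_prop)).sSup_mem (Nonempty.image _ ⟨0, hB.zero_mem⟩)

lemma hK_le {u : ι → ℝ} {c : ℝ} (h : ∀ x ∈ K, u ⬝ᵥ x ≤ c) : hK K u ≤ c := by
  obtain ⟨x, hx, e⟩ := hB.exists_hK u
  exact e ▸ h x hx

lemma hK_nonneg (u : ι → ℝ) : 0 ≤ hK K u := by simpa using hB.le_hK u hB.zero_mem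

lemma hK_zero : hK K 0 = 0 := le_antisymm (hB.hK_le fun x _ => by simp) (hB.hK_nonneg _)

lemma hK_add (u v : ι → ℝ) : hK K (u + v) ≤ hK K u + hK K v :=
  hB.hK_le fun x hx => by rw [add_dotProduct]; exact add_le_add (hB.le_hK u hx) (hB.le_hK v hx)

lemma hK_neg (u : ι → ℝ) : hK K (-u) = hK K u := by
  have : ∀ u, hK K (-u) ≤ hK K u := fun u => hB.hK_le fun x hx => by
    simpa using hB.le_hK u (hB.sym x hx)
  exact le_antisymm (this u) (by simpa using this (-u))

lemma hK_smul {r : ℝ} (hr : 0 ≤ r) (u : ι → ℝ) : hK K (r • u) = r * hK K u := by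
  refine le_antisymm (hB.hK_le fun x hx => ?_) ?_
  · rw [smul_dotProduct]; exact mul_le_mul_of_nonneg_left (hB.le_hK u hx) hr
  · obtain ⟨x, hx, e⟩ := hB.exists_hK u
    simpa [e] using hB.le_hK (r • u) hx

lemma hK_smul' (r : ℝ) (u : ι → ℝ) : hK K (r • u) = |r| * hK K u := by
  rcases le_total 0 r with h | h
  · rw [hB.hK_smul h, abs_of_nonneg h]
  · rw [← hB.hK_neg, ← neg_smul, hB.hK_smul (neg_nonneg.2 h), abs_of_nonpos h]

lemma exists_lower : ∃ δ > 0, ∀ u, δ * ‖u‖ ≤ hK K u := by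
  obtain ⟨δ, hδ, h⟩ := hB.exists_ball
  refine ⟨δ, hδ, fun u => ?_⟩
  obtain ⟨v, hv, h2⟩ := exists_dot_norm u
  have := hB.le_hK u (h (δ • v) (by rw [norm_smul, Real.norm_of_nonneg hδ.le]; nlinarith))
  rw [dotProduct_smul, smul_eq_mul] at this
  nlinarith

lemma exists_upper : ∃ D > 0, (∀ x ∈ K, ‖x‖ ≤ D) ∧ ∀ u, hK K u ≤ D * ‖u‖ := by
  obtain ⟨D, hD, h⟩ := hB.cpt.isBounded.exists_pos_norm_le
  refine ⟨(Fintype.card ι + 1) * D, by positivity, fun x hx => (h x hx).trans ?_,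
    fun u => hB.hK_le fun x hx => (le_abs_self _).trans ((abs_dot_le u x).trans ?_)⟩
  · have : (0 : ℝ) ≤ Fintype.card ι * D := by positivity
    linarith
  · have := mul_le_mul_of_nonneg_left (h x hx) (norm_nonneg u)
    have h2 : (0 : ℝ) ≤ Fintype.card ι := by positivity
    nlinarith [mul_le_mul_of_nonneg_left this h2, norm_nonneg u]

lemma hK_eq_zero {u : ι → ℝ} (h : hK K u = 0) : u = 0 := by
  obtain ⟨δ, hδ, h2⟩ := hB.exists_lower
  have := h2 u
  exact norm_le_zero_iff.1 (by nlinarith)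

lemma hK_pos {u : ι → ℝ} (h : u ≠ 0) : 0 < hK K u :=
  (hB.hK_nonneg u).lt_of_ne fun e => h (hB.hK_eq_zero e.symm)

lemma continuous_hK : Continuous (hK K) := by
  obtain ⟨D, hD, -, h⟩ := hB.exists_upper
  refine (LipschitzWith.of_le_add_mul ⟨D, hD.le⟩ fun u v => ?_).continuous
  have := hB.hK_add v (u - v)
  rw [add_sub_cancel] at this
  rw [dist_eq_norm]
  exact this.trans (add_le_add_right (h _) _)

lemma mem_of_le {x : ι → ℝ} (h : ∀ u, u ⬝ᵥ x ≤ hK K u) : x ∈ K := by
  by_contra hx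
  obtain ⟨f, c, h1, h2⟩ := geometric_hahn_banach_closed_point hB.cvx hB.cpt.isClosed hx
  obtain ⟨u, hu⟩ := dual_eq_dot f
  obtain ⟨y, hy, e⟩ := hB.exists_hK u
  have := h1 y hy
  have := h u
  simp only [hu] at *
  linarith

lemma pol_eq : pol K = {u | hK K u ≤ 1} := by
  ext u
  exact ⟨fun h => hB.hK_le h, fun h x hx => (hB.le_hK u hx).trans h⟩

lemma integrable_exp {b : ℝ} (hb : 0 < b) : Integrable fun u => Real.exp (-(b * hK K u)) := by
  obtain ⟨δ, hδ, h⟩ := hB.exists_lower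
  have := (PG.const (1 : ℝ)).integrable (μ := volume) (N := fun u => b * hK K u) (D := 0)
    (hB.continuous_hK.const_mul b) (mul_pos hb hδ) fun u => by
      rw [sub_zero, mul_assoc]; exact mul_le_mul_of_nonneg_left (h u) hb.le
  simpa using this

lemma integral_exp [Nonempty ι] {b : ℝ} (hb : 0 < b) : ∫ u, Real.exp (-(b * hK K u)) =
    (Fintype.card ι).factorial * volume.real (pol K) / b ^ Fintype.card ι := by
  have h1 := measure_lt_one_eq_integral_div_gamma (volume : Measure (ι → ℝ)) hB.hK_zero hB.hK_neg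
    hB.hK_add hB.hK_eq_zero (fun r x => (hB.hK_smul' r x).le) one_pos
  have h2 := measure_le_eq_lt (volume : Measure (ι → ℝ)) hB.hK_zero hB.hK_neg
    hB.hK_add hB.hK_eq_zero (fun r x => (hB.hK_smul' r x).le) 1
  have h3 := Measure.integral_comp_smul_of_nonneg (volume : Measure (ι → ℝ))
    (fun u => Real.exp (-hK K u)) b (hR := hb.le)
  simp only [hB.hK_smul hb.le, Module.finrank_fintype_fun_eq_card] at h3
  simp only [Real.rpow_one, div_one, Module.finrank_fintype_fun_eq_card, Real.Gamma_nat_eq_factorial] at h1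
  rw [h3, hB.pol_eq, measureReal_def, h2, h1, ENNReal.toReal_ofReal
    (div_nonneg (integral_nonneg fun _ => (Real.exp_pos _).le) (by positivity)), smul_eq_mul]
  field_simp

end Body

/-- the penalised volume -/
noncomputable def JJ (K : Set (ι → ℝ)) (L : ℝ) : ℝ := ∫ z, Real.exp (-(L * Metric.infDist z K))

lemma Body.integrable_JJ {K : Set (ι → ℝ)} (hB : Body K) {L : ℝ} (hL : 0 < L) :
    Integrable fun z => Real.exp (-(L * Metric.infDist z K)) := by
  obtain ⟨D, hD, h, -⟩ := hB.exists_upper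
  have := (PG.const (1 : ℝ)).integrable (μ := volume) (N := fun z => L * Metric.infDist z K)
    (D := L * D) ((Metric.continuous_infDist_pt K).const_mul L) hL fun u => by
      rw [← mul_sub]
      refine mul_le_mul_of_nonneg_left ?_ hL.le
      obtain ⟨y, hy, e⟩ := hB.cpt.exists_infDist_eq_dist ⟨0, hB.zero_mem⟩ u
      rw [e, dist_eq_norm]
      linarith [norm_sub_norm_le u y, h y hy]
  simpa using this

lemma Body.tendsto_JJ {K : Set (ι → ℝ)} (hB : Body K) :
    Tendsto (JJ K) atTop (𝓝 (volume.real K)) := by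
  rw [← integral_indicator_one hB.cpt.measurableSet]
  refine tendsto_integral_filter_of_dominated_convergence
    (fun z => Real.exp (-(1 * Metric.infDist z K))) (Eventually.of_forall fun L => ?_) ?_
    (hB.integrable_JJ one_pos) (Eventually.of_forall fun z => ?_)
  · exact (((Metric.continuous_infDist_pt K).const_mul L).neg.rexp).aestronglyMeasurable
  · filter_upwards [eventually_ge_atTop 1] with L hL
    refine Eventually.of_forall fun z => ?_
    rw [Real.norm_of_nonneg (Real.exp_pos _).le]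
    gcongr
    exact Metric.infDist_nonneg
  · by_cases hz : z ∈ K
    · simp [hz, Metric.infDist_zero_of_mem hz]
    · have := (hB.cpt.isClosed.notMem_iff_infDist_pos ⟨0, hB.zero_mem⟩).1 hz
      simp only [indicator_of_notMem hz]
      exact Real.tendsto_exp_neg_atTop_nhds_zero.comp (tendsto_id.atTop_mul_const this)

end Vale.Agent.P248
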