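import Vale.Agent.P248.Def1
import Vale.Agent.P248.Supp

/-! Lower bounds for the exponent and the change of variables. -/

open MeasureTheory Set Filter Topology Real Matrix

namespace Vale.Agent.P248

variable {ι : Type*} [Fintype ι]

/-- a potential adapted to the body `K` -/
structure Good (p : Pot ι) (K : Set (ι → ℝ)) (θ ε M : ℝ) : Prop where
  mem : ∀ u, p.g u ∈ K
  lo : ∀ u, θ * hK K u ≤ p.φ u
  chi_lo : ∀ u, -ε ≤ p.χ u
  chi_hi : ∀ u, p.χ u ≤ 0
  bd : ∀ u v, v ⬝ᵥ p.H u *ᵥ v ≤ M * (v ⬝ᵥ v)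

/-- a matrix as a continuous linear map -/
noncomputable def toL (A : Matrix ι ι ℝ) : (ι → ℝ) →L[ℝ] ι → ℝ :=
  LinearMap.toContinuousLinearMap A.mulVecLin

lemma toL_apply (A : Matrix ι ι ℝ) (v : ι → ℝ) : toL A v = A *ᵥ v := rfl

lemma toL_det [DecidableEq ι] (A : Matrix ι ι ℝ) : (toL A).det = A.det := by
  rw [toL, LinearMap.det_toContinuousLinearMap, ← toLin'_apply', LinearMap.det_toLin']

lemma continuous_toL : Continuous (toL : Matrix ι ι ℝ → _) := by
  classical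
  exact LinearMap.continuous_of_finiteDimensional
    (LinearMap.toContinuousLinearMap.toLinearMap ∘ₗ (toLin' (R := ℝ) (m := ι) (n := ι)).toLinearMap)

lemma hasFDerivAt_intervalIntegral {E : Type*} [NormedAddCommGroup E] [NormedSpace ℝ E]
    [ProperSpace E] {F : E → ℝ → ℝ} {F' : E → ℝ → E →L[ℝ] ℝ}
    (hF : Continuous fun z : E × ℝ => F z.1 z.2) (hF' : Continuous fun z : E × ℝ => F' z.1 z.2)
    (h : ∀ s τ, HasFDerivAt (fun s => F s τ) (F' s τ) s) (a b : ℝ) (s : E) :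
    HasFDerivAt (fun s => ∫ τ in a..b, F s τ) (∫ τ in a..b, F' s τ) s := by
  obtain ⟨C, hC⟩ := ((isCompact_closedBall s 1).prod
    (isCompact_uIcc (a := a) (b := b))).exists_bound_of_continuousOn hF'.continuousOn
  refine intervalIntegral.hasFDerivAt_integral_of_dominated_of_fderiv_le (bound := fun _ => C)
    (Metric.closedBall_mem_nhds s one_pos) (Eventually.of_forall fun x => ?_) ?_ ?_
    (Eventually.of_forall fun τ hτ x hx => hC (x, τ) ⟨hx, uIoc_subset_uIcc hτ⟩)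
    intervalIntegrable_const (Eventually.of_forall fun τ _ x _ => h x τ)
  · exact (hF.comp (Continuous.prodMk_right x)).aestronglyMeasurable
  · exact (hF.comp (Continuous.prodMk_right s)).intervalIntegrable _ _
  · exact (hF'.comp (Continuous.prodMk_right s)).aestronglyMeasurable

lemma inj_of_fderiv {x : (ι → ℝ) → ι → ℝ} {B : (ι → ℝ) → Matrix ι ι ℝ}
    (h : ∀ R, HasFDerivAt x (toL (B R)) R) (hp : ∀ R v, v ≠ 0 → 0 < v ⬝ᵥ B R *ᵥ v) :
    Function.Injective x := by
  intro R R' e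
  by_contra hne
  have hv : R' - R ≠ 0 := sub_ne_zero.2 (Ne.symm hne)
  have hd : ∀ s : ℝ, HasDerivAt (fun s : ℝ => (R' - R) ⬝ᵥ x (R + s • (R' - R)))
      ((R' - R) ⬝ᵥ B (R + s • (R' - R)) *ᵥ (R' - R)) s := fun s => by
    have h1 : HasDerivAt (fun s : ℝ => R + s • (R' - R)) (R' - R) s := by
      simpa using ((hasDerivAt_id s).smul_const (R' - R)).const_add R
    simpa [toL_apply] using HasDerivAt.dot (hasDerivAt_const s (R' - R))
      ((h _).comp_hasDerivAt s h1)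
  have := strictMono_of_deriv_pos (fun s => by rw [(hd s).deriv]; exact hp _ _ hv) zero_lt_one
  simp [e] at this

lemma av_le_split {f : ℝ → ℝ} (hf : Continuous f) {B B' s : ℝ} (hs : 0 ≤ s) (hs1 : s ≤ 1)
    (hB' : 0 ≤ B') (h : ∀ τ ∈ Icc 0 π, f τ ≤ B) (h' : ∀ τ ∈ Icc 0 π, s ≤ sin τ → f τ ≤ B') :
    av f ≤ B' + s * B := by
  have hp := Real.pi_pos
  set a := π / 2 * s with ha
  have h0 : 0 ≤ a := by positivity
  have h1 : a ≤ π / 2 := by nlinarith
  have I : ∀ u v, IntervalIntegrable f volume u v := fun u v => hf.intervalIntegrable u v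
  have e : ∀ {u v C}, u ≤ v → (∀ τ ∈ Icc u v, f τ ≤ C) → ∫ τ in u..v, f τ ≤ (v - u) * C :=
    fun huv hC => by
      simpa using intervalIntegral.integral_mono_on huv (I _ _) intervalIntegrable_const hC
  have e1 := e h0 fun τ hτ => h τ ⟨hτ.1, by linarith [hτ.2]⟩
  have e3 := e (show π - a ≤ π by linarith) fun τ hτ => h τ ⟨by linarith [hτ.1], hτ.2⟩
  have e2 := e (show a ≤ π - a by linarith) fun τ hτ => h' τ
    ⟨by linarith [hτ.1], by linarith [hτ.2]⟩ (by
      have hs : s = 2 / π * a := by rw [ha]; field_simp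
      rcases le_total τ (π / 2) with h | h
      · refine le_trans ?_ (mul_le_sin (by linarith [hτ.1]) h)
        rw [hs]; gcongr; exact hτ.1
      · rw [← sin_pi_sub]
        refine le_trans ?_ (mul_le_sin (by linarith [hτ.2]) (by linarith))
        rw [hs]; gcongr; linarith [hτ.2])
  rw [av, ← intervalIntegral.integral_add_adjacent_intervals (I 0 a) (I a π),
    ← intervalIntegral.integral_add_adjacent_intervals (I a (π - a)) (I _ π), inv_mul_le_iff₀ hp]
  have := mul_nonneg h0 hB'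
  have : π * (s * B) = 2 * a * B := by rw [ha]; ring
  linarith

lemma sqrt_cc_sq (t : ℝ) : √(cc t) * √(cc t) = cc t := Real.mul_self_sqrt (cc_pos t).le

lemma one_le_sqrt_cc (t : ℝ) : 1 ≤ √(cc t) := Real.one_le_sqrt.2 (one_le_cc t)

namespace Pot

variable (p : Pot ι)

lemma N_lower {ε : ℝ} (hε : 0 ≤ ε) (hχ : ∀ u, -ε ≤ p.χ u) (t : ℝ) (a : (ι → ℝ) × (ι → ℝ)) :
    (av fun τ => mu t τ * p.φ (UU t τ a)) - 2 * ch t * ε ≤ p.N (t, a) := by
  rw [← av_const (2 * ch t * ε), ← av_sub (PG.cont (by fun_prop)) continuous_const]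
  refine av_mono (PG.cont (by fun_prop)) (PG.cont (by fun_prop)) fun τ _ => ?_
  have h1 := mul_le_mul_of_nonneg_left (hχ (UU t τ a)) (kap_nonneg t τ)
  have h2 := mul_nonneg (mu_pos t τ).le hε
  simp only
  linarith

lemma avphi {y : ι → ℝ} (hy : ∀ u, y ⬝ᵥ u ≤ p.φ u) (t : ℝ) (a : (ι → ℝ) × (ι → ℝ)) :
    2 / π * √(cc t) * (y ⬝ᵥ a.1) ≤ (av fun τ => mu t τ * p.φ (UU t τ a)) ∧
    2 / π * (ic t * √(cc t)) * (y ⬝ᵥ a.2) ≤ av fun τ => mu t τ * p.φ (UU t τ a) := by
  have hp := Real.pi_pos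
  have hG : ∀ τ, HasDerivAt (fun τ => cc t * bb t τ * (y ⬝ᵥ a.1) - ic t * aa t τ * (y ⬝ᵥ a.2))
      (mu t τ * (y ⬝ᵥ UU t τ a)) τ := fun τ => by
    refine ((((bb_tau t τ).const_mul _).mul_const _).fun_sub
      (((aa_tau t τ).const_mul _).mul_const _)).congr_deriv ?_
    simp only [UU, dotProduct_add, dotProduct_smul, smul_eq_mul]
    linear_combination (mu t τ * (aa t τ * (y ⬝ᵥ a.1) + bb t τ * (y ⬝ᵥ a.2))) * cc_ic t
  have c1 : Continuous fun τ => mu t τ * (y ⬝ᵥ UU t τ a) := PG.cont (by fun_prop)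
  have c2 : Continuous fun τ => mu t τ * p.φ (UU t τ a) := PG.cont (by fun_prop)
  have e := fun u v => intervalIntegral.integral_eq_sub_of_hasDerivAt (a := u) (b := v)
    (fun τ _ => hG τ) (c1.intervalIntegrable _ _)
  have m1 : ∀ u v, u ≤ v → ∫ τ in u..v, mu t τ * (y ⬝ᵥ UU t τ a) ≤
      ∫ τ in u..v, mu t τ * p.φ (UU t τ a) := fun u v h =>
    intervalIntegral.integral_mono_on h (c1.intervalIntegrable _ _) (c2.intervalIntegrable _ _)
      fun τ _ => mul_le_mul_of_nonneg_left (hy _) (mu_pos t τ).le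
  have m2 : ∀ u v, u ≤ v → -∫ τ in u..v, mu t τ * (y ⬝ᵥ UU t τ a) ≤
      ∫ τ in u..v, mu t τ * p.φ (UU t τ a) := fun u v h => by
    rw [← intervalIntegral.integral_neg]
    refine intervalIntegral.integral_mono_on h (c1.neg.intervalIntegrable _ _)
      (c2.intervalIntegrable _ _) fun τ _ => ?_
    have := hy (-UU t τ a)
    rw [p.even, dotProduct_neg] at this
    nlinarith [mu_pos t τ]
  have hw := one_le_sqrt_cc t
  constructor
  · have h1 := m1 0 (π / 2) (by linarith)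
    have h2 := m2 (π / 2) π (by linarith)
    rw [e, aa_half, bb_half, aa_zero, bb_zero] at h1
    rw [e, aa_half, bb_half, aa_pi, bb_pi] at h2
    have h3 : cc t * (√(cc t))⁻¹ = √(cc t) := by
      rw [mul_inv_eq_iff_eq_mul₀ (by positivity), sqrt_cc_sq]
    rw [av, ← intervalIntegral.integral_add_adjacent_intervals (c2.intervalIntegrable 0 (π / 2))
      (c2.intervalIntegrable _ _), le_inv_mul_iff₀ hp]
    rw [h3] at h1 h2
    have : π * (2 / π * √(cc t) * y ⬝ᵥ a.1) = 2 * √(cc t) * y ⬝ᵥ a.1 := by field_simp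
    linarith
  · have h1 := m1 0 π hp.le
    rw [e, aa_zero, bb_zero, aa_pi, bb_pi] at h1
    rw [av, le_inv_mul_iff₀ hp]
    have : π * (2 / π * (ic t * √(cc t)) * y ⬝ᵥ a.2) = 2 * (ic t * √(cc t)) * y ⬝ᵥ a.2 := by
      field_simp
    linarith

lemma x_fderiv {k : ℝ → ℝ} (hk : Continuous k) (t : ℝ) (P R : ι → ℝ) :
    HasFDerivAt (fun R i => av fun τ => (k τ • p.g (UU t τ (P, R))) i)
      (toL (Matrix.of fun i j => av fun τ => k τ * bb t τ * p.H (UU t τ (P, R)) i j)) R := by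
  have cU : Continuous fun z : (ι → ℝ) × ℝ => UU t z.2 (P, z.1) := PG.cont (by fun_prop)
  have cb : Continuous (bb t) := PG.cont (by fun_prop)
  have cg := p.pg.1
  have cH : Continuous p.H := continuous_matrix fun i j => (p.pH i j).1
  have cL := continuous_toL (ι := ι)
  refine hasFDerivAt_pi'' fun i => ?_
  have cF : Continuous fun z : (ι → ℝ) × ℝ => (k z.2 * bb t z.2) •
      (ContinuousLinearMap.proj i).comp (toL (p.H (UU t z.2 (P, z.1)))) := by fun_prop
  have := (hasFDerivAt_intervalIntegral (F := fun R τ => (k τ • p.g (UU t τ (P, R))) i)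
    (F' := fun R τ => (k τ * bb t τ) • (ContinuousLinearMap.proj i).comp
      (toL (p.H (UU t τ (P, R))))) (by fun_prop) cF (fun R τ => ?_) 0 π R).const_mul π⁻¹
  · refine this.congr_fderiv ?_
    have cR : Continuous fun τ => UU t τ (P, R) := PG.cont (by fun_prop)
    ext1 v
    rw [_root_.smul_apply, ContinuousLinearMap.intervalIntegral_apply
      (Continuous.intervalIntegrable (by fun_prop) _ _)]
    have h2 := dot_av v (f := fun τ j => k τ * bb t τ * p.H (UU t τ (P, R)) i j)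
      (continuous_pi fun j => (hk.mul cb).mul
        (PG.cont (f := fun τ => p.H (UU t τ (P, R)) i j) (by fun_prop)))
    simp only [ContinuousLinearMap.comp_apply, ContinuousLinearMap.proj_apply, toL_apply,
      _root_.smul_apply, mulVec, dotProduct_comm _ v, smul_eq_mul]
    refine Eq.trans ?_ h2.symm
    simp only [av, dotProduct, Finset.mul_sum]
    congr 2
    ext τ
    exact Finset.sum_congr rfl fun j _ => by ring
  · have h1 : HasFDerivAt (fun R => UU t τ (P, R)) (bb t τ • ContinuousLinearMap.id ℝ (ι → ℝ)) R :=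
      ((hasFDerivAt_id R).const_smul (bb t τ)).const_add (aa t τ • P)
    refine ((hasFDerivAt_pi'.1 ((p.dg _).comp R h1) i).const_mul (k τ)).congr_fderiv ?_
    ext1 v
    simp [toL, mul_assoc]

end Pot

lemma Good.N_lo {p : Pot ι} {K : Set (ι → ℝ)} {θ ε M : ℝ} (h : Good p K θ ε M) (hB : Body K)
    (hθ : 0 ≤ θ) (t : ℝ) (a : (ι → ℝ) × (ι → ℝ)) :
    2 / π * √(cc t) * θ * hK K a.1 - 2 * ch t * ε ≤ p.N (t, a) ∧
    2 / π * (ic t * √(cc t)) * θ * hK K a.2 - 2 * ch t * ε ≤ p.N (t, a) := by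
  have hε : 0 ≤ ε := by linarith [h.chi_lo 0, h.chi_hi 0]
  have key : ∀ v, ∃ y, (∀ u, y ⬝ᵥ u ≤ p.φ u) ∧ y ⬝ᵥ v = θ * hK K v := fun v => by
    obtain ⟨x, hx, e⟩ := hB.exists_hK v
    refine ⟨θ • x, fun u => le_trans ?_ (h.lo u), ?_⟩
    · rw [smul_dotProduct, dotProduct_comm]
      exact mul_le_mul_of_nonneg_left (hB.le_hK u hx) hθ
    · rw [smul_dotProduct, dotProduct_comm, e, smul_eq_mul]
  have := p.N_lower hε h.chi_lo t a
  constructor
  · obtain ⟨y, h1, h2⟩ := key a.1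
    have := (p.avphi h1 t a).1
    rw [h2, ← mul_assoc] at this
    linarith
  · obtain ⟨y, h1, h2⟩ := key a.2
    have := (p.avphi h1 t a).2
    rw [h2, ← mul_assoc] at this
    linarith

lemma Good.decay {p : Pot ι} {K : Set (ι → ℝ)} {θ ε M : ℝ} (h : Good p K θ ε M) (hB : Body K)
    (hθ : 0 < θ) (T : ℝ) : ∃ δ > 0, ∃ D, ∀ t, |t| ≤ T → ∀ a, δ * ‖a‖ - D ≤ p.N (t, a) := by
  obtain ⟨δ, hδ, hl⟩ := hB.exists_lower
  have hε : 0 ≤ ε := by linarith [h.chi_lo 0, h.chi_hi 0]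
  have hp := Real.pi_pos
  have hT := ic_pos T
  refine ⟨2 / π * ic T * θ * δ, by positivity, 2 * cc T * ε, fun t ht a => ?_⟩
  have h1 : cc t ≤ cc T := by
    unfold cc; nlinarith [sq_abs t, abs_nonneg t]
  have h2 : ic T ≤ ic t := inv_anti₀ (cc_pos t) h1
  have h3 : 2 * ch t * ε ≤ 2 * cc T * ε := by
    gcongr; unfold ch; linarith [ic_le_one t, one_le_cc t]
  have hw := one_le_sqrt_cc t
  have hi := ic_pos t
  obtain ⟨h4, h5⟩ := h.N_lo hB hθ.le t a
  rw [Prod.norm_def, mul_assoc]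
  rcases le_total ‖a.1‖ ‖a.2‖ with h | h
  · rw [max_eq_right h]
    have : 2 / π * ic T * θ * (δ * ‖a.2‖) ≤ 2 / π * (ic t * √(cc t)) * θ * hK K a.2 := by
      gcongr
      · nlinarith
      · exact hl _
    linarith
  · rw [max_eq_left h]
    have : 2 / π * ic T * θ * (δ * ‖a.1‖) ≤ 2 / π * √(cc t) * θ * hK K a.1 := by
      gcongr
      · linarith [ic_le_one T]
      · exact hl _
    linarith

end Vale.Agent.P248
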