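import Vale.Agent.P248.End1

/-! The end of the deformation. -/

open MeasureTheory Set Filter Topology Real Matrix

namespace Vale.Agent.P248

variable {ι : Type*} [Fintype ι] [DecidableEq ι]
variable {p : Pot ι} {K : Set (ι → ℝ)} {θ ε M : ℝ}

lemma Good.inner (h : Good p K θ ε M) (hB : Body K) (t : ℝ) {k : ℝ → ℝ} (hk : Continuous k)
    (k0 : ∀ τ, 0 ≤ k τ) (k1 : ∀ τ ∈ Icc 0 π, k τ * bb t τ ≤ 1) {Λ σ L β : ℝ} (hΛ : 0 < Λ)
    (hσ : 0 < σ) (hL : 0 < L) (h1 : av k ≤ Λ) (h2 : M * av (fun τ => 1 - k τ * bb t τ) ≤ σ)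
    (h3 : L * σ ≤ β * Λ) (P : ι → ℝ) :
    ∫⁻ R, ENNReal.ofReal (Real.exp (-(β * ‖R‖)) * (p.A (t, P, R)).det) ≤
      ENNReal.ofReal (Λ ^ Fintype.card ι * JJ K L) := by
  have cb : Continuous (bb t) := PG.cont (by fun_prop)
  have cH : ∀ R u v, Continuous fun τ => u ⬝ᵥ p.H (UU t τ (P, R)) *ᵥ v :=
    fun R u v => PG.cont (by fun_prop)
  set B : (ι → ℝ) → Matrix ι ι ℝ := fun R =>
    Matrix.of fun i j => av fun τ => k τ * bb t τ * p.H (UU t τ (P, R)) i j with hBd
  set x1 : (ι → ℝ) → ι → ℝ := fun R i => av fun τ => (k τ • p.g (UU t τ (P, R))) i with hx1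
  have hq : ∀ R u v, u ⬝ᵥ B R *ᵥ v = av fun τ => k τ * bb t τ * (u ⬝ᵥ p.H (UU t τ (P, R)) *ᵥ v) := by
    intro R u v
    have c : ∀ i j, Continuous fun τ => p.H (UU t τ (P, R)) i j := fun i j => PG.cont (by fun_prop)
    simp only [hBd, dotProduct, mulVec, of_apply, Finset.mul_sum]
    rw [av_sum _ fun i => by fun_prop]
    refine Finset.sum_congr rfl fun i _ => ?_
    rw [av_sum _ fun i => by fun_prop]
    refine Finset.sum_congr rfl fun j _ => ?_
    rw [mul_comm _ (v j), ← mul_assoc, ← av_mul]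
    congr 1; ext τ; ring
  have hpsd : ∀ R, PSD (B R + σ • 1 - p.A (t, P, R)) := fun R => by
    refine ⟨fun i j => ?_, fun v => ?_⟩
    · simp only [hBd, Matrix.sub_apply, Matrix.add_apply, Matrix.smul_apply, of_apply,
        (p.A_psd _).1 i j, (PSD.one (ι := ι)).1 i j, (p.psd _).1 i j]
    · rw [sub_mulVec, add_mulVec, dotProduct_sub, dotProduct_add, hq, p.dot_A, smul_mulVec,
        one_mulVec, dotProduct_smul, smul_eq_mul]
      have hv : 0 ≤ v ⬝ᵥ v := (sq_nonneg _).trans (norm_sq_le_dot v)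
      have e1 := mul_le_mul_of_nonneg_right h2 hv
      have := cH R v v
      rw [mul_right_comm, ← av_mul] at e1
      have e2 := av_mono (f := fun τ => v ⬝ᵥ p.H (UU t τ (P, R)) *ᵥ v -
        k τ * bb t τ * (v ⬝ᵥ p.H (UU t τ (P, R)) *ᵥ v))
        (g := fun τ => M * (v ⬝ᵥ v) * (1 - k τ * bb t τ)) (by fun_prop) (by fun_prop) fun τ hτ => by
          nlinarith [mul_le_mul_of_nonneg_left (h.bd (UU t τ (P, R)) v) (sub_nonneg.2 (k1 τ hτ))]
      rw [av_sub (by fun_prop) (by fun_prop)] at e2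
      simp only
      linarith
  have hd : ∀ R, HasFDerivAt (fun R => Λ⁻¹ • (x1 R + σ • R)) (toL (Λ⁻¹ • (B R + σ • 1))) R := by
    intro R
    refine (((p.x_fderiv hk t P R).add ((hasFDerivAt_id R).const_smul σ)).const_smul
      Λ⁻¹).congr_fderiv ?_
    ext1 v
    rw [toL_apply, smul_mulVec, add_mulVec, smul_mulVec, one_mulVec]
    rfl
  have hinj := inj_of_fderiv hd fun R v hv => by
    rw [smul_mulVec, dotProduct_smul, add_mulVec, dotProduct_add, smul_mulVec, one_mulVec,
      dotProduct_smul, hq]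
    have e1 : 0 < v ⬝ᵥ v := (pow_pos (norm_pos_iff.2 hv) 2).trans_le (norm_sq_le_dot v)
    have := cH R v v
    have e2 := av_mono (f := fun _ => 0) (g := fun τ =>
      k τ * bb t τ * (v ⬝ᵥ p.H (UU t τ (P, R)) *ᵥ v)) (by fun_prop) (by fun_prop) fun τ hτ =>
        mul_nonneg (mul_nonneg (k0 τ) (mul_nonneg (rho_pos t τ).le
          (sin_nonneg_of_mem_Icc hτ))) ((p.psd _).2 v)
    rw [av_const] at e2
    simp only [smul_eq_mul]
    positivity
  have hmem : ∀ R, Λ⁻¹ • x1 R ∈ K := fun R => hB.mem_of_le fun u => by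
    have c : Continuous fun τ => p.g (UU t τ (P, R)) := PG.cont (by fun_prop)
    rw [dotProduct_smul, smul_eq_mul, inv_mul_le_iff₀ hΛ, hx1, dot_av u (by fun_prop)]
    refine le_trans ?_ (mul_le_mul_of_nonneg_right h1 (hB.hK_nonneg u))
    rw [mul_comm, ← av_mul]
    refine av_mono (by fun_prop) (by fun_prop) fun τ _ => ?_
    rw [dotProduct_smul, smul_eq_mul, mul_comm]
    exact mul_le_mul_of_nonneg_right (hB.le_hK u (h.mem _)) (k0 τ)
  have hcv := lintegral_image_eq_lintegral_abs_det_fderiv_mul volume MeasurableSet.univ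
    (fun R _ => (hd R).hasFDerivWithinAt) hinj.injOn
    fun z => ENNReal.ofReal (Real.exp (-(L * Metric.infDist z K)))
  rw [ENNReal.ofReal_mul (by positivity), JJ, ofReal_integral_eq_lintegral_ofReal
    (hB.integrable_JJ hL) (Eventually.of_forall fun z => (Real.exp_pos _).le)]
  refine le_trans ?_ (mul_le_mul_right (setLIntegral_le_lintegral
    ((fun R => Λ⁻¹ • (x1 R + σ • R)) '' univ) _) _)
  rw [hcv, setLIntegral_univ, ← lintegral_const_mul' _ _ ENNReal.ofReal_ne_top]
  refine lintegral_mono fun R => ?_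
  rw [← ENNReal.ofReal_mul (abs_nonneg _), ← ENNReal.ofReal_mul (by positivity)]
  refine ENNReal.ofReal_le_ofReal ?_
  have e1 := det_mono (p.A_psd (t, P, R)) (hpsd R)
  rw [add_sub_cancel] at e1
  have e0 := (p.A_psd (t, P, R)).det_nonneg
  have e2 : L * Metric.infDist (Λ⁻¹ • (x1 R + σ • R)) K ≤ β * ‖R‖ := by
    refine (mul_le_mul_of_nonneg_left (Metric.infDist_le_dist_of_mem (hmem R)) hL.le).trans ?_
    rw [dist_eq_norm, smul_add, add_sub_cancel_left, smul_smul, norm_smul,
      Real.norm_of_nonneg (by positivity), ← mul_assoc]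
    gcongr
    rw [← mul_assoc, mul_comm L, mul_assoc, inv_mul_le_iff₀ hΛ]
    linarith
  rw [toL_det, det_smul, abs_of_nonneg (mul_nonneg (by positivity) (e0.trans e1)), ← mul_assoc,
    ← mul_assoc, ← mul_pow, mul_inv_cancel₀ hΛ.ne', one_pow, one_mul, mul_comm]
  have := e0.trans e1
  gcongr

lemma Good.V_le [Nonempty ι] (h : Good p K θ ε M) (hB : Body K) (hθ : 0 < θ) (t : ℝ) {η δ Z : ℝ}
    (hη : 0 ≤ η) (hη1 : η < 1) (hδ : ∀ u, δ * ‖u‖ ≤ hK K u) (hZ : 0 ≤ Z)
    (hI : ∀ P, ∫⁻ R, ENNReal.ofReal (Real.exp (-(η * (2 / π * (ic t * √(cc t)) * θ * δ) * ‖R‖)) *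
      (p.A (t, P, R)).det) ≤ ENNReal.ofReal Z) :
    p.V t ≤ Real.exp (2 * ch t * ε) * ((Fintype.card ι).factorial * volume.real (pol K) /
      ((1 - η) * (2 / π * √(cc t) * θ)) ^ Fintype.card ι) * Z := by
  have := haar2 (ι := ι)
  have hp := Real.pi_pos
  have hw := one_le_sqrt_cc t
  have hi := ic_pos t
  have hb : 0 < (1 - η) * (2 / π * √(cc t) * θ) := mul_pos (sub_pos.2 hη1) (by positivity)
  obtain ⟨δ', hδ', D, hD⟩ := h.decay hB hθ |t|
  have pd : PG fun a => (p.A (t, a)).det := (PG.det p.pA).comp (by fun_prop)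
  have cN : Continuous fun a => p.N (t, a) := p.pN.1.comp (by fun_prop)
  have hint := pd.integrable (μ := volume) cN hδ' (hD t le_rfl)
  rw [← hB.integral_exp hb, ← ENNReal.ofReal_le_ofReal_iff (by positivity), Pot.V,
    ofReal_integral_eq_lintegral_ofReal hint (Eventually.of_forall fun a =>
      mul_nonneg (Real.exp_pos _).le (p.A_psd _).det_nonneg), Measure.volume_eq_prod,
    lintegral_prod _ (by have := pd.1; fun_prop), ← integral_const_mul, ← integral_mul_const,
    ofReal_integral_eq_lintegral_ofReal (((hB.integrable_exp hb).const_mul _).mul_const _)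
      (Eventually.of_forall fun a => by positivity)]
  refine lintegral_mono fun P => ?_
  rw [ENNReal.ofReal_mul (by positivity)]
  refine le_trans ?_ (mul_le_mul_right (hI P) _)
  rw [← lintegral_const_mul' _ _ ENNReal.ofReal_ne_top]
  refine lintegral_mono fun R => ?_
  rw [← ENNReal.ofReal_mul (by positivity), ← mul_assoc, ← Real.exp_add, ← Real.exp_add]
  refine ENNReal.ofReal_le_ofReal (mul_le_mul_of_nonneg_right (Real.exp_le_exp.2 ?_)
    (p.A_psd _).det_nonneg)
  obtain ⟨h1, h2⟩ := h.N_lo hB hθ.le t (P, R)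
  have h3 := mul_le_mul_of_nonneg_left h1 (sub_pos.2 hη1).le
  have h4 := mul_le_mul_of_nonneg_left h2 hη
  have h5 := mul_le_mul_of_nonneg_left (hδ R)
    (show 0 ≤ η * (2 / π * (ic t * √(cc t)) * θ) by positivity)
  simp only at h3 h4
  linarith

lemma inv_bb_le (t : ℝ) {τ s : ℝ} (hs : 0 < s) (h : s ≤ sin τ) :
    0 < bb t τ ∧ (bb t τ)⁻¹ ≤ √(cc t) * (1 + ic t / s) := by
  have h0 := hs.trans_le h
  have hb : 0 < bb t τ := mul_pos (rho_pos t τ) h0
  have hi := ic_pos t
  have hw := one_le_sqrt_cc t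
  refine ⟨hb, ?_⟩
  have h1 : √(QQ t τ) ≤ √(cc t) * (sin τ + ic t) := by
    rw [Real.sqrt_le_left (by positivity), mul_pow, sq_sqrt (cc_pos t).le, QQ]
    have := cc_ic t
    have e : cc t * (sin τ + ic t) ^ 2 = cc t * sin τ ^ 2 + 2 * sin τ + ic t := by
      linear_combination (2 * sin τ + ic t) * this
    nlinarith [cos_sq_le_one τ]
  rw [bb, rho, mul_inv, inv_inv, mul_inv_le_iff₀ h0, mul_assoc]
  refine h1.trans (mul_le_mul_of_nonneg_left ?_ (by positivity))
  have : ic t ≤ ic t / s * sin τ := by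
    rw [div_mul_eq_mul_div, le_div_iff₀ hs]; gcongr
  linarith

theorem endpoint [Nonempty ι] (hB : Body K) (hθ : 0 < θ) {C γ : ℝ} (hC : 0 < C) (hγ : 0 < γ) :
    ∃ β > 0, ∃ t0, ∀ t, t0 ≤ t → ∀ p : Pot ι, Good p K θ (β * ic t) (C / (β * ic t)) →
      p.V t ≤ (Fintype.card ι).factorial * volume.real (pol K) * (π / 2 / θ) ^ Fintype.card ι *
        volume.real K + γ := by
  obtain ⟨δ, hδ, hl⟩ := hB.exists_lower
  have hp := Real.pi_pos
  set n := Fintype.card ι
  set G : ℝ → ℝ := fun s => Real.exp (2 * s) * (n.factorial * volume.real (pol K)) *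
    ((1 + s) / (1 - s) * (π / 2 / θ)) ^ n * (volume.real K + s) with hG
  have hc : ContinuousAt G 0 := by
    simp only [hG]; fun_prop (disch := norm_num)
  obtain ⟨s, hs, hs0, hs1⟩ := ((hc.eventually_lt_const (show G 0 < G 0 + γ by linarith)).filter_mono
    nhdsWithin_le_nhds |>.and (Ioo_mem_nhdsGT one_pos)).exists
  have hκ : 0 < s * (2 / π * θ * δ) * s / (2 * C) := by positivity
  obtain ⟨m, hm, hm2⟩ := (((hB.tendsto_JJ.comp (tendsto_id.atTop_mul_const hκ)).eventually_lt_const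
    (show volume.real K < volume.real K + s by linarith)).and (eventually_ge_atTop (2 : ℝ))).exists
  have hm0 : 0 < m := by linarith
  refine ⟨s, hs0, 4 * m / s ^ 2, fun t ht p h => ?_⟩
  have hi := ic_pos t
  have hw := one_le_sqrt_cc t
  have hi1 := ic_le_one t
  have cb : Continuous (bb t) := PG.cont (by fun_prop)
  have hd : 0 < (m * √(cc t))⁻¹ := by positivity
  have hmx : ∀ τ, 0 < max (bb t τ) (m * √(cc t))⁻¹ := fun τ => hd.trans_le (le_max_right _ _)
  have hk : Continuous fun τ => (max (bb t τ) (m * √(cc t))⁻¹)⁻¹ :=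
    (cb.max continuous_const).inv₀ fun τ => (hmx τ).ne'
  have hic : ic t / (s / (2 * m)) ≤ s / 2 := by
    rw [div_le_iff₀ (by positivity)]
    have h1 : 4 * m / s ^ 2 ≤ cc t := by unfold cc; nlinarith [sq_nonneg (t - 1)]
    rw [div_le_iff₀ (by positivity)] at h1
    rw [div_mul_div_comm, le_div_iff₀ (by positivity)]
    nlinarith [cc_ic t, mul_le_mul_of_nonneg_left h1 hi.le]
  have hI := h.inner hB t hk (fun τ => (inv_pos.2 (hmx τ)).le)
    (fun τ _ => by rw [inv_mul_le_iff₀ (hmx τ), mul_one]; exact le_max_left _ _)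
    (Λ := √(cc t) * (1 + s)) (σ := 2 * C / (s * m)) (L := m * (s * (2 / π * θ * δ) * s / (2 * C)))
    (β := s * (2 / π * (ic t * √(cc t)) * θ * δ)) (by positivity) (by positivity) (by positivity)
    ?_ ?_ ?_
  · refine (h.V_le hB hθ t hs0.le hs1 hl (mul_nonneg (by positivity)
      (integral_nonneg fun _ => (Real.exp_pos _).le)) hI).trans ?_
    have e0 : G 0 = n.factorial * volume.real (pol K) * (π / 2 / θ) ^ n * volume.real K := by
      simp [hG]
    rw [← e0]
    refine le_trans ?_ hs.le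
    have h1 : 0 < 1 - s := sub_pos.2 hs1
    have e1 : ((1 + s) / (1 - s) * (π / 2 / θ)) ^ n =
        (√(cc t) * (1 + s)) ^ n / ((1 - s) * (2 / π * √(cc t) * θ)) ^ n := by
      rw [← div_pow]; congr 1; field_simp
    simp only [hG, e1]
    have e2 : 2 * ch t * (s * ic t) ≤ 2 * s := by
      have : 2 * ch t * ic t ≤ 2 := by unfold ch; nlinarith [cc_ic t]
      nlinarith
    calc _ = Real.exp (2 * ch t * (s * ic t)) * (n.factorial * volume.real (pol K)) *
          ((√(cc t) * (1 + s)) ^ n / ((1 - s) * (2 / π * √(cc t) * θ)) ^ n) *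
          JJ K (m * (s * (2 / π * θ * δ) * s / (2 * C))) := by
          simp only [n, JJ]; ring
      _ ≤ _ := by
        gcongr
        · exact integral_nonneg fun _ => (Real.exp_pos _).le
        · exact hm.le
  · refine (av_le_split hk (B := m * √(cc t)) (B' := √(cc t) * (1 + s / 2)) (s := s / (2 * m))
      (by positivity) (by rw [div_le_one (by positivity)]; linarith) (by positivity)
      (fun τ _ => ?_) fun τ _ hτ => ?_).trans (le_of_eq (by field_simp; ring))
    · rw [inv_le_comm₀ (hmx τ) (by positivity)]; exact le_max_right _ _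
    · obtain ⟨h1, h2⟩ := inv_bb_le t (by positivity) hτ
      refine (inv_anti₀ h1 (le_max_left _ _)).trans (h2.trans ?_)
      gcongr
  · have := av_le_split (f := fun τ => 1 - (max (bb t τ) (m * √(cc t))⁻¹)⁻¹ * bb t τ) (by fun_prop)
      (B := 1) (B' := 0) (s := 2 * ic t / m) (by positivity)
      (by rw [div_le_one hm0]; linarith) le_rfl (fun τ hτ => ?_) fun τ _ hτ => ?_
    · refine (mul_le_mul_of_nonneg_left this (by positivity)).trans (le_of_eq ?_)
      field_simp; ring
    · have := mul_nonneg (inv_pos.2 (hmx τ)).le (mul_nonneg (rho_pos t τ).le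
        (sin_nonneg_of_mem_Icc hτ))
      rw [← bb] at this
      linarith
    · obtain ⟨h1, h2⟩ := inv_bb_le t (by positivity) hτ
      have h3 : ic t / (2 * ic t / m) = m / 2 := by field_simp
      rw [max_eq_left, inv_mul_cancel₀ h1.ne', sub_self]
      rw [inv_le_comm₀ (by positivity) h1]
      refine h2.trans ?_
      rw [h3]; nlinarith
  · have e : ic t * √(cc t) * √(cc t) = 1 := by rw [mul_assoc, sqrt_cc_sq, mul_comm, cc_ic]
    have e1 : m * (s * (2 / π * θ * δ) * s / (2 * C)) * (2 * C / (s * m)) =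
      s * (2 / π * θ * δ) := by field_simp
    have e2 : s * (2 / π * (ic t * √(cc t)) * θ * δ) * (√(cc t) * (1 + s)) =
      s * (2 / π * θ * δ) * (1 + s) := by
      linear_combination (s * (2 / π * θ * δ) * (1 + s)) * e
    rw [e1, e2]
    exact le_mul_of_one_le_right (by positivity) (by linarith)

theorem Good.V_mono (h : Good p K θ ε M) (hB : Body K) (hθ : 0 < θ) : MonotoneOn p.V (Ici 0) := by
  have hd := p.V_deriv (h.decay hB hθ)
  refine monotoneOn_of_deriv_nonneg (convex_Ici 0) (fun t _ => (hd t).continuousAt.continuousWithinAt)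
    (fun t _ => (hd t).differentiableAt.differentiableWithinAt) fun t ht => ?_
  rw [(hd t).deriv]
  exact integral_nonneg fun a => mul_nonneg (Real.exp_pos _).le (mul_nonneg (mul_nonneg
    (mul_nonneg (interior_subset ht) (ic_pos t).le) (sh_nonneg t))
    ((p.DX_nonneg _).trans (p.le_Dens h.chi_hi _)))

theorem Good.V_zero (h : Good p K θ ε M) (hB : Body K) (hθ : 0 < θ) :
    p.V 0 = (2 * π) ^ Fintype.card ι := by
  obtain ⟨δ, hδ, D, hD⟩ := h.decay hB hθ 0
  exact p.V_zero hδ (hD 0 (by simp))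

end Vale.Agent.P248
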