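import Mathlib

/-! Derivative of the determinant, Piola identity, Gram inequality, monotone determinant. -/

open Matrix Set Filter Topology

namespace Vale.Agent.P248

variable {ι : Type*} [Fintype ι] [DecidableEq ι]

/-- symmetric positive semidefinite -/
def PSD (A : Matrix ι ι ℝ) : Prop := (∀ i j, A i j = A j i) ∧ ∀ v, 0 ≤ v ⬝ᵥ A *ᵥ v

omit [DecidableEq ι] in
lemma PSD.psd {A : Matrix ι ι ℝ} (h : PSD A) : A.PosSemidef :=
  PosSemidef.of_dotProduct_mulVec_nonneg (by ext i j; simp [h.1 i j]) fun x => by simpa using h.2 x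

lemma PSD.det_nonneg {A : Matrix ι ι ℝ} (h : PSD A) : 0 ≤ A.det := h.psd.det_nonneg

lemma PSD.pd {A : Matrix ι ι ℝ} (h : PSD A) {s : ℝ} (hs : 0 < s) : (A + s • 1).PosDef :=
  PosDef.posSemidef_add h.psd (PosDef.one.smul hs)

omit [DecidableEq ι] in
lemma PSD.add {A B : Matrix ι ι ℝ} (hA : PSD A) (hB : PSD B) : PSD (A + B) :=
  ⟨fun i j => by simp [hA.1 i j, hB.1 i j], fun v => by
    rw [add_mulVec, dotProduct_add]; exact add_nonneg (hA.2 v) (hB.2 v)⟩

omit [DecidableEq ι] in
lemma PSD.smul {A : Matrix ι ι ℝ} (hA : PSD A) {s : ℝ} (hs : 0 ≤ s) : PSD (s • A) :=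
  ⟨fun i j => by simp [hA.1 i j], fun v => by
    rw [smul_mulVec, dotProduct_smul]; exact mul_nonneg hs (hA.2 v)⟩

lemma PSD.one : PSD (1 : Matrix ι ι ℝ) :=
  ⟨fun i j => by simp [one_apply, eq_comm], fun v => by
    rw [one_mulVec]; exact Finset.sum_nonneg fun i _ => mul_self_nonneg _⟩

omit [DecidableEq ι] in
lemma dot_mulVec_comm {A : Matrix ι ι ℝ} (h : ∀ i j, A i j = A j i) (u v : ι → ℝ) :
    u ⬝ᵥ A *ᵥ v = v ⬝ᵥ A *ᵥ u := by
  simp only [dotProduct, mulVec, Finset.mul_sum]
  rw [Finset.sum_comm]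
  exact Finset.sum_congr rfl fun i _ => Finset.sum_congr rfl fun j _ => by rw [h i j]; ring

lemma hasDerivAt_det {A : ℝ → Matrix ι ι ℝ} {A' : Matrix ι ι ℝ} {t : ℝ}
    (h : ∀ i j, HasDerivAt (fun s => A s i j) (A' i j) t) :
    HasDerivAt (fun s => (A s).det) (∑ k, ((A t).updateRow k (A' k)).det) t := by
  simp only [← det_transpose (A _), ← det_transpose (updateRow _ _ _), det_apply', transpose_apply]
  rw [Finset.sum_comm]
  refine HasDerivAt.fun_sum fun σ _ => ?_
  rw [← Finset.mul_sum]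
  refine HasDerivAt.const_mul _ ?_
  refine (HasDerivAt.fun_finsetProd (u := Finset.univ) (f := fun i s => A s i (σ i))
    (f' := fun i => A' i (σ i)) fun i _ => h i (σ i)).congr_deriv ?_
  refine Finset.sum_congr rfl fun k _ => ?_
  rw [← Finset.mul_prod_erase _ _ (Finset.mem_univ k), updateRow_self, smul_eq_mul, mul_comm]
  congr 1
  exact Finset.prod_congr rfl fun i hi => by rw [updateRow_ne (Finset.ne_of_mem_erase hi)]

lemma det_updateRow_eq (A : Matrix ι ι ℝ) (k : ι) (v : ι → ℝ) :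
    (A.updateRow k v).det = ∑ l, A.adjugate l k * v l := by
  rw [← cramer_transpose_apply, cramer_eq_adjugate_mulVec, ← adjugate_transpose]
  rfl

lemma hasDerivAt_det' {A : ℝ → Matrix ι ι ℝ} {A' : Matrix ι ι ℝ} {t : ℝ}
    (h : ∀ i j, HasDerivAt (fun s => A s i j) (A' i j) t) :
    HasDerivAt (fun s => (A s).det) (∑ k, ∑ l, (A t).adjugate l k * A' k l) t := by
  simpa only [det_updateRow_eq] using hasDerivAt_det h

/-- derivative of the adjugate at `M` in direction `T` -/
noncomputable def dadj (M T : Matrix ι ι ℝ) (i j : ι) : ℝ :=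
  ∑ k, ∑ l, (M.updateRow j (Pi.single i 1)).adjugate l k * (T.updateRow j 0) k l

lemma hasDerivAt_adj {A : ℝ → Matrix ι ι ℝ} {A' : Matrix ι ι ℝ} {t : ℝ}
    (h : ∀ i j, HasDerivAt (fun s => A s i j) (A' i j) t) (i j : ι) :
    HasDerivAt (fun s => (A s).adjugate i j) (dadj (A t) A' i j) t := by
  rw [funext fun s => adjugate_apply (A s) i j]
  refine hasDerivAt_det' (A := fun s => (A s).updateRow j (Pi.single i 1)) fun k l => ?_
  simp only [updateRow_apply]
  split_ifs
  · exact hasDerivAt_const _ _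
  · exact h k l

lemma det_swap2 (M : Matrix ι ι ℝ) {j k : ι} (h : k ≠ j) (u v : ι → ℝ) :
    ((M.updateRow j u).updateRow k v).det = -((M.updateRow j v).updateRow k u).det := by
  have : (M.updateRow j u).updateRow k v =
      ((M.updateRow j v).updateRow k u).submatrix (Equiv.swap k j) id := by
    ext a b
    simp only [submatrix_apply, updateRow_apply, id, Equiv.swap_apply_def]
    by_cases h1 : a = k
    · simp [h1, h.symm]
    · by_cases h2 : a = j
      · simp [h2, h.symm]
      · simp [h1, h2]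
  rw [this, det_permute, Equiv.Perm.sign_swap h]
  simp

lemma piola (M : Matrix ι ι ℝ) (T : ι → Matrix ι ι ℝ) (hT : ∀ i k l, T i k l = T l k i) (j : ι) :
    ∑ i, dadj M (T i) i j = 0 := by
  simp only [dadj]
  rw [Finset.sum_comm]
  refine Finset.sum_eq_zero fun k _ => ?_
  by_cases h : k = j
  · simp [h]
  simp only [updateRow_ne h, adjugate_apply]
  set S := ∑ i, ∑ l, ((M.updateRow j (Pi.single i 1)).updateRow k (Pi.single l 1)).det * T i k l
    with hS
  have : S = -S := by
    conv_lhs => rw [hS, Finset.sum_comm]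
    rw [hS, ← Finset.sum_neg_distrib]
    refine Finset.sum_congr rfl fun i _ => ?_
    rw [← Finset.sum_neg_distrib]
    refine Finset.sum_congr rfl fun l _ => ?_
    rw [det_swap2 M h, hT l k i]; ring
  linarith

lemma adj_symm {A : Matrix ι ι ℝ} (h : ∀ i j, A i j = A j i) (i j : ι) :
    A.adjugate i j = A.adjugate j i := by
  have : Aᵀ = A := by ext i j; exact h j i
  rw [← transpose_apply (A.adjugate) j i, adjugate_transpose, this]

lemma mulVec_dot_adj {A : Matrix ι ι ℝ} (h : ∀ i j, A i j = A j i) (u v : ι → ℝ) :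
    (A *ᵥ u) ⬝ᵥ A.adjugate *ᵥ v = A.det * (u ⬝ᵥ v) := by
  rw [dotProduct_comm, dot_mulVec_comm h, mulVec_mulVec, mul_adjugate, smul_mulVec, one_mulVec,
    dotProduct_smul, smul_eq_mul]

lemma le_of_pos_cont {f g : ℝ → ℝ} (hf : Continuous f) (hg : Continuous g)
    (h : ∀ s, 0 < s → f s ≤ g s) : f 0 ≤ g 0 :=
  le_of_tendsto_of_tendsto (b := 𝓝[>] (0 : ℝ)) (hf.continuousWithinAt) (hg.continuousWithinAt)
    (eventually_mem_nhdsWithin.mono h)

lemma gram {A : Matrix ι ι ℝ} (hA : PSD A) (S : ι → ℝ) (q m : ℝ)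
    (h : ∀ v, m ≤ q - 2 * (v ⬝ᵥ S) + v ⬝ᵥ A *ᵥ v) :
    m * A.det ≤ q * A.det - S ⬝ᵥ A.adjugate *ᵥ S := by
  have key : ∀ s : ℝ, 0 < s → m * (A + s • 1).det ≤
      q * (A + s • 1).det - S ⬝ᵥ (A + s • 1).adjugate *ᵥ S := by
    intro s hs
    set B := A + s • (1 : Matrix ι ι ℝ) with hB
    have hd : 0 < B.det := (hA.pd hs).det_pos
    set v := (B.det)⁻¹ • B.adjugate *ᵥ S with hv
    have h1 : B *ᵥ v = S := by
      rw [hv, mulVec_smul, mulVec_mulVec, mul_adjugate, smul_mulVec, one_mulVec, smul_smul,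
        inv_mul_cancel₀ hd.ne', one_smul]
    have h2 : v ⬝ᵥ A *ᵥ v ≤ v ⬝ᵥ S := by
      rw [← h1, hB, add_mulVec, dotProduct_add]
      linarith [(PSD.one.smul hs.le).2 v]
    have h3 : S ⬝ᵥ B.adjugate *ᵥ S = B.det * (v ⬝ᵥ S) := by
      rw [hv, smul_dotProduct, smul_eq_mul, ← mul_assoc, mul_inv_cancel₀ hd.ne', one_mul,
        dotProduct_comm]
    rw [h3]
    nlinarith [h v]
  have hc : Continuous fun s : ℝ => A + s • (1 : Matrix ι ι ℝ) := by fun_prop
  have := le_of_pos_cont (hc.matrix_det.const_mul m)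
    ((hc.matrix_det.const_mul q).sub (continuous_const.dotProduct
      (hc.matrix_adjugate.matrix_mulVec continuous_const))) key
  simpa using this

lemma det_mono {A B : Matrix ι ι ℝ} (hA : PSD A) (hB : PSD B) : A.det ≤ (A + B).det := by
  have key : ∀ e : ℝ, 0 < e → (A + e • 1).det ≤ (A + B + e • 1).det := by
    intro e he
    have hd : ∀ s : ℝ, HasDerivAt (fun s : ℝ => (A + s • B + e • 1).det)
        (∑ k, ∑ l, (A + s • B + e • 1).adjugate l k * B k l) s := fun s =>
      hasDerivAt_det' fun i j => by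
        simpa using ((hasDerivAt_id s).mul_const (B i j)).const_add (A i j)
    have := monotoneOn_of_deriv_nonneg (convex_Icc (0 : ℝ) 1)
      (fun s _ => (hd s).continuousAt.continuousWithinAt)
      (fun s _ => (hd s).differentiableAt.differentiableWithinAt) (fun s hs => ?_)
      (left_mem_Icc.2 zero_le_one) (right_mem_Icc.2 zero_le_one) zero_le_one
    · simpa using this
    rw [(hd s).deriv]
    have hp := (hA.add (hB.smul (interior_subset hs).1)).pd he
    set M := A + s • B + e • (1 : Matrix ι ι ℝ)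
    have h1 : M.adjugate.PosSemidef := by
      have : M.adjugate = M.det • M⁻¹ := by
        rw [inv_def, smul_smul, Ring.mul_inverse_cancel _ hp.det_pos.ne'.isUnit, one_smul]
      rw [this]
      exact hp.inv.posSemidef.smul hp.det_pos.le
    have := (h1.hadamard hB.psd).dotProduct_mulVec_nonneg 1
    simp only [dotProduct, mulVec, hadamard_apply, star_trivial, Pi.one_apply, one_mul,
      mul_one] at this
    rw [Finset.sum_comm]
    simpa only [hB.1] using this
  have hc : Continuous fun s : ℝ => A + s • (1 : Matrix ι ι ℝ) := by fun_prop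
  have hc' : Continuous fun s : ℝ => A + B + s • (1 : Matrix ι ι ℝ) := by fun_prop
  simpa using le_of_pos_cont hc.matrix_det hc'.matrix_det key

end Vale.Agent.P248
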