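import Vale.Agent.P248.Coef
import Vale.Agent.P248.LinAlg

/-! A Chebyshev system and elementary inequalities for quadratic forms. -/

open Set Filter Topology Real Matrix Metric Polynomial

namespace Vale.Agent.P248

lemma cauchy_zero {m : ℕ} {x c a : Fin m → ℝ} (hx : Function.Injective x)
    (hc : Function.Injective c) (hxc : ∀ j i, x j + c i ≠ 0)
    (h : ∀ j, ∑ i, a i / (x j + c i) = 0) (i : Fin m) : a i = 0 := by
  have hp : (∑ i, C (a i) * ∏ k ∈ Finset.univ.erase i, (X + C (c k)) : ℝ[X]) = 0 := by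
    refine eq_zero_of_degree_lt_of_eval_index_eq_zero Finset.univ hx.injOn ?_ fun j _ => ?_
    · refine (degree_sum_le _ _).trans_lt ((Finset.sup_lt_iff (by simp)).2 fun i _ => ?_)
      rw [C_mul']
      refine (degree_smul_le _ _).trans_lt ?_
      rw [degree_prod]
      simp only [degree_X_add_C, Finset.sum_const, Finset.card_erase_of_mem (Finset.mem_univ i),
        nsmul_one, Nat.cast_lt, Finset.card_univ, Fintype.card_fin]
      have := i.pos
      omega
    · rw [← zero_mul (∏ k, (x j + c k)), ← h j, Finset.sum_mul, eval_finsetSum]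
      refine Finset.sum_congr rfl fun i _ => ?_
      rw [← Finset.mul_prod_erase _ _ (Finset.mem_univ i), ← mul_assoc, div_mul_cancel₀ _ (hxc j i)]
      simp [eval_prod]
  have := congrArg (eval (-c i)) hp
  rw [eval_finsetSum, Finset.sum_eq_single i (fun k _ hk => by
    simp only [eval_mul, eval_prod]
    rw [Finset.prod_eq_zero (i := i) (by simpa using hk.symm) (by simp), mul_zero]) (by simp)] at this
  simp only [eval_mul, eval_C, eval_prod, eval_add, eval_X, eval_zero, mul_eq_zero,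
    Finset.prod_eq_zero_iff] at this
  refine this.resolve_right ?_
  rintro ⟨k, hk, e⟩
  exact Finset.ne_of_mem_erase hk (hc (by linarith))

lemma cheb {m : ℕ} {l r : Fin m → ℝ} (hl : ∀ j, 0 < l j) (hdis : ∀ i j, i < j → r i < l j) :
    ∃ δ > 0, ∀ s ∈ Icc (0 : ℝ) 1, ∀ a : Fin m → ℝ, ‖a‖ = 1 → ∃ j, ∀ σ ∈ Icc (l j) (r j),
      δ ≤ |∑ i : Fin m, a i * (2 * cc (i + 1 + s) ^ 2 / (σ ^ 2 + cc (i + 1 + s) ^ 2))| := by
  have hc : Continuous cc := PG.cc.1
  have hne : ∀ σ t, σ ^ 2 + cc t ^ 2 ≠ 0 := fun σ t => by have := cc_pos t; positivity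
  obtain ⟨δ, hδ, h⟩ := ((isCompact_Icc (a := (0 : ℝ)) (b := 1)).prod
    ((isCompact_sphere (0 : Fin m → ℝ) 1).prod
    (isCompact_univ_pi fun j => isCompact_Icc (a := l j) (b := r j)))).exists_forall_le' (a := 0)
    (f := fun z => ∑ j, |∑ i : Fin m, z.2.1 i *
      (2 * cc (i + 1 + z.1) ^ 2 / (z.2.2 j ^ 2 + cc (i + 1 + z.1) ^ 2))|)
    (Continuous.continuousOn (by fun_prop (disch := exact fun _ => hne _ _))) (by
      rintro ⟨s, a, σ⟩ ⟨hs, ha, hσ⟩
      refine (Finset.sum_nonneg fun _ _ => abs_nonneg _).lt_of_ne fun e => ?_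
      have e1 := (Finset.sum_eq_zero_iff_of_nonneg fun _ _ => abs_nonneg _).1 e.symm
      have hσ' : ∀ j, σ j ∈ Icc (l j) (r j) := fun j => hσ j (mem_univ j)
      have e2 := cauchy_zero (x := fun j => σ j ^ 2) (c := fun i => cc (i + 1 + s) ^ 2)
        (a := fun i => a i * (2 * cc (i + 1 + s) ^ 2)) (StrictMono.injective fun i j hij =>
          pow_lt_pow_left₀ (((hσ' i).2.trans_lt (hdis i j hij)).trans_le (hσ' j).1)
            ((hl i).le.trans (hσ' i).1) two_ne_zero)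
        (StrictMono.injective fun i j hij => pow_lt_pow_left₀ (by
          have h1 : ((i : ℕ) : ℝ) < (j : ℕ) := Nat.cast_lt.2 hij
          have h2 : (0 : ℝ) ≤ (i : ℕ) := Nat.cast_nonneg _
          have h3 : 0 ≤ s := hs.1
          unfold cc; nlinarith) (cc_pos _).le two_ne_zero) (fun j i => hne _ _)
        fun j => by simpa only [mul_div_assoc, abs_eq_zero] using e1 j (Finset.mem_univ j)
      have : a = 0 := funext fun i => (mul_eq_zero.1 (e2 i)).resolve_right (by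
        have := cc_pos (i + 1 + s); positivity)
      simp [this] at ha)
  refine ⟨δ / (m + 1), by positivity, fun s hs a ha => ?_⟩
  by_contra hcon
  push Not at hcon
  choose σ hσ h2 using hcon
  have h3 := (h (s, a, σ) ⟨hs, by simpa using ha, fun j _ => hσ j⟩).trans
    (Finset.sum_le_sum fun j _ => (h2 j).le)
  rw [Finset.sum_const, Finset.card_univ, Fintype.card_fin, nsmul_eq_mul, ← mul_div_assoc,
    le_div_iff₀ (by positivity)] at h3
  linarith

variable {ι : Type*} [Fintype ι]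

lemma exists_dep (v : Fin (Fintype.card ι + 1) → ι → ℝ) :
    ∃ a : Fin (Fintype.card ι + 1) → ℝ, ‖a‖ = 1 ∧ ∑ i, a i • v i = 0 := by
  have : ¬LinearIndependent ℝ v := fun h => by simpa using h.fintype_card_le_finrank
  obtain ⟨a, h1, i, hi⟩ := Fintype.not_linearIndependent_iff.1 this
  have h0 : ‖a‖ ≠ 0 := norm_ne_zero_iff.2 fun e => hi (by simp [e])
  refine ⟨‖a‖⁻¹ • a, by rw [norm_smul, norm_inv, norm_norm, inv_mul_cancel₀ h0], ?_⟩
  simp only [Pi.smul_apply, smul_assoc, ← Finset.smul_sum, h1, smul_zero]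

lemma PSD.two_mul_le {A : Matrix ι ι ℝ} (hA : PSD A) (x y : ι → ℝ) :
    2 * (x ⬝ᵥ A *ᵥ y) ≤ x ⬝ᵥ A *ᵥ x + y ⬝ᵥ A *ᵥ y := by
  have := hA.2 (x - y)
  simp only [mulVec_sub, dotProduct_sub, sub_dotProduct, dot_mulVec_comm hA.1 y x] at this
  linarith

lemma PSD.sum_le {A : Matrix ι ι ℝ} (hA : PSD A) {m : ℕ} (a : Fin m → ℝ) (ha : ‖a‖ = 1)
    (Z : Fin m → ι → ℝ) :
    (∑ i, a i • Z i) ⬝ᵥ A *ᵥ (∑ i, a i • Z i) ≤ m * ∑ i, Z i ⬝ᵥ A *ᵥ Z i := by
  have h1 : ∀ i, (a i • Z i) ⬝ᵥ A *ᵥ (a i • Z i) ≤ Z i ⬝ᵥ A *ᵥ Z i := fun i => by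
    have h2 : |a i| ≤ 1 := ha ▸ norm_le_pi_norm a i
    rw [mulVec_smul, dotProduct_smul, smul_dotProduct, smul_smul]
    exact mul_le_of_le_one_left (hA.2 _) (by nlinarith [abs_le.1 h2])
  simp only [mulVec_sum, sum_dotProduct, dotProduct_sum]
  have h2 := Finset.sum_le_sum (s := Finset.univ) fun i _ =>
    Finset.sum_le_sum (s := Finset.univ) fun j _ =>
      (hA.two_mul_le (a j • Z j) (a i • Z i)).trans (add_le_add (h1 j) (h1 i))
  simp only [Finset.sum_add_distrib, Finset.sum_const, Finset.card_univ, Fintype.card_fin,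
    nsmul_eq_mul, ← Finset.mul_sum] at h2
  linarith

lemma PSD.add_ge {A : Matrix ι ι ℝ} (hA : PSD A) (f β : ℝ) (x u : ι → ℝ) :
    f ^ 2 / 2 * (x ⬝ᵥ A *ᵥ x) - β ^ 2 * (u ⬝ᵥ A *ᵥ u) ≤
      (f • x + β • u) ⬝ᵥ A *ᵥ (f • x + β • u) := by
  have := hA.2 (f • x + (2 * β) • u)
  simp only [mulVec_add, mulVec_smul, dotProduct_add, add_dotProduct, dotProduct_smul,
    smul_dotProduct, dot_mulVec_comm hA.1 u x, smul_eq_mul] at this ⊢
  linarith

lemma le_sum_iInf {m : ℕ} {E : Type*} [Nonempty E] (F : Fin m → E → ℝ) {d : ℝ}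
    (h : ∀ v : Fin m → E, d ≤ ∑ i, F i (v i)) : d ≤ ∑ i, ⨅ v, F i v := by
  refine le_of_forall_pos_le_add fun e he => ?_
  have : ∀ i, ∃ v, F i v < (⨅ v, F i v) + e / (m + 1) := fun i =>
    exists_lt_of_ciInf_lt (lt_add_of_pos_right _ (by positivity))
  choose v hv using this
  refine (h v).trans ((Finset.sum_le_sum fun i _ => (hv i).le).trans ?_)
  rw [Finset.sum_add_distrib, Finset.sum_const, Finset.card_univ, Fintype.card_fin, nsmul_eq_mul,
    ← mul_div_assoc, add_le_add_iff_left, div_le_iff₀ (by positivity)]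
  linarith

end Vale.Agent.P248
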