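import Vale.Agent.P248.Supp

/-! Convex geometry needed for the lower bound of the Monge-Ampere mass. -/

open MeasureTheory Set Filter Topology Real Matrix Metric

namespace Vale.Agent.P248

variable {ι : Type*} [Fintype ι]

/-- defect in the triangle inequality -/
noncomputable def gap (K : Set (ι → ℝ)) (u u' : ι → ℝ) : ℝ := hK K u + hK K u' - hK K (u + u')

/-- exposed directions -/
def Expo (K : Set (ι → ℝ)) (u : ι → ℝ) : Prop := ∃ y, ∀ z ∈ K, u ⬝ᵥ z = hK K u → z = y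

/-- the averaged support function along a segment -/
noncomputable def Phi (K : Set (ι → ℝ)) (S : ℝ) (P R : ι → ℝ) : ℝ :=
  ∫ σ in (-S)..S, hK K (R + σ • P)

namespace Body

variable {K : Set (ι → ℝ)} (hB : Body K)
include hB

lemma gap_nonneg (u u' : ι → ℝ) : 0 ≤ gap K u u' := sub_nonneg.2 (hB.hK_add u u')

lemma gap_le_zero {u u' : ι → ℝ} :
    gap K u u' ≤ 0 ↔ ∃ y ∈ K, u ⬝ᵥ y = hK K u ∧ u' ⬝ᵥ y = hK K u' := by
  constructor
  · intro h
    obtain ⟨y, hy, e⟩ := hB.exists_hK (u + u')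
    have h1 := hB.le_hK u hy
    have h2 := hB.le_hK u' hy
    rw [add_dotProduct] at e
    unfold gap at h
    exact ⟨y, hy, by linarith, by linarith⟩
  · rintro ⟨y, hy, h1, h2⟩
    have := hB.le_hK (u + u') hy
    rw [add_dotProduct] at this
    unfold gap
    linarith

lemma continuous_gap : Continuous fun z : (ι → ℝ) × (ι → ℝ) => gap K z.1 z.2 := by
  have := hB.continuous_hK
  unfold gap; fun_prop

lemma dense_expo : Dense {u | Expo K u} := by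
  obtain ⟨D, hD, -, h⟩ := hB.exists_upper
  have hL : LipschitzWith ⟨D, hD.le⟩ (hK K) := LipschitzWith.of_le_add_mul _ fun u v => by
    have := hB.hK_add v (u - v)
    rw [add_sub_cancel] at this
    rw [dist_eq_norm]
    exact this.trans (add_le_add_right (h _) _)
  refine (Measure.dense_of_ae (hL.ae_differentiableAt_of_real (μ := volume))).mono fun u hu => ?_
  obtain ⟨y, hy⟩ := dual_eq_dot (fderiv ℝ (hK K) u)
  refine ⟨y, fun z hz e => ?_⟩
  refine dotProduct_eq _ _ fun v => ?_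
  have h1 : HasDerivAt (fun s : ℝ => hK K (u + s • v) - (u + s • v) ⬝ᵥ z)
      (fderiv ℝ (hK K) u v - v ⬝ᵥ z) 0 := by
    refine HasDerivAt.fun_sub (hu.hasFDerivAt.hasLineDerivAt v) ?_
    simp only [add_dotProduct, smul_dotProduct, smul_eq_mul]
    simpa using ((hasDerivAt_id (0 : ℝ)).mul_const (v ⬝ᵥ z)).const_add (u ⬝ᵥ z)
  have h2 := IsLocalMin.hasDerivAt_eq_zero (Eventually.of_forall fun s => by
    simp only [zero_smul, add_zero, e, sub_self, sub_nonneg]; exact hB.le_hK _ hz) h1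
  rw [hy] at h2
  rw [dotProduct_comm]
  linarith

lemma gap_transfer {P R R0 : ι → ℝ} {l r : ℝ} (hlr : l < r)
    (h : ∀ σ ∈ Icc l r, gap K (R0 + σ • P) (R + σ • P) ≤ 0)
    (h1 : gap K (R + l • P) (R + r • P) ≤ 0) : gap K (R0 + l • P) (R0 + r • P) ≤ 0 := by
  obtain ⟨y, hy, y1, y2⟩ := hB.gap_le_zero.1 h1
  have c := hB.continuous_hK
  have key : ∀ σ ∈ Ioo l r, hK K (R0 + σ • P) ≤ hK K (R0 + ((l + r) / 2) • P) +
      (σ - (l + r) / 2) * (P ⬝ᵥ y) := by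
    intro σ hσ
    obtain ⟨z, hz, z1, z2⟩ := hB.gap_le_zero.1 (h σ (Ioo_subset_Icc_self hσ))
    have e1 := hB.le_hK (R + σ • P) hy
    have e2 := hB.le_hK (R + l • P) hz
    have e3 := hB.le_hK (R + r • P) hz
    have e4 := hB.le_hK (R0 + ((l + r) / 2) • P) hz
    rw [← z2] at e1
    rw [← y1] at e2
    rw [← y2] at e3
    rw [← z1]
    simp only [add_dotProduct, smul_dotProduct, smul_eq_mul] at *
    have : P ⬝ᵥ z = P ⬝ᵥ y := by
      have a1 := mul_nonneg (sub_pos.2 hσ.1).le (sub_pos.2 hσ.2).le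
      refine le_antisymm (le_of_mul_le_mul_left ?_ (sub_pos.2 hσ.2))
        (le_of_mul_le_mul_left ?_ (sub_pos.2 hσ.1)) <;> linarith
    rw [← this]; linarith
  have key2 : ∀ σ ∈ Icc l r, hK K (R0 + σ • P) ≤ hK K (R0 + ((l + r) / 2) • P) +
      (σ - (l + r) / 2) * (P ⬝ᵥ y) := by
    rw [← closure_Ioo hlr.ne]
    exact closure_minimal (t := {σ | hK K (R0 + σ • P) ≤ hK K (R0 + ((l + r) / 2) • P) +
      (σ - (l + r) / 2) * (P ⬝ᵥ y)}) key (isClosed_le (by fun_prop) (by fun_prop))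
  have e : R0 + l • P + (R0 + r • P) = (2 : ℝ) • (R0 + ((l + r) / 2) • P) := by
    ext i; simp; ring
  rw [gap, e, hB.hK_smul zero_le_two]
  linarith [key2 l (left_mem_Icc.2 hlr.le), key2 r (right_mem_Icc.2 hlr.le)]

lemma near_face {P : ι → ℝ} (hP : Expo K P) : ∃ ζ > 0, ∀ y ∈ K, ∀ z ∈ K,
    hK K P - ζ < P ⬝ᵥ y → hK K P - ζ < P ⬝ᵥ z → y - z ∈ K := by
  obtain ⟨x, hx⟩ := hP
  obtain ⟨δ, hδ, hb⟩ := hB.exists_ball
  obtain ⟨ζ, hζ, h⟩ := (hB.cpt.diff (isOpen_ball (x := x) (ε := δ / 2))).exists_forall_le'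
    (f := fun y => hK K P - P ⬝ᵥ y) (by fun_prop) (a := 0) fun y hy =>
      sub_pos.2 ((hB.le_hK P hy.1).lt_of_ne fun e => hy.2 (by
        rw [hx y hy.1 e]; exact mem_ball_self (by positivity)))
  have : ∀ y ∈ K, hK K P - ζ < P ⬝ᵥ y → dist y x < δ / 2 := fun y hy h1 => by
    by_contra h2
    linarith [h y ⟨hy, h2⟩]
  refine ⟨ζ, hζ, fun y hy z hz h1 h2 => hb _ ?_⟩
  rw [← dist_eq_norm]
  linarith [dist_triangle_right y z x, this y hy h1, this z hz h2]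

lemma continuous_Phi (S : ℝ) : Continuous fun z : (ι → ℝ) × (ι → ℝ) => Phi K S z.1 z.2 := by
  have := hB.continuous_hK
  exact intervalIntegral.continuous_parametric_intervalIntegral_of_continuous'
    (f := fun (z : (ι → ℝ) × (ι → ℝ)) (σ : ℝ) => hK K (z.2 + σ • z.1))
    (by unfold Function.uncurry; fun_prop) _ _

lemma exists_subgrad {S : ℝ} (hS : 0 < S) (P R0 : ι → ℝ) : ∃ ξ : ι → ℝ, ∀ R,
    Phi K S P R - ξ ⬝ᵥ R ≤ Phi K S P R0 - ξ ⬝ᵥ R0 →
      ∀ σ ∈ Icc (-S) S, gap K (R0 + σ • P) (R + σ • P) ≤ 0 := by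
  have c := hB.continuous_hK
  set N : (ι → ℝ) × ℝ → ℝ := fun z => ∫ σ in (-S)..S, hK K (z.1 + (z.2 * σ) • P) with hN
  have I : ∀ z : (ι → ℝ) × ℝ, IntervalIntegrable (fun σ => hK K (z.1 + (z.2 * σ) • P)) volume
      (-S) S := fun z => Continuous.intervalIntegrable (by fun_prop) _ _
  have hom : ∀ (c : ℝ) z, N (c • z) = |c| * N z := fun c z => by
    simp only [hN, ← intervalIntegral.integral_const_mul, ← hB.hK_smul', smul_add, smul_smul,
      Prod.smul_fst, Prod.smul_snd, smul_eq_mul, mul_assoc]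
  have hx : ((R0, 1) : (ι → ℝ) × ℝ) ≠ 0 := by simp
  obtain ⟨g, g1, g2⟩ := exists_extension_of_le_sublinear
    (LinearPMap.mkSpanSingleton (σ := RingHom.id ℝ) (R0, 1) (N (R0, 1)) hx) N
    (fun c hc z => by rw [hom, abs_of_pos hc]) (fun z w => by
      rw [hN, ← intervalIntegral.integral_add (I z) (I w)]
      refine intervalIntegral.integral_mono_on (by linarith) (I _) ((I z).add (I w)) fun σ _ =>
        le_of_eq_of_le ?_ (hB.hK_add _ _)
      congr 1; ext i; simp; ring) (by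
      rintro ⟨z, hz⟩
      obtain ⟨c, rfl⟩ := Submodule.mem_span_singleton.1 hz
      rw [LinearPMap.mkSpanSingleton'_apply, hom]
      exact mul_le_mul_of_nonneg_right (le_abs_self c)
        (intervalIntegral.integral_nonneg (by linarith) fun _ _ => hB.hK_nonneg _))
  have g3 := g1 ⟨(R0, 1), Submodule.mem_span_singleton_self _⟩
  rw [LinearPMap.mkSpanSingleton_apply] at g3
  obtain ⟨ξ, hξ⟩ := dual_eq_dot (LinearMap.toContinuousLinearMap (g ∘ₗ LinearMap.inl ℝ _ ℝ))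
  refine ⟨ξ, fun R hR σ hσ => ?_⟩
  by_contra hlt
  have h1 := intervalIntegral.integral_pos (a := -S) (b := S)
    (f := fun σ => gap K (R0 + σ • P) (R + σ • P)) (by linarith) (by unfold gap; fun_prop)
    (fun _ _ => hB.gap_nonneg _ _) ⟨σ, hσ, not_le.1 hlt⟩
  have h2 := g2 (R0 + R, 2)
  have e : ((R0 + R, 2) : (ι → ℝ) × ℝ) = (R0, 1) + (R0, 1) + (R, 0) - (R0, 0) := by
    ext <;> simp <;> ring
  have e1 := hξ R
  have e2 := hξ R0
  simp only [LinearMap.coe_toContinuousLinearMap', LinearMap.comp_apply, LinearMap.inl_apply] at e1 e2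
  rw [e, map_sub, map_add, map_add, g3, e1, e2, ← e] at h2
  have e3 : ∀ σ : ℝ, R0 + σ • P + (R + σ • P) = R0 + R + (2 * σ) • P := fun σ => by
    ext i; simp; ring
  simp only [gap, e3] at h1
  rw [intervalIntegral.integral_sub (Continuous.intervalIntegrable (by fun_prop) _ _)
    (Continuous.intervalIntegrable (by fun_prop) _ _), intervalIntegral.integral_add
    (Continuous.intervalIntegrable (by fun_prop) _ _)
    (Continuous.intervalIntegrable (by fun_prop) _ _)] at h1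
  simp only [hN, one_mul, Phi] at h2 hR
  linarith

lemma ne_zero_of_gap {P R : ι → ℝ} {l r σ : ℝ} (hlr : l < r) (hσ : σ ≤ l ∨ r ≤ σ)
    (h : 0 < gap K (R + l • P) (R + r • P)) : R + σ • P ≠ 0 := by
  intro e
  have e1 : ∀ s : ℝ, R + s • P = (s - σ) • P := fun s => by
    rw [sub_smul, eq_neg_of_add_eq_zero_left e]; abel
  rw [gap, e1, e1, ← add_smul, hB.hK_smul', hB.hK_smul', hB.hK_smul', ← add_mul, ← sub_mul] at h
  rcases hσ with hσ | hσ
  · rw [abs_of_nonneg (by linarith), abs_of_nonneg (by linarith), abs_of_nonneg (by linarith),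
      sub_self, zero_mul] at h
    exact lt_irrefl _ h
  · rw [abs_of_nonpos (by linarith), abs_of_nonpos (by linarith), abs_of_nonpos (by linarith)] at h
    linarith

lemma contact_compact {P0 R0 ξ : ι → ℝ} {S ζ : ℝ} (hS0 : 0 < S)
    (hn : ∀ y ∈ K, ∀ z ∈ K, hK K P0 - ζ < P0 ⬝ᵥ y → hK K P0 - ζ < P0 ⬝ᵥ z → y - z ∈ K)
    (hS2 : 2 * hK K R0 < ζ * S) (hξ : ∀ R, Phi K S P0 R - ξ ⬝ᵥ R ≤ Phi K S P0 R0 - ξ ⬝ᵥ R0 →
      ∀ σ ∈ Icc (-S) S, gap K (R0 + σ • P0) (R + σ • P0) ≤ 0) :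
    IsCompact {R | Phi K S P0 R - ξ ⬝ᵥ R ≤ Phi K S P0 R0 - ξ ⬝ᵥ R0} := by
  have cP := hB.continuous_Phi S
  obtain ⟨δ, hδ, hl⟩ := hB.exists_lower
  refine isCompact_of_isClosed_isBounded (isClosed_le (by fun_prop) continuous_const)
    (isBounded_iff_forall_norm_le.2 ⟨2 * S * hK K P0 / δ, fun R hR => ?_⟩)
  obtain ⟨y, hy, y1, y2⟩ := hB.gap_le_zero.1 (hξ R hR S (right_mem_Icc.2 (by linarith)))
  obtain ⟨z, hz, z1, z2⟩ := hB.gap_le_zero.1 (hξ R hR (-S) (left_mem_Icc.2 (by linarith)))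
  have a1 := hB.hK_add (R0 + S • P0) (-R0)
  have a2 := hB.hK_add (R0 + -S • P0) (-R0)
  have a3 := hB.hK_add (R + S • P0) (R + -S • P0)
  rw [add_neg_cancel_comm, hB.hK_neg, hB.hK_smul'] at a1 a2
  rw [abs_of_pos hS0] at a1
  rw [abs_neg, abs_of_pos hS0] at a2
  rw [show R + S • P0 + (R + -S • P0) = (2 : ℝ) • R by ext i; simp; ring,
    hB.hK_smul zero_le_two] at a3
  have b1 := hB.le_hK R0 hy
  have b2 := hB.le_hK R0 hz
  have b3 := hB.le_hK P0 hy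
  have b4 := hB.le_hK P0 (hB.sym z hz)
  simp only [add_dotProduct, smul_dotProduct, smul_eq_mul, dotProduct_neg] at *
  have b5 := hB.le_hK R (hn y hy (-z) (hB.sym z hz) (lt_of_mul_lt_mul_left (by nlinarith) hS0.le)
    (lt_of_mul_lt_mul_left (by rw [dotProduct_neg]; nlinarith) hS0.le))
  rw [sub_neg_eq_add, dotProduct_add] at b5
  rw [le_div_iff₀ hδ]
  nlinarith [hl R]

theorem exists_MA {J : Type*} [Finite J] {P0 R0 : ι → ℝ} (hP : Expo K P0) {l r : J → ℝ}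
    (hlr : ∀ j, l j < r j) (hg : ∀ j, 0 < gap K (R0 + l j • P0) (R0 + r j • P0)) {j1 j2 : J}
    (h12 : r j1 < l j2) : ∃ S > 0, (∀ j, -S ≤ l j ∧ r j ≤ S) ∧ ∃ Ω : Set (ι → ℝ), IsCompact Ω ∧
      ∃ ρ > 0, ∃ ξ : ι → ℝ, ∃ δ > 0, ∀ P ∈ closedBall P0 ρ,
      (∀ R ∈ Ω, (∀ j, δ ≤ gap K (R + l j • P) (R + r j • P)) ∧
        ∀ σ ∈ Icc (-S) S, δ ≤ hK K (R + σ • P)) ∧
      ∀ ξ' ∈ closedBall ξ ρ, ∀ Φ : (ι → ℝ) → ℝ, Continuous Φ →
        (∀ R ∈ Ω, |Φ R - Phi K S P R| ≤ δ) → ∃ R ∈ Ω, IsLocalMin (fun R => Φ R - ξ' ⬝ᵥ R) R := by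
  have c := hB.continuous_hK
  obtain ⟨ζ, hζ, hn⟩ := hB.near_face hP
  obtain ⟨S, hS0, hS1, hS2⟩ : ∃ S > 0, (∀ j, -S ≤ l j ∧ r j ≤ S) ∧ 2 * hK K R0 < ζ * S := by
    have e1 : ∀ᶠ S in atTop, ∀ j, -S ≤ l j ∧ r j ≤ S := eventually_all.2 fun j => by
      filter_upwards [eventually_ge_atTop (-l j), eventually_ge_atTop (r j)] with S h1 h2
      exact ⟨by linarith, h2⟩
    have e2 : ∀ᶠ S in atTop, 2 * hK K R0 < ζ * S :=
      (tendsto_id.const_mul_atTop hζ).eventually_gt_atTop _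
    exact ((eventually_gt_atTop 0).and (e1.and e2)).exists
  obtain ⟨ξ, hξ⟩ := hB.exists_subgrad hS0 P0 R0
  have cP := hB.continuous_Phi S
  set C := {R | Phi K S P0 R - ξ ⬝ᵥ R ≤ Phi K S P0 R0 - ξ ⬝ᵥ R0} with hC
  have hCc : IsCompact C := hB.contact_compact hS0 hn hS2 hξ
  have hO : IsOpen {z : (ι → ℝ) × (ι → ℝ) |
      ∀ j, 0 < gap K (z.2 + l j • z.1) (z.2 + r j • z.1)} := by
    rw [ofPred_forall]
    exact isOpen_iInter_of_finite fun j => isOpen_lt continuous_const (by unfold gap; fun_prop)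
  obtain ⟨u, v, hu, hv, hu1, hv1, huv⟩ := generalized_tube_lemma (isCompact_singleton (x := P0))
    hCc hO (by
      rintro ⟨P, R⟩ ⟨rfl, hR⟩ j
      by_contra h
      exact (hg j).not_ge (hB.gap_transfer (hlr j) (fun σ hσ => hξ R hR σ
        ⟨(hS1 j).1.trans hσ.1, hσ.2.trans (hS1 j).2⟩) (not_lt.1 h)))
  obtain ⟨γ, hγ, hγ1⟩ := hCc.exists_cthickening_subset_open hv hv1
  have hΩ := hCc.cthickening (r := γ)
  have hsh := hΩ.diff (isOpen_thickening (δ := γ) (E := C))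
  obtain ⟨ω, hω, hω1⟩ := hsh.exists_forall_le' (a := 0)
    (f := fun R => Phi K S P0 R - ξ ⬝ᵥ R - (Phi K S P0 R0 - ξ ⬝ᵥ R0)) (by fun_prop) fun R hR =>
      sub_pos.2 (not_le.1 fun h => hR.2 (self_subset_thickening hγ C h))
  obtain ⟨u', v', hu', -, hu1', hv1', huv'⟩ := generalized_tube_lemma
    (isCompact_singleton (x := (P0, ξ))) hsh
    (isOpen_lt (f := fun _ => ω / 2) (g := fun z : ((ι → ℝ) × (ι → ℝ)) × (ι → ℝ) =>
      Phi K S z.1.1 z.2 - z.1.2 ⬝ᵥ z.2 - (Phi K S z.1.1 R0 - z.1.2 ⬝ᵥ R0)) continuous_const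
      (by fun_prop)) (by
      rintro ⟨P, R⟩ ⟨rfl, hR⟩
      exact (half_lt_self hω).trans_le (hω1 R hR))
  obtain ⟨ρ, hρ, hρ1⟩ := nhds_basis_closedBall.mem_iff.1 (inter_mem
    (hu'.mem_nhds (hu1' (mem_singleton _))) (prod_mem_nhds (hu.mem_nhds (hu1 (mem_singleton _)))
      (univ_mem (f := 𝓝 ξ))))
  rw [← closedBall_prod_same] at hρ1
  have hgood : ∀ P ∈ closedBall P0 ρ, ∀ R ∈ cthickening γ C,
      ∀ j, 0 < gap K (R + l j • P) (R + r j • P) := fun P hP R hR =>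
    huv (a := (P, R)) (mk_mem_prod (hρ1 (mk_mem_prod hP (mem_closedBall_self hρ.le))).2.1 (hγ1 hR))
  have hk := (isCompact_closedBall P0 ρ).prod hΩ
  have h1 : ∀ j, ∃ d > 0, ∀ z ∈ closedBall P0 ρ ×ˢ cthickening γ C,
      d ≤ gap K (z.2 + l j • z.1) (z.2 + r j • z.1) := fun j =>
    hk.exists_forall_le' (by unfold gap; fun_prop) fun z hz => hgood _ hz.1 _ hz.2 j
  choose d hd hd1 using h1
  obtain ⟨d', hd', hd1'⟩ := (hk.prod (isCompact_Icc (a := -S) (b := S))).exists_forall_le' (a := 0)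
    (f := fun z => hK K (z.1.2 + z.2 • z.1.1)) (by fun_prop) fun z hz => hB.hK_pos (by
      rcases le_total z.2 (l j2) with h | h
      · exact hB.ne_zero_of_gap (hlr j2) (Or.inl h) (hgood _ hz.1.1 _ hz.1.2 j2)
      · exact hB.ne_zero_of_gap (hlr j1) (Or.inr (by linarith)) (hgood _ hz.1.1 _ hz.1.2 j1))
  obtain ⟨δ, hδ, δ1, δ2, δ3⟩ : ∃ δ > 0, (∀ j, δ ≤ d j) ∧ δ ≤ d' ∧ δ ≤ ω / 4 := by
    have : ∀ᶠ δ in 𝓝 (0 : ℝ), (∀ j, δ ≤ d j) ∧ δ ≤ d' ∧ δ ≤ ω / 4 :=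
      (eventually_all.2 fun j => ge_mem_nhds (hd j)).and ((ge_mem_nhds hd').and
        (ge_mem_nhds (by positivity)))
    exact (eventually_mem_nhdsWithin.and (this.filter_mono (nhdsWithin_le_nhds (s := Ioi 0)))).exists
  have hR0 : R0 ∈ cthickening γ C := self_subset_cthickening C (le_refl (α := ℝ) _)
  clear_value C
  refine ⟨S, hS0, hS1, cthickening γ C, hΩ, ρ, hρ, ξ, δ, hδ, fun P hP => ⟨fun R hR => ⟨fun j => ?_,
    fun σ hσ => ?_⟩, fun ξ' hξ' Φ hΦ hc => ?_⟩⟩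
  · have := hd1 j (P, R) ⟨hP, hR⟩
    simp only at this
    linarith [δ1 j]
  · have := hd1' ((P, R), σ) ⟨⟨hP, hR⟩, hσ⟩
    simp only at this
    linarith
  obtain ⟨R, hR, hm⟩ := hΩ.exists_isMinOn (f := fun R => Φ R - ξ' ⬝ᵥ R) ⟨R0, hR0⟩ (by fun_prop)
  suffices h : R ∈ thickening γ C from ⟨R, hR, hm.isLocalMin (mem_of_superset
    (isOpen_thickening.mem_nhds h) (thickening_subset_cthickening γ C))⟩
  by_contra h
  have h2 : ω / 2 < _ := huv' (mk_mem_prod (hρ1 (mk_mem_prod hP hξ')).1 (hv1' ⟨hR, h⟩))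
  have h3 : Φ R - ξ' ⬝ᵥ R ≤ Φ R0 - ξ' ⬝ᵥ R0 := hm hR0
  have h4 := abs_le.1 (hc R hR)
  have h5 := abs_le.1 (hc R0 hR0)
  simp only at h2 h3
  linarith

end Body

end Vale.Agent.P248
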