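import Vale.Agent.P248.Fam
import Vale.Agent.P248.EqMA
import Vale.Agent.P248.EqCheb

/-! Comparison of the averaged Hessians with integrals along a line. -/

open MeasureTheory Set Filter Topology Real Matrix Metric

namespace Vale.Agent.P248

attribute [local irreducible] hK

variable {ι : Type*} [Fintype ι]

noncomputable def th (σ : ℝ) : ℝ := π / 2 - arctan σ

@[fun_prop]
lemma continuous_th : Continuous th := continuous_const.sub continuous_arctan

lemma av_ge_line {f : ℝ → ℝ} (hf : Continuous f) (f0 : ∀ τ, 0 ≤ f τ) {S : ℝ} (hS : 0 < S) :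
    (π * (1 + S ^ 2))⁻¹ * ∫ σ in (-S)..S, f (th σ) ≤ av f := by
  have c : Continuous fun σ : ℝ => (1 + σ ^ 2)⁻¹ :=
    Continuous.inv₀ (by fun_prop) fun σ => by positivity
  have h1 := intervalIntegral.integral_comp_mul_deriv (a := S) (b := -S) (f := th)
    (f' := fun σ => -(1 + σ ^ 2)⁻¹) (fun σ _ => (hasDerivAt_arctan' σ).const_sub _)
    c.neg.continuousOn hf
  have h2 := intervalIntegral.integral_mono_interval (μ := volume) (f := f) (c := 0) (d := π)
    (a := th S) (b := th (-S)) (by unfold th; linarith [arctan_lt_pi_div_two S])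
    (by unfold th; linarith [arctan_mono (show -S ≤ S by linarith)])
    (by unfold th; linarith [neg_pi_div_two_lt_arctan (-S)]) (Eventually.of_forall f0)
    (hf.intervalIntegrable _ _)
  rw [← h1, intervalIntegral.integral_symm, ← intervalIntegral.integral_neg] at h2
  rw [av, mul_inv, mul_assoc, ← intervalIntegral.integral_const_mul]
  refine mul_le_mul_of_nonneg_left (le_trans (intervalIntegral.integral_mono_on (by linarith)
    (Continuous.intervalIntegrable (by fun_prop) _ _)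
    (Continuous.intervalIntegrable (by fun_prop) _ _) fun σ hσ => ?_) h2)
    (inv_nonneg.2 pi_pos.le)
  rw [mul_neg, neg_neg, mul_comm]
  refine mul_le_mul_of_nonneg_left (inv_anti₀ (by positivity) ?_) (f0 _)
  nlinarith [hσ.1, hσ.2]

lemma bb_th_pos (t σ : ℝ) : 0 < bb t (th σ) := by
  rw [bb, th, sin_pi_div_two_sub]; exact mul_pos (rho_pos _ _) (cos_arctan_pos σ)

lemma aa_th (t σ : ℝ) : aa t (th σ) = σ * bb t (th σ) := by
  rw [aa, bb, mul_left_comm]
  congr 1
  rw [th, sin_pi_div_two_sub, cos_pi_div_two_sub, sin_arctan, cos_arctan, mul_one_div]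

lemma ell_th (t σ : ℝ) : bb t (th σ) ^ 2 * (σ ^ 2 * ic t + cc t) = 1 := by
  rw [← ell t (th σ), aa_th]; ring

lemma bb_th_le (t σ : ℝ) : bb t (th σ) ≤ 1 := by
  have h := ell_th t σ
  have h1 := mul_nonneg (sq_nonneg σ) (ic_pos t).le
  nlinarith [one_le_cc t, bb_th_pos t σ, mul_nonneg (sq_nonneg (bb t (th σ)))
    (show 0 ≤ σ ^ 2 * ic t + cc t - 1 by linarith [one_le_cc t])]

lemma le_bb_th {t σ S c : ℝ} (hσ : σ ∈ Icc (-S) S) (hc : cc t ≤ c) :
    (S ^ 2 + c)⁻¹ ≤ bb t (th σ) := by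
  have h := ell_th t σ
  have h1 : σ ^ 2 * ic t ≤ S ^ 2 :=
    (mul_le_of_le_one_right (sq_nonneg σ) (ic_le_one t)).trans (by nlinarith [hσ.1, hσ.2])
  have h2 := cc_pos t
  have h3 := bb_th_pos t σ
  rw [inv_le_iff_one_le_mul₀ (by nlinarith [sq_nonneg S]), ← h]
  exact mul_le_mul (by nlinarith [bb_th_le t σ]) (by linarith)
    (by have := ic_pos t; positivity) h3.le

lemma UU_th (t σ : ℝ) (P R : ι → ℝ) : UU t (th σ) (P, R) = bb t (th σ) • (R + σ • P) := by
  ext i; simp [UU, aa_th]; ring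

lemma XX_th (t σ : ℝ) (P R : ι → ℝ) :
    XX t (th σ) (P, R) = -P + (2 * σ * bb t (th σ) ^ 2 * ic t) • (R + σ • P) := by
  ext i; simp [XX, eta, aa_th]; linear_combination (-P i) * ell_th t σ

lemma eta_th (t σ : ℝ) : eta t (th σ) = 1 - 2 * cc t ^ 2 / (σ ^ 2 + cc t ^ 2) := by
  have := cc_pos t
  rw [eq_sub_iff_add_eq, ← eq_sub_iff_add_eq', div_eq_iff (by positivity), eta, aa_th]
  linear_combination (σ ^ 2 + cc t ^ 2 - 2 * cc t ^ 2) * ell_th t σ +
    (2 * σ ^ 2 * cc t * bb t (th σ) ^ 2) * cc_ic t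

lemma dot_int (v : ι → ℝ) {f : ℝ → ι → ℝ} (hf : Continuous f) (a b : ℝ) :
    (v ⬝ᵥ fun i => ∫ τ in a..b, f τ i) = ∫ τ in a..b, v ⬝ᵥ f τ := by
  simp only [dotProduct]
  rw [intervalIntegral.integral_finsetSum fun i _ => Continuous.intervalIntegrable (by fun_prop) _ _]
  simp only [intervalIntegral.integral_const_mul]

lemma hasDerivAt_line (u v : ι → ℝ) (s : ℝ) : HasDerivAt (fun s : ℝ => u + s • v) v s := by
  simpa using ((hasDerivAt_id s).smul_const v).const_add u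

namespace Pot

variable (p : Pot ι)

noncomputable def BL (S : ℝ) (P R : ι → ℝ) : Matrix ι ι ℝ :=
  Matrix.of fun i j => ∫ σ in (-S)..S, p.H (R + σ • P) i j
noncomputable def xL (S : ℝ) (P R : ι → ℝ) : ι → ℝ := fun i => ∫ σ in (-S)..S, p.g (R + σ • P) i
noncomputable def ΦL (S : ℝ) (P R : ι → ℝ) : ℝ := ∫ σ in (-S)..S, p.φ (R + σ • P)

lemma dot_BL (S : ℝ) (P R u v : ι → ℝ) :
    u ⬝ᵥ p.BL S P R *ᵥ v = ∫ σ in (-S)..S, u ⬝ᵥ p.H (R + σ • P) *ᵥ v := by
  rw [← dot_int u (PG.cont (by fun_prop))]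
  congr 1
  ext i
  simp only [mulVec, dotProduct_comm _ v]
  exact dot_int v (f := fun σ => p.H (R + σ • P) i) (PG.cont (by fun_prop)) _ _

lemma BL_psd {S : ℝ} (hS : 0 < S) (P R : ι → ℝ) : PSD (p.BL S P R) :=
  ⟨fun i j => by simp only [BL, of_apply, (p.psd _).1 i j], fun v => by
    rw [dot_BL]; exact intervalIntegral.integral_nonneg (by linarith) fun _ _ => (p.psd _).2 v⟩

lemma xL_fderiv (S : ℝ) (P R : ι → ℝ) : HasFDerivAt (p.xL S P) (toL (p.BL S P R)) R := by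
  have cg := p.pg.1
  have cH : Continuous p.H := continuous_matrix fun i j => (p.pH i j).1
  have cL := continuous_toL (ι := ι)
  refine hasFDerivAt_pi'' fun i => ?_
  refine (hasFDerivAt_intervalIntegral (F := fun R σ => p.g (R + σ • P) i)
    (F' := fun R σ => (ContinuousLinearMap.proj i).comp (toL (p.H (R + σ • P)))) (by fun_prop)
    (by fun_prop) (fun R σ => ?_) _ _ R).congr_fderiv ?_
  · exact (hasFDerivAt_pi'.1 ((p.dg _).comp R ((hasFDerivAt_id R).add_const (σ • P))) i)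
  · ext1 v
    rw [ContinuousLinearMap.intervalIntegral_apply
      (Continuous.intervalIntegrable (by fun_prop) _ _)]
    simp only [ContinuousLinearMap.comp_apply, ContinuousLinearMap.proj_apply, toL_apply,
      mulVec, dotProduct_comm _ v]
    exact (dot_int v (f := fun σ => p.H (R + σ • P) i) (PG.cont (by fun_prop)) _ _).symm

lemma continuous_ΦL (S : ℝ) (P : ι → ℝ) : Continuous (p.ΦL S P) := by
  have := p.pφ.1
  exact intervalIntegral.continuous_parametric_intervalIntegral_of_continuous'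
    (f := fun (R : ι → ℝ) (σ : ℝ) => p.φ (R + σ • P)) (by unfold Function.uncurry; fun_prop) _ _

lemma xL_of_min {S : ℝ} {P R ξ : ι → ℝ} (h : IsLocalMin (fun R => p.ΦL S P R - ξ ⬝ᵥ R) R) :
    p.xL S P R = ξ := by
  refine dotProduct_eq _ _ fun v => ?_
  have h1 := hasDerivAt_intervalIntegral (F := fun s σ => p.φ (R + s • v + σ • P))
    (F' := fun s σ => p.g (R + s • v + σ • P) ⬝ᵥ v) (PG.cont (by fun_prop)) (PG.cont (by fun_prop))
    (fun s σ => p.dφ ((hasDerivAt_line R v s).add_const _)) (-S) S 0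
  have h2 := h1.fun_sub (HasDerivAt.dot (hasDerivAt_const _ ξ) (hasDerivAt_line R v 0))
  have h3 : IsLocalMin ((fun R => p.ΦL S P R - ξ ⬝ᵥ R) ∘ fun s : ℝ => R + s • v) 0 :=
    IsLocalMin.comp_continuous (by simpa using h) (by fun_prop)
  have h4 := h3.hasDerivAt_eq_zero h2
  simp only [zero_smul, add_zero, zero_dotProduct, zero_add, dotProduct_comm _ v] at h4 ⊢
  rw [← dot_int v (PG.cont (by fun_prop))] at h4
  exact sub_eq_zero.1 h4

end Pot

variable {K : Set (ι → ℝ)}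

lemma Good.phi_le {p : Pot ι} {θ ε M : ℝ} (h : Good p K θ ε M) (hB : Body K) (u : ι → ℝ) :
    p.φ u ≤ hK K u + ε := by
  have h1 := h.chi_lo u
  have h2 := hB.le_hK u (h.mem u)
  rw [dotProduct_comm] at h2
  unfold Pot.χ at h1
  linarith

lemma Good.arc {p : Pot ι} {θ ε M : ℝ} (h : Good p K θ ε M) (hB : Body K) (P R : ι → ℝ) (l r : ℝ) :
    2 * (θ * (hK K (R + l • P) + hK K (R + r • P)) - hK K (R + l • P + (R + r • P)) - 2 * ε) ≤
      (r - l) * ∫ σ in l..r, P ⬝ᵥ p.H (R + σ • P) *ᵥ P := by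
  rw [intervalIntegral.integral_eq_sub_of_hasDerivAt (f := fun σ => P ⬝ᵥ p.g (R + σ • P))
    (fun σ _ => (HasDerivAt.dot (hasDerivAt_const _ P)
      (p.dg' (hasDerivAt_line R P σ))).congr_deriv (by simp))
    (Continuous.intervalIntegrable (PG.cont (by fun_prop)) _ _)]
  have h1 := hB.le_hK (R + l • P + (R + r • P)) (h.mem (R + l • P))
  have h2 := hB.le_hK (R + l • P + (R + r • P)) (h.mem (R + r • P))
  have h3 := h.chi_lo (R + l • P)
  have h4 := h.chi_lo (R + r • P)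
  have h5 := h.lo (R + l • P)
  have h6 := h.lo (R + r • P)
  unfold Pot.χ at h3 h4
  rw [dotProduct_comm] at h3 h4
  simp only [add_dotProduct, smul_dotProduct, smul_eq_mul] at h1 h2 h3 h4
  linarith

lemma Good.N_le {p : Pot ι} {θ ε M D : ℝ} (h : Good p K θ ε M) (hB : Body K) (hε : ε ≤ 1)
    (hD0 : 0 ≤ D) (hD : ∀ u, hK K u ≤ D * ‖u‖) (t : ℝ) (a : (ι → ℝ) × (ι → ℝ)) :
    p.N (t, a) ≤ cc t * (D * (2 * cc t * ‖a‖) + 1) := by
  rw [← av_const (cc t * _)]
  refine av_mono (PG.cont (by fun_prop)) continuous_const fun τ _ => ?_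
  have h1 := mul_nonpos_of_nonneg_of_nonpos (kap_nonneg t τ) (h.chi_hi (UU t τ a))
  have h2 := h.phi_le hB (UU t τ a)
  have hc := one_le_cc t
  have h3 : ‖UU t τ a‖ ≤ 2 * cc t * ‖a‖ := by
    have e := mu_le t τ
    rw [mu] at e
    have e1 : |aa t τ| ≤ cc t := abs_le_of_sq_le_sq (by nlinarith [sq_nonneg (bb t τ)]) (by linarith)
    have e2 : |bb t τ| ≤ cc t := abs_le_of_sq_le_sq (by nlinarith [sq_nonneg (aa t τ)]) (by linarith)
    refine (norm_add_le _ _).trans ?_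
    rw [norm_smul, norm_smul, two_mul, add_mul]
    exact add_le_add (mul_le_mul e1 (norm_fst_le a) (norm_nonneg _) (by linarith))
      (mul_le_mul e2 (norm_snd_le a) (norm_nonneg _) (by linarith))
  have h4 : p.φ (UU t τ a) ≤ D * (2 * cc t * ‖a‖) + 1 := by
    linarith [hD (UU t τ a), mul_le_mul_of_nonneg_left h3 hD0]
  have h5 := (mul_le_mul_of_nonneg_left h4 (mu_pos t τ).le).trans
    (mul_le_mul_of_nonneg_right (mu_le t τ) (by positivity))
  simp only
  linarith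

lemma Family.cmp_av {θ C ε : ℝ} {p : ∀ ε : ℝ, 0 < ε → Pot ι} (hF : Family K θ C p) (hε : 0 < ε)
    (hθ : 0 ≤ θ) {t c S δ : ℝ} (hS : 0 < S) (hδ : 0 ≤ δ) (hc : cc t ≤ c)
    (h1 : ε ≤ (S ^ 2 + c)⁻¹ * (θ * δ)) {P R : ι → ℝ} (h2 : ∀ σ ∈ Icc (-S) S, δ ≤ hK K (R + σ • P))
    {Z : ℝ → ι → ℝ} (hZ : PG Z) :
    (2 * (π * (1 + S ^ 2)))⁻¹ * ∫ σ in (-S)..S, Z (th σ) ⬝ᵥ (p ε hε).H (R + σ • P) *ᵥ Z (th σ) ≤
      av fun τ => Z τ ⬝ᵥ (p ε hε).H (UU t τ (P, R)) *ᵥ Z τ := by
  have c1 : Continuous fun τ => Z τ ⬝ᵥ (p ε hε).H (UU t τ (P, R)) *ᵥ Z τ := PG.cont (by fun_prop)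
  have cH : Continuous (p ε hε).H := continuous_matrix fun i j => ((p ε hε).pH i j).1
  have cZ := hZ.1
  refine le_trans ?_ (av_ge_line c1 (fun τ => ((p ε hε).psd _).2 _) hS)
  rw [mul_inv, mul_right_comm, mul_comm, ← intervalIntegral.integral_const_mul]
  refine mul_le_mul_of_nonneg_left (intervalIntegral.integral_mono_on (by linarith)
    (Continuous.intervalIntegrable (by fun_prop) _ _)
    ((c1.comp continuous_th).intervalIntegrable _ _) fun σ hσ => ?_)
    (by have := pi_pos; positivity)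
  have hb := bb_th_pos t σ
  have h3 := hF.cmp ε hε ε hε (bb t (th σ)) (R + σ • P) (Z (th σ)) hb
    (mul_le_of_le_one_left hε.le (bb_th_le t σ)) (h1.trans (mul_le_mul (le_bb_th hσ hc)
      (mul_le_mul_of_nonneg_left (h2 σ hσ) hθ) (by positivity) hb.le))
  have h4 := ((p ε hε).psd (bb t (th σ) • (R + σ • P))).2 (Z (th σ))
  rw [UU_th]
  nlinarith [bb_th_le t σ]

end Vale.Agent.P248
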