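import Vale.Agent.P248.EqLine

/-! In the equality case no line of directions meets more than `n` kinks of the support function. -/

open MeasureTheory Set Filter Topology Real Matrix Metric

namespace Vale.Agent.P248

attribute [local irreducible] hK

variable {ι : Type*} [Fintype ι] [DecidableEq ι] {K : Set (ι → ℝ)}

lemma Family.sum_DX {θ C ε : ℝ} {p : ∀ ε : ℝ, 0 < ε → Pot ι} (hF : Family K θ C p) (hB : Body K)
    (hε : 0 < ε) (hθ : 0 ≤ θ) {c S δ δc h1 : ℝ} (hS : 0 < S) (hδ : 0 < δ)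
    {t l r : Fin (Fintype.card ι + 1) → ℝ} (hc : ∀ i, cc (t i) ≤ c)
    (hlr : ∀ j, l j < r j) (hS1 : ∀ j, -S ≤ l j ∧ r j ≤ S)
    (hch : ∀ a : Fin (Fintype.card ι + 1) → ℝ, ‖a‖ = 1 → ∃ j, ∀ σ ∈ Icc (l j) (r j),
      δc ≤ |∑ i, a i * (2 * cc (t i) ^ 2 / (σ ^ 2 + cc (t i) ^ 2))|) (hδc : 0 < δc)
    (e1 : ε ≤ (S ^ 2 + c)⁻¹ * (θ * δ)) (e2 : (1 - θ) * (2 * h1) + 2 * ε ≤ δ / 2) (hθ1 : θ ≤ 1)
    (e3 : (2 * S * (Fintype.card ι + 1)) ^ 2 * (C * ε) * (2 * S) ≤ δc ^ 2 * δ / (8 * S))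
    {P R : ι → ℝ} (g1 : ∀ j, δ ≤ gap K (R + l j • P) (R + r j • P))
    (g2 : ∀ σ ∈ Icc (-S) S, δ ≤ hK K (R + σ • P)) (g3 : ∀ σ ∈ Icc (-S) S, hK K (R + σ • P) ≤ h1) :
    (2 * (π * (1 + S ^ 2)))⁻¹ * (δc ^ 2 * δ / (8 * S * (Fintype.card ι + 1))) *
      ((2 * (π * (1 + S ^ 2)))⁻¹ ^ Fintype.card ι * ((p ε hε).BL S P R).det) ≤
      ∑ i, (p ε hε).DX (t i, P, R) := by
  set q := p ε hε with hq
  set κ := (2 * (π * (1 + S ^ 2)))⁻¹ with hκ
  have κ0 : 0 < κ := by have := pi_pos; positivity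
  have cH : Continuous q.H := continuous_matrix fun i j => (q.pH i j).1
  set F : Fin (Fintype.card ι + 1) → (ι → ℝ) → ℝ := fun i v => av fun τ =>
    (eta (t i) τ • XX (t i) τ (P, R) - v) ⬝ᵥ q.H (UU (t i) τ (P, R)) *ᵥ
      (eta (t i) τ • XX (t i) τ (P, R) - v) with hFd
  have F0 : ∀ i v, 0 ≤ F i v := fun i v => av_nonneg fun τ => (q.psd _).2 _
  have hdet : ∀ i, κ ^ Fintype.card ι * (q.BL S P R).det ≤ (q.A (t i, P, R)).det := fun i => by
    have := det_mono ((q.BL_psd hS P R).smul κ0.le) (B := q.A (t i, P, R) - κ • q.BL S P R)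
      ⟨fun a b => by simp only [Matrix.sub_apply, Matrix.smul_apply, (q.A_psd _).1 a b,
        (q.BL_psd hS P R).1 a b], fun v => by
        rw [sub_mulVec, dotProduct_sub, smul_mulVec, dotProduct_smul, q.dot_A, q.dot_BL, sub_nonneg]
        exact hF.cmp_av hε hθ hS hδ.le (hc i) e1 g2 (Z := fun _ => v) (by fun_prop)⟩
    rwa [add_sub_cancel, det_smul] at this
  have hsum : κ * (δc ^ 2 * δ / (8 * S * (Fintype.card ι + 1))) ≤ ∑ i, ⨅ v, F i v := by
    refine le_sum_iInf F fun v => ?_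
    obtain ⟨a, ha, hdep⟩ := exists_dep fun i => v i + P
    obtain ⟨j, hj⟩ := hch a ha
    obtain ⟨Z, hZ⟩ : ∃ Z : Fin (Fintype.card ι + 1) → ℝ → ι → ℝ, Z = fun i τ =>
      eta (t i) τ • XX (t i) τ (P, R) - v i := ⟨_, rfl⟩
    have pZ : ∀ i, PG (Z i) := fun i => by simp only [hZ]; fun_prop
    have cZ := fun i => (pZ i).1
    have hFZ : ∀ i, F i (v i) = av fun τ => Z i τ ⬝ᵥ q.H (UU (t i) τ (P, R)) *ᵥ Z i τ :=
      fun i => by rw [hZ]
    simp only [hFZ]
    refine le_trans ?_ (Finset.sum_le_sum fun i _ =>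
      hF.cmp_av hε hθ hS hδ.le (hc i) e1 g2 (pZ i))
    rw [← Finset.mul_sum, ← intervalIntegral.integral_finsetSum fun i _ =>
      Continuous.intervalIntegrable (by fun_prop) _ _]
    refine mul_le_mul_of_nonneg_left (le_trans ?_ (intervalIntegral.integral_mono_interval
      (hS1 j).1 (hlr j).le (hS1 j).2 (Eventually.of_forall fun σ =>
        Finset.sum_nonneg fun i _ => (q.psd _).2 _)
      (Continuous.intervalIntegrable (by fun_prop) _ _))) κ0.le
    have hm : (0 : ℝ) < Fintype.card ι + 1 := by positivity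
    have hC : 0 ≤ C * ε := ((q.psd 0).2 0).trans (hF.null ε hε 0)
    have hpt : ∀ σ ∈ Icc (l j) (r j), (Fintype.card ι + 1 : ℝ)⁻¹ * (δc ^ 2 / 2 *
        (P ⬝ᵥ q.H (R + σ • P) *ᵥ P) - (2 * S * (Fintype.card ι + 1)) ^ 2 * (C * ε)) ≤
        ∑ i, Z i (th σ) ⬝ᵥ q.H (R + σ • P) *ᵥ Z i (th σ) := fun σ hσ => by
      have h2 := (q.psd (R + σ • P)).sum_le a ha fun i => Z i (th σ)
      have e : ∑ i, a i • Z i (th σ) =
          (∑ i, a i * (2 * cc (t i) ^ 2 / (σ ^ 2 + cc (t i) ^ 2))) • P +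
          (∑ i, a i * (eta (t i) (th σ) * (2 * σ * bb (t i) (th σ) ^ 2 * ic (t i)))) •
            (R + σ • P) := by
        rw [← add_zero (∑ i, a i • Z i (th σ)), ← hdep, Finset.sum_smul, Finset.sum_smul,
          ← Finset.sum_add_distrib, ← Finset.sum_add_distrib]
        refine Finset.sum_congr rfl fun i _ => ?_
        simp only [hZ, XX_th]
        rw [show 2 * cc (t i) ^ 2 / (σ ^ 2 + cc (t i) ^ 2) = 1 - eta (t i) (th σ) by
          rw [eta_th]; ring]
        module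
      rw [e] at h2
      have h3 := le_trans ((q.psd (R + σ • P)).add_ge _ _ _ _) h2
      have h4 := sq_le_sq' (by linarith [abs_nonneg (∑ i, a i *
        (2 * cc (t i) ^ 2 / (σ ^ 2 + cc (t i) ^ 2)))]) (hj σ hσ)
      rw [sq_abs] at h4
      have h5 : |∑ i, a i * (eta (t i) (th σ) * (2 * σ * bb (t i) (th σ) ^ 2 * ic (t i)))| ≤
          2 * S * (Fintype.card ι + 1) := by
        refine (Finset.abs_sum_le_sum_abs _ _).trans ((Finset.sum_le_sum (g := fun _ => 2 * S)
          fun i _ => ?_).trans (by simp [mul_comm]))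
        have b1 : |a i| ≤ 1 := ha ▸ norm_le_pi_norm a i
        have b2 : |eta (t i) (th σ)| ≤ 1 := abs_le.2 ⟨le_eta _ _, eta_le _ _⟩
        have b3 : |σ| ≤ S := abs_le.2 ⟨(hS1 j).1.trans hσ.1, hσ.2.trans (hS1 j).2⟩
        have b4 := pow_le_one₀ (n := 2) (bb_th_pos (t i) σ).le (bb_th_le (t i) σ)
        have b5 := ic_le_one (t i)
        have b6 := ic_pos (t i)
        simp only [abs_mul, abs_two, abs_pow, sq_abs, abs_of_pos b6]
        calc _ ≤ 1 * (1 * (2 * S * 1 * 1)) := by gcongr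
          _ = _ := by ring
      have h6 := sq_le_sq' (abs_le.1 h5).1 (abs_le.1 h5).2
      have h7 := mul_le_mul h6 (hF.null ε hε (R + σ • P)) ((q.psd _).2 _) (sq_nonneg _)
      have h8 := mul_le_mul_of_nonneg_right h4 ((q.psd (R + σ • P)).2 P)
      rw [inv_mul_le_iff₀ hm]
      push_cast at h3
      linarith
    have hint := intervalIntegral.integral_mono_on (μ := volume) (hlr j).le
      (Continuous.intervalIntegrable ?_ _ _) (Continuous.intervalIntegrable ?_ _ _) hpt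
    rotate_left
    · fun_prop
    · fun_prop
    refine le_trans ?_ hint
    rw [intervalIntegral.integral_const_mul, intervalIntegral.integral_sub
      (Continuous.intervalIntegrable (by fun_prop) _ _) intervalIntegrable_const,
      intervalIntegral.integral_const_mul, intervalIntegral.integral_const, smul_eq_mul,
      le_inv_mul_iff₀ hm]
    have a1 := (hF.good ε hε).arc hB P R (l j) (r j)
    have a2 := g1 j
    have a3 := g3 (l j) ⟨(hS1 j).1, (hlr j).le.trans (hS1 j).2⟩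
    have a4 := g3 (r j) ⟨(hS1 j).1.trans (hlr j).le, (hS1 j).2⟩
    have a5 : r j - l j ≤ 2 * S := by linarith [hS1 j]
    have I0 : 0 ≤ ∫ σ in l j..r j, P ⬝ᵥ q.H (R + σ • P) *ᵥ P :=
      intervalIntegral.integral_nonneg (hlr j).le fun _ _ => (q.psd _).2 _
    have a6 : δ / (2 * S) ≤ ∫ σ in l j..r j, P ⬝ᵥ q.H (R + σ • P) *ᵥ P := by
      rw [div_le_iff₀' (by positivity)]
      unfold gap at a2
      nlinarith [mul_le_mul_of_nonneg_right a5 I0, mul_le_mul_of_nonneg_left (add_le_add a3 a4)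
        (sub_nonneg.2 hθ1)]
    have a7 := mul_le_mul_of_nonneg_right a5
      (mul_nonneg (sq_nonneg (2 * S * (Fintype.card ι + 1))) hC)
    have a8 := mul_le_mul_of_nonneg_left a6 (show 0 ≤ δc ^ 2 / 2 by positivity)
    have a9 : (Fintype.card ι + 1) * (δc ^ 2 * δ / (8 * S * (Fintype.card ι + 1))) =
      δc ^ 2 * δ / (8 * S) := by field_simp
    have a10 : δc ^ 2 / 2 * (δ / (2 * S)) = 2 * (δc ^ 2 * δ / (8 * S)) := by field_simp; ring
    linarith
  have d0 := mul_nonneg (pow_pos κ0 (Fintype.card ι)).le (q.BL_psd hS P R).det_nonneg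
  refine (mul_le_mul_of_nonneg_right hsum d0).trans ?_
  rw [Finset.sum_mul]
  refine Finset.sum_le_sum fun i _ => (mul_le_mul_of_nonneg_left (hdet i)
    (Real.iInf_nonneg (F0 i))).trans (q.le_DX _ _ fun v => ?_)
  exact ciInf_le ⟨0, forall_mem_range.2 (F0 i)⟩ v

lemma Pot.pDens (p : Pot ι) : PG p.Dens := by
  have := PG.det p.pA
  have := PG.adj p.pA
  have := p.pS0; have := p.pC0; have := p.pqX; have := p.pqY; have := p.pavχ
  unfold Pot.Dens Pot.DX Pot.DY
  fun_prop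

lemma mass_le (p : Pot ι) {S c : ℝ} (hS : 0 < S) (hc : 0 ≤ c) {A Ω B : Set (ι → ℝ)}
    (hA : IsCompact A) (hB : IsCompact B) (hΩ : IsCompact Ω) {f : (ι → ℝ) × (ι → ℝ) → ℝ}
    (hf : Integrable f) (f0 : ∀ a, 0 ≤ f a) (h1 : ∀ P ∈ A, B ⊆ p.xL S P '' Ω)
    (h2 : ∀ P ∈ A, ∀ R ∈ Ω, c * (p.BL S P R).det ≤ f (P, R)) :
    c * volume.real B * volume.real A ≤ ∫ a, f a := by
  rw [← ENNReal.ofReal_le_ofReal_iff (integral_nonneg f0), ofReal_integral_eq_lintegral_ofReal hf
    (Eventually.of_forall f0), Measure.volume_eq_prod, lintegral_prod _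
      hf.aemeasurable.ennreal_ofReal, ENNReal.ofReal_mul (by positivity), ENNReal.ofReal_mul hc,
    ofReal_measureReal hA.measure_lt_top.ne, ofReal_measureReal hB.measure_lt_top.ne,
    ← setLIntegral_const]
  refine le_trans (setLIntegral_mono_ae' hA.measurableSet (Eventually.of_forall fun P hP => ?_))
    (setLIntegral_le_lintegral _ _)
  refine (mul_le_mul_right ((measure_mono (h1 P hP)).trans
    (addHaar_image_le_lintegral_abs_det_fderiv volume hΩ.measurableSet
      fun R _ => (p.xL_fderiv S P R).hasFDerivWithinAt)) _).trans ?_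
  rw [← lintegral_const_mul' _ _ ENNReal.ofReal_ne_top]
  refine le_trans (setLIntegral_mono_ae' hΩ.measurableSet (Eventually.of_forall fun R hR => ?_))
    (setLIntegral_le_lintegral _ _)
  rw [← ENNReal.ofReal_mul hc, toL_det, abs_of_nonneg (p.BL_psd hS P R).det_nonneg]
  exact ENNReal.ofReal_le_ofReal (h2 P hP R hR)

theorem strict_of_arcs [Nonempty ι] (hB : Body K) {P0 R0 : ι → ℝ} (hP : Expo K P0)
    {l r : Fin (Fintype.card ι + 1) → ℝ} (hl : ∀ j, 0 < l j) (hlr : ∀ j, l j < r j)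
    (hdis : ∀ i j, i < j → r i < l j) (hg : ∀ j, 0 < gap K (R0 + l j • P0) (R0 + r j • P0)) :
    4 ^ Fintype.card ι / (Fintype.card ι).factorial < MP K := by
  have hp := pi_pos
  have hn : 0 < Fintype.card ι := Fintype.card_pos
  obtain ⟨S, hS, hS1, Ω, hΩ, ρ, hρ, ξ, δ, hδ, hMA⟩ := hB.exists_MA hP hlr hg
    (hdis 0 (Fin.last _) (by simpa [Fin.lt_def] using hn))
  obtain ⟨δc, hδc, hch⟩ := cheb hl hdis
  obtain ⟨D, hD, -, hD1⟩ := hB.exists_upper
  obtain ⟨ρ1, hρ1, hρ2⟩ := ((isCompact_closedBall P0 ρ).prod hΩ).isBounded.exists_pos_norm_le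
  set n := Fintype.card ι
  set c := cc (n + 2) with hc
  have c1 := one_le_cc (n + 2)
  set h1 := D * ((1 + S) * ρ1) with hh1
  set κ := (2 * (π * (1 + S ^ 2)))⁻¹ with hκ
  set c0 := Real.exp (-(c * (D * (2 * c * ρ1) + 1))) * (c⁻¹ / 2) *
    (κ * (δc ^ 2 * δ / (8 * S * (n + 1))) * κ ^ n) with hc0
  have v1 : ∀ x : ι → ℝ, 0 < volume.real (closedBall x ρ) := fun x => ENNReal.toReal_pos
    (measure_closedBall_pos _ _ hρ).ne' measure_closedBall_lt_top.ne
  have hd : 0 < c0 * volume.real (closedBall ξ ρ) * volume.real (closedBall P0 ρ) := by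
    have := v1 ξ; have := v1 P0; positivity
  have key := mahler_of_gain hB (d := c0 * volume.real (closedBall ξ ρ) *
      volume.real (closedBall P0 ρ)) ?_
  · rw [show 2 * π = π / 2 * 4 by ring, mul_pow, mul_comm (_ : ℝ) ((π / 2) ^ _),
      mul_assoc ((π / 2) ^ _)] at key
    rw [div_lt_iff₀' (by positivity)]
    exact lt_of_mul_lt_mul_left ((lt_add_of_pos_right _ hd).trans_le key) (by positivity)
  have t1 : ∀ᶠ θ in 𝓝 (1 : ℝ), (1 - θ) * (2 * h1) < δ / 4 ∧ 2 * S * ((1 - θ) * h1) < δ / 2 :=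
    (ContinuousAt.eventually_lt (by fun_prop) continuousAt_const (by simpa using hδ)).and
      (ContinuousAt.eventually_lt (by fun_prop) continuousAt_const (by simpa using hδ))
  filter_upwards [t1.filter_mono nhdsWithin_le_nhds, Ioo_mem_nhdsLT one_pos] with θ ⟨θ1, θ2⟩ hθ C p hF
  have θ0 := hθ.1
  have t2 : ∀ᶠ ε in 𝓝 (0 : ℝ), ε < 1 ∧ ε < (S ^ 2 + c)⁻¹ * (θ * δ) ∧ 2 * ε < δ / 4 ∧
      2 * S * ε < δ / 2 ∧ (2 * S * (n + 1)) ^ 2 * (C * ε) * (2 * S) < δc ^ 2 * δ / (8 * S) := by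
    refine (gt_mem_nhds one_pos).and ((gt_mem_nhds (by positivity)).and
      ((ContinuousAt.eventually_lt (by fun_prop) continuousAt_const ?_).and
      ((ContinuousAt.eventually_lt (by fun_prop) continuousAt_const ?_).and
      (ContinuousAt.eventually_lt (by fun_prop) continuousAt_const ?_)))) <;>
    simp only [mul_zero, zero_mul] <;> positivity
  obtain ⟨e, he, he1⟩ := mem_nhdsGT_iff_exists_Ioc_subset.1 (t2.filter_mono nhdsWithin_le_nhds)
  refine ⟨e, he, n + 2, fun t ht ε hε hεe => ?_⟩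
  obtain ⟨ε1, ε2, ε3, ε4, ε5⟩ := he1 ⟨hε, hεe⟩
  have hG := hF.good ε hε
  set q := p ε hε with hq
  have hdec := hG.decay hB θ0
  have hV := q.V_deriv hdec
  have := haar2 (ι := ι)
  have hI : ∀ t, Integrable fun a => Real.exp (-q.N (t, a)) * (rr t * sh t * q.Dens (t, a)) :=
    fun t => by
      obtain ⟨δ', hδ', D', hD'⟩ := hdec |t|
      have := q.pDens
      exact PG.integrable (by fun_prop) (q.pN.1.comp (by fun_prop)) hδ' (hD' t le_rfl)
  have g3 : ∀ P ∈ closedBall P0 ρ, ∀ R ∈ Ω, ∀ σ ∈ Icc (-S) S, hK K (R + σ • P) ≤ h1 := by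
    intro P hP R hR σ hσ
    have b0 := hρ2 (P, R) ⟨hP, hR⟩
    refine (hD1 _).trans (mul_le_mul_of_nonneg_left ((norm_add_le _ _).trans ?_) hD.le)
    rw [norm_smul, add_mul, one_mul]
    exact add_le_add ((norm_snd_le (P, R)).trans b0)
      (mul_le_mul (abs_le.2 hσ) ((norm_fst_le (P, R)).trans b0) (norm_nonneg _) hS.le)
  have hW : ∀ s ∈ Icc (0 : ℝ) 1, c0 * volume.real (closedBall ξ ρ) *
      volume.real (closedBall P0 ρ) ≤ ∑ i : Fin (n + 1), ∫ a, Real.exp (-q.N (i + 1 + s, a)) *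
        (rr (i + 1 + s) * sh (i + 1 + s) * q.Dens (i + 1 + s, a)) := by
    intro s hs
    have b1 : ∀ i : Fin (n + 1), 1 ≤ (i : ℝ) + 1 + s := fun i => by
      have : (0 : ℝ) ≤ (i : ℕ) := Nat.cast_nonneg _
      linarith [hs.1]
    have b2 : ∀ i : Fin (n + 1), cc ((i : ℝ) + 1 + s) ≤ c := fun i => by
      have : ((i : ℕ) : ℝ) ≤ n := Nat.cast_le.2 (Nat.lt_succ_iff.1 i.2)
      have := b1 i
      simp only [hc, cc]; nlinarith [hs.2]
    have b3 : ∀ i : Fin (n + 1), c⁻¹ / 2 ≤ rr (i + 1 + s) * sh (i + 1 + s) := fun i => by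
      have e1 : c⁻¹ ≤ ic (i + 1 + s) := inv_anti₀ (cc_pos _) (b2 i)
      have e2 : 1 / 2 ≤ sh (i + 1 + s) := by
        have := ic_le_one (i + 1 + s)
        have := b1 i
        simp only [sh, cc]; nlinarith
      have e3 := le_mul_of_one_le_left (ic_pos (i + 1 + s)).le (b1 i)
      rw [div_eq_mul_one_div]
      exact mul_le_mul (e1.trans e3) e2 (by norm_num) ((ic_pos _).le.trans e3)
    rw [← integral_finsetSum _ fun i _ => hI _]
    refine mass_le q hS (by positivity) (isCompact_closedBall _ _) (isCompact_closedBall _ _) hΩ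
      (integrable_finsetSum _ fun i _ => hI _) (fun a => Finset.sum_nonneg fun i _ =>
        mul_nonneg (Real.exp_pos _).le (mul_nonneg (le_trans (by positivity) (b3 i))
          ((q.DX_nonneg _).trans (q.le_Dens hG.chi_hi _)))) (fun P hP ξ' hξ' => ?_)
      fun P hP R hR => ?_
    · obtain ⟨R, hR, hm⟩ := (hMA P hP).2 ξ' hξ' (q.ΦL S P) (q.continuous_ΦL S P) fun R hR => by
        have := q.pφ.1
        have := hB.continuous_hK
        rw [Pot.ΦL, Phi, ← intervalIntegral.integral_sub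
          (Continuous.intervalIntegrable (by fun_prop) _ _)
          (Continuous.intervalIntegrable (by fun_prop) _ _), ← Real.norm_eq_abs]
        refine (intervalIntegral.norm_integral_le_of_norm_le_const (C := (1 - θ) * h1 + ε)
          fun σ hσ => ?_).trans ?_
        · rw [uIoc_of_le (by linarith)] at hσ
          have e1 := mul_le_mul_of_nonneg_left (g3 P hP R hR σ (Ioc_subset_Icc_self hσ))
            (sub_pos.2 hθ.2).le
          have e2 := hG.lo (R + σ • P)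
          have e3 := hG.phi_le hB (R + σ • P)
          have e4 := mul_nonneg (sub_pos.2 hθ.2).le (hB.hK_nonneg (R + σ • P))
          exact abs_le.2 ⟨by linarith, by linarith⟩
        · rw [abs_of_pos (by linarith)]; linarith
      exact ⟨R, hR, q.xL_of_min hm⟩
    · obtain ⟨g1, g2⟩ := (hMA P hP).1 R hR
      have e1 := hF.sum_DX hB hε θ0.le hS hδ b2 hlr hS1 (hch s hs) hδc ε2.le (by linarith) hθ.2.le
        ε5.le g1 g2 (g3 P hP R hR)
      rw [hc0, mul_assoc, mul_assoc (κ * _)]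
      refine (mul_le_mul_of_nonneg_left e1 (by positivity)).trans ?_
      rw [Finset.mul_sum]
      refine Finset.sum_le_sum fun i _ => ?_
      rw [mul_assoc]
      refine mul_le_mul (Real.exp_le_exp.2 (neg_le_neg ((hG.N_le hB ε1.le hD.le hD1 _ _).trans ?_)))
        (mul_le_mul (b3 i) (q.le_Dens hG.chi_hi _) (q.DX_nonneg _) (le_trans (by positivity) (b3 i)))
        (mul_nonneg (by positivity) (q.DX_nonneg _)) (Real.exp_pos _).le
      have := hρ2 (P, R) ⟨hP, hR⟩
      have := b2 i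
      have := cc_pos ((i : ℝ) + 1 + s)
      gcongr
  have hd2 : ∀ s, HasDerivAt (fun s => ∑ i : Fin (n + 1), q.V (i + 1 + s))
      (∑ i : Fin (n + 1), ∫ a, Real.exp (-q.N (i + 1 + s, a)) *
        (rr (i + 1 + s) * sh (i + 1 + s) * q.Dens (i + 1 + s, a))) s := fun s =>
    HasDerivAt.fun_sum fun i _ => (hV _).comp_const_add _ s
  have hmv := (convex_Icc (0 : ℝ) 1).mul_sub_le_image_sub_of_le_deriv
    (fun s _ => (hd2 s).continuousAt.continuousWithinAt)
    (fun s _ => (hd2 s).differentiableAt.differentiableWithinAt)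
    (fun s hs => by rw [(hd2 s).deriv]; exact hW s (interior_subset hs)) 0
    (left_mem_Icc.2 zero_le_one) 1 (right_mem_Icc.2 zero_le_one) zero_le_one
  rw [← Finset.sum_sub_distrib, Fin.sum_univ_eq_sum_range
    (fun i : ℕ => q.V (i + 1 + 1) - q.V (i + 1 + 0))] at hmv
  have tel := Finset.sum_range_sub (fun i : ℕ => q.V (i + 1)) (n + 1)
  simp only [Nat.cast_add, Nat.cast_one, add_zero, Nat.cast_zero, zero_add] at tel hmv
  have m1 := hG.V_mono hB θ0 (le_refl (0 : ℝ)) (zero_le_one (α := ℝ)) zero_le_one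
  have n0 : (0 : ℝ) ≤ n + 1 + 1 := by positivity
  have m2 := hG.V_mono hB θ0 n0 (show (0 : ℝ) ≤ t by linarith) (by linarith)
  linarith

theorem no_arcs [Nonempty ι] (hB : Body K)
    (hE : MP K ≤ 4 ^ Fintype.card ι / (Fintype.card ι).factorial) (P R : ι → ℝ)
    {σ : Fin (Fintype.card ι + 2) → ℝ} (hσ : StrictMono σ) :
    ∃ j : Fin (Fintype.card ι + 1), gap K (R + σ j.castSucc • P) (R + σ j.succ • P) ≤ 0 := by
  by_contra hcon
  push Not at hcon
  have c := hB.continuous_hK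
  have h1 : ∀ᶠ γ in 𝓝 (0 : ℝ), ∀ j : Fin (Fintype.card ι + 1), σ j.castSucc + γ < σ j.succ - γ ∧
      0 < gap K (R + (σ j.castSucc + γ) • P) (R + (σ j.succ - γ) • P) :=
    eventually_all.2 fun j => (ContinuousAt.eventually_lt (by fun_prop) (by fun_prop)
      (by simpa using hσ j.castSucc_lt_succ)).and (ContinuousAt.eventually_lt continuousAt_const
        (by unfold gap; fun_prop) (by simpa using hcon j))
  obtain ⟨γ, hγ, h2⟩ := (eventually_mem_nhdsWithin.and
    (h1.filter_mono (nhdsWithin_le_nhds (s := Ioi 0)))).exists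
  have hγ' : 0 < γ := hγ
  have h3 : ∀ᶠ Q in 𝓝 P, ∀ j : Fin (Fintype.card ι + 1),
      0 < gap K (R + (σ j.castSucc + γ) • Q) (R + (σ j.succ - γ) • Q) :=
    eventually_all.2 fun j => ContinuousAt.eventually_lt continuousAt_const
      (by unfold gap; fun_prop) (h2 j).2
  obtain ⟨Q, hQ1, hQ2⟩ := hB.dense_expo.inter_nhds_nonempty h3
  refine hE.not_gt (strict_of_arcs hB hQ1 (R0 := R + σ 0 • Q)
    (l := fun j => σ j.castSucc + γ - σ 0) (r := fun j => σ j.succ - γ - σ 0) (fun j => ?_)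
    (fun j => ?_) (fun i j hij => ?_) fun j => ?_)
  · linarith [hσ.monotone (Fin.zero_le j.castSucc)]
  · linarith [(h2 j).1]
  · linarith [hσ.monotone (show i.succ ≤ j.castSucc from Fin.succ_le_castSucc_iff.2 hij)]
  · simpa only [add_assoc R, ← add_smul, add_sub_cancel] using hQ2 j

end Vale.Agent.P248
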