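import Vale.Agent.P248.QPot

/-! Families of potentials adapted to a body, and the inequality. -/

open MeasureTheory Set Filter Topology Real Matrix

namespace Vale.Agent.P248

variable {ι : Type*} [Fintype ι]

section
variable {J : Type*} [Fintype J] (v : J → ι → ℝ) (k : ℕ) {ε : ℝ} (hε : 0 < ε)
include hε

lemma qw_pow_le (u : ι → ℝ) (j : J) : qw v k ε u j ^ (2 * k + 2) ≤ 1 + Fintype.card J := by
  have h1 := avg_qw_le v k hε u
  have hc : (0 : ℝ) < Fintype.card J := Nat.cast_pos.2 (Fintype.card_pos_iff.2 ⟨j⟩)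
  rw [avg, inv_mul_le_iff₀ hc, mul_one] at h1
  have h2 := Finset.single_le_sum (f := fun j => qw v k ε u j ^ (2 * k + 4))
    (fun j _ => (even_q k).pow_nonneg _) (Finset.mem_univ j)
  have h3 : 0 ≤ qw v k ε u j ^ (2 * k + 2) := Even.pow_nonneg ⟨k + 1, by ring⟩ _
  have h4 : qw v k ε u j ^ (2 * k + 4) = qw v k ε u j ^ (2 * k + 2) * qw v k ε u j ^ 2 := by ring
  rcases le_total (qw v k ε u j ^ 2) 1 with h | h
  · have := pow_le_one₀ (n := k + 1) (sq_nonneg _) h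
    rw [← pow_mul, show 2 * (k + 1) = 2 * k + 2 by ring] at this
    linarith
  · nlinarith

lemma qGood {K : Set (ι → ℝ)} (hB : Body K) (hv : ∀ j, v j ∈ K) {θ : ℝ} (hθ : 0 ≤ θ)
    (hl : ∀ u, (θ * hK K u) ^ (2 * k + 4) ≤ avg fun j => (v j ⬝ᵥ u) ^ (2 * k + 4)) :
    Good (qPot v k hε) K θ ε
      (((2 * k + 3) * ((1 + Fintype.card J) * avg fun j => v j ⬝ᵥ v j) + (2 * k + 3)) / ε) where
  mem u := hB.mem_of_le fun y => by
    change y ⬝ᵥ qg v k ε u ≤ _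
    rw [dotProduct_comm, qg_dot]
    have h0 := hB.hK_nonneg y
    have h1 : ∀ j, qw v k ε u j ^ (2 * k + 3) * (v j ⬝ᵥ y) ≤ hK K y * ((2 * k + 4 : ℝ)⁻¹ *
        ((2 * k + 3) * qw v k ε u j ^ (2 * k + 4) + 1)) := fun j => by
      have e1 := young (2 * k + 3) (abs_nonneg (qw v k ε u j))
      rw [(even_q k).pow_abs] at e1
      have e2 : |v j ⬝ᵥ y| ≤ hK K y := by
        rw [dotProduct_comm]
        exact abs_le.2 ⟨by simpa [neg_le] using hB.le_hK y (hB.sym _ (hv j)), hB.le_hK y (hv j)⟩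
      refine (le_abs_self _).trans ?_
      rw [abs_mul, abs_pow, mul_comm]
      refine mul_le_mul e2 ?_ (by positivity) h0
      rw [le_inv_mul_iff₀ (by positivity)]
      push_cast at e1
      linarith
    refine (avg_mono h1).trans ?_
    rw [avg_mul, avg_mul, avg_add, avg_mul]
    refine mul_le_of_le_one_right h0 ?_
    rw [inv_mul_le_iff₀ (by positivity)]
    have := avg_const_le (J := J) zero_le_one
    have := mul_le_mul_of_nonneg_left (avg_qw_le v k hε u) (show (0 : ℝ) ≤ 2 * k + 3 by positivity)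
    linarith
  lo u := le_of_pow_le_pow_left₀ (n := 2 * k + 4) (by omega) (qφ_pos v k hε u).le (by
    change _ ≤ qφ v k ε u ^ _
    rw [qφ_pow v k hε, qF]
    linarith [hl u, pow_pos hε (2 * k + 4)])
  chi_lo u := by
    change _ ≤ qg v k ε u ⬝ᵥ u - qφ v k ε u
    rw [qg_self v k hε]
    linarith [q_small v k hε u]
  chi_hi u := by
    change qg v k ε u ⬝ᵥ u - qφ v k ε u ≤ _
    rw [qg_self v k hε]
    linarith [mul_nonneg (qφ_pos v k hε u).le ((even_q k).pow_nonneg (ε * (qφ v k ε u)⁻¹))]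
  bd u y := by
    change y ⬝ᵥ qH v k ε u *ᵥ y ≤ _
    rw [qH_quad]
    have hy : 0 ≤ y ⬝ᵥ y := (sq_nonneg _).trans (norm_sq_le_dot y)
    have h1 : (avg fun j => qw v k ε u j ^ (2 * k + 2) * (v j ⬝ᵥ y) ^ 2) ≤
        (y ⬝ᵥ y) * ((1 + Fintype.card J) * avg fun j => v j ⬝ᵥ v j) := by
      rw [← avg_mul, ← avg_mul]
      refine avg_mono fun j => ?_
      have := Finset.sum_mul_sq_le_sq_mul_sq Finset.univ (v j) y
      simp only [sq (v j _), sq (y _)] at this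
      calc _ ≤ (1 + Fintype.card J : ℝ) * ((v j ⬝ᵥ v j) * (y ⬝ᵥ y)) :=
            mul_le_mul (qw_pow_le v k hε u j) this (sq_nonneg _) (by positivity)
        _ = _ := by ring
    have h2 : (qφ v k ε u)⁻¹ ≤ ε⁻¹ := inv_anti₀ hε (le_qφ v k hε u)
    have h3 : 0 ≤ avg fun j => v j ⬝ᵥ v j :=
      avg_nonneg fun j => (sq_nonneg _).trans (norm_sq_le_dot _)
    have h4 := inv_pos.2 (qφ_pos v k hε u)
    calc _ ≤ (2 * k + 3) * ε⁻¹ * ((y ⬝ᵥ y) * ((1 + Fintype.card J) * avg fun j => v j ⬝ᵥ v j) +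
          y ⬝ᵥ y) := by
          refine (mul_le_mul_of_nonneg_left (show _ ≤ (y ⬝ᵥ y) * ((1 + Fintype.card J) *
            avg fun j => v j ⬝ᵥ v j) + y ⬝ᵥ y by nlinarith [sq_nonneg (qg v k ε u ⬝ᵥ y)])
            (by positivity)).trans ?_
          gcongr
      _ = _ := by rw [div_eq_mul_inv]; ring

lemma q_null (u : ι → ℝ) : u ⬝ᵥ qH v k ε u *ᵥ u ≤ (2 * k + 3) * ε := by
  have hp := qφ_pos v k hε u
  have e : (fun j => qw v k ε u j ^ (2 * k + 2) * (v j ⬝ᵥ u) ^ 2) =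
      fun j => qφ v k ε u ^ 2 * qw v k ε u j ^ (2 * k + 4) := by
    ext j
    have : v j ⬝ᵥ u = qφ v k ε u * qw v k ε u j := by rw [qw]; field_simp
    rw [this]; ring
  rw [qH_quad, e, avg_mul, avg_qw v k hε, qg_self v k hε, mul_assoc]
  refine mul_le_mul_of_nonneg_left (le_trans ?_ (q_small v k hε u)) (by positivity)
  rw [inv_mul_le_iff₀ hp]
  nlinarith [sq_nonneg (qφ v k ε u * (ε * (qφ v k ε u)⁻¹) ^ (2 * k + 4))]

lemma q_cmp {ε' ρ : ℝ} (hε' : 0 < ε') (hρ : 0 < ρ) (h1 : ρ * ε' ≤ ε) (u y : ι → ℝ)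
    (h2 : ε ^ (2 * k + 4) ≤ ρ ^ (2 * k + 4) * avg fun j => (v j ⬝ᵥ u) ^ (2 * k + 4)) :
    y ⬝ᵥ qH v k ε' u *ᵥ y ≤ 2 * ρ * (y ⬝ᵥ qH v k ε (ρ • u) *ᵥ y) := by
  have p1 := qφ_pos v k hε (ρ • u)
  have p2 := qφ_pos v k hε' u
  have f1 := qφ_pow v k hε (ρ • u)
  have f2 := qφ_pow v k hε' u
  simp only [qF, dotProduct_smul, smul_eq_mul, mul_pow, avg_mul] at f1 f2
  set r := ρ * qφ v k ε' u * (qφ v k ε (ρ • u))⁻¹ with hr
  have r0 : 0 < r := by positivity
  have rq : r ^ (2 * k + 4) * qφ v k ε (ρ • u) ^ (2 * k + 4) =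
      ρ ^ (2 * k + 4) * qφ v k ε' u ^ (2 * k + 4) := by
    rw [← mul_pow, ← mul_pow, hr, inv_mul_cancel_right₀ p1.ne']
  have hq := pow_pos p1 (2 * k + 4)
  have r1 : r ^ (2 * k + 4) ≤ 1 := by
    have := pow_le_pow_left₀ (by positivity) h1 (2 * k + 4)
    rw [mul_pow] at this
    refine le_of_mul_le_mul_right ?_ hq
    rw [rq, f1, f2]; linarith
  have r2 : 1 ≤ 2 * r ^ (2 * k + 4) := by
    refine le_of_mul_le_mul_right ?_ hq
    have : 0 ≤ ρ ^ (2 * k + 4) * ε' ^ (2 * k + 4) := by positivity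
    rw [mul_assoc, rq, f1, f2]; linarith
  have r3 : r ≤ 1 := (pow_le_one_iff_of_nonneg r0.le (by omega)).1 r1
  have r4 : 1 ≤ 2 * r ^ (2 * k + 3) := by
    have := pow_le_pow_of_le_one r0.le r3 (show 2 * k + 3 ≤ 2 * k + 4 by omega)
    linarith
  have hw : ∀ j, qw v k ε (ρ • u) j = r * qw v k ε' u j := fun j => by
    simp only [qw, dotProduct_smul, smul_eq_mul, hr]; field_simp
  have hi : ρ * (qφ v k ε (ρ • u))⁻¹ = r * (qφ v k ε' u)⁻¹ := by rw [hr]; field_simp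
  have h0 := qH_nonneg v k hε' u y
  rw [qH_quad] at h0
  rw [qH_quad, qH_quad, qg_dot v k (ρ • u)]
  simp only [hw, mul_pow, mul_assoc (r ^ _), avg_mul, ← qg_dot]
  set M := avg fun j => qw v k ε' u j ^ (2 * k + 2) * (v j ⬝ᵥ y) ^ 2
  set c := qg v k ε' u ⬝ᵥ y
  set a := (2 * k + 3 : ℝ) * (qφ v k ε' u)⁻¹ with ha
  have a0 : 0 < a := by positivity
  calc _ ≤ 2 * r ^ (2 * k + 3) * (a * (M - c ^ 2)) := le_mul_of_one_le_left h0 r4
    _ ≤ 2 * r ^ (2 * k + 3) * (a * (M - r ^ (2 * k + 4) * c ^ 2)) := by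
        gcongr
        exact mul_le_of_le_one_left (sq_nonneg c) r1
    _ = _ := by
        rw [ha]
        linear_combination (-2 * (2 * k + 3 : ℝ) * (r ^ (2 * k + 2) * M -
          (r ^ (2 * k + 3)) ^ 2 * c ^ 2)) * hi

end

/-- a family of potentials, with the comparison properties used for the equality case -/
structure Family (K : Set (ι → ℝ)) (θ C : ℝ) (p : ∀ ε : ℝ, 0 < ε → Pot ι) : Prop where
  good : ∀ ε hε, Good (p ε hε) K θ ε (C / ε)
  null : ∀ ε hε u, u ⬝ᵥ (p ε hε).H u *ᵥ u ≤ C * ε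
  cmp : ∀ ε hε ε' hε' ρ u y, 0 < ρ → ρ * ε' ≤ ε → ε ≤ ρ * (θ * hK K u) →
    y ⬝ᵥ (p ε' hε').H u *ᵥ y ≤ 2 * ρ * (y ⬝ᵥ (p ε hε).H (ρ • u) *ᵥ y)

theorem exists_family {K : Set (ι → ℝ)} (hB : Body K) {θ : ℝ} (h0 : 0 < θ) (h1 : θ < 1) :
    ∃ C > 0, ∃ p, Family K θ C p := by
  obtain ⟨δ, hδ, hb⟩ := hB.exists_ball
  set s := √θ with hs
  have s0 : 0 < s := sqrt_pos.2 h0
  have s1 : s < 1 := by rw [hs, sqrt_lt' one_pos]; simpa
  have s2 : s * s = θ := Real.mul_self_sqrt h0.le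
  obtain ⟨T, hT, hf, hc⟩ := hB.cpt.finite_cover_balls (e := (1 - s) * δ) (mul_pos (by linarith) hδ)
  have := hf.fintype
  have hnet : ∀ u, ∃ j : T, s * hK K u ≤ (j : ι → ℝ) ⬝ᵥ u := fun u => by
    obtain ⟨x, hx, e⟩ := hB.exists_hK u
    obtain ⟨y, hy, hxy⟩ := mem_iUnion₂.1 (hc hx)
    refine ⟨⟨y, hy⟩, ?_⟩
    have := hB.le_hK u (hb ((1 - s)⁻¹ • (x - y)) (by
      rw [norm_smul, Real.norm_of_nonneg (inv_nonneg.2 (by linarith)), inv_mul_le_iff₀ (by linarith)]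
      exact (mem_ball_iff_norm.1 hxy).le))
    rw [dotProduct_smul, smul_eq_mul, inv_mul_le_iff₀ (by linarith), dotProduct_sub, e,
      dotProduct_comm] at this
    simp only
    linarith
  have hN : (0 : ℝ) < Fintype.card T := Nat.cast_pos.2 (Fintype.card_pos_iff.2 ⟨(hnet 0).choose⟩)
  obtain ⟨k, hk⟩ := exists_pow_lt_of_lt_one (inv_pos.2 hN) s1
  have hl : ∀ u, (θ * hK K u) ^ (2 * k + 4) ≤
      avg fun j : T => ((j : ι → ℝ) ⬝ᵥ u) ^ (2 * k + 4) := fun u => by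
    obtain ⟨j, hj⟩ := hnet u
    have h2 := hB.hK_nonneg u
    rw [← s2, mul_assoc, mul_pow]
    refine mul_le_mul ((pow_le_pow_of_le_one s0.le s1.le (by omega)).trans hk.le)
      ((pow_le_pow_left₀ (by positivity) hj _).trans ?_) (by positivity) (by positivity)
    exact Finset.single_le_sum (f := fun j : T => ((j : ι → ℝ) ⬝ᵥ u) ^ (2 * k + 4))
      (fun j _ => (even_q k).pow_nonneg _) (Finset.mem_univ j)
  have h3 : 0 ≤ avg fun j : T => (j : ι → ℝ) ⬝ᵥ j :=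
    avg_nonneg fun j => (sq_nonneg _).trans (norm_sq_le_dot _)
  refine ⟨(2 * k + 3) * ((1 + Fintype.card T) * avg fun j : T => (j : ι → ℝ) ⬝ᵥ j) + (2 * k + 3),
    ?_, fun ε hε => qPot (fun j : T => (j : ι → ℝ)) k hε,
    fun ε hε => qGood _ k hε hB (fun j => hT j.2) h0.le hl,
    fun ε hε u => (q_null _ k hε u).trans ?_, fun ε hε ε' hε' ρ u y hρ h1 h2 =>
      q_cmp _ k hε hε' hρ h1 u y ?_⟩
  · positivity
  · exact mul_le_mul_of_nonneg_right (le_add_of_nonneg_left (by positivity)) hε.le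
  · refine (pow_le_pow_left₀ hε.le h2 _).trans ?_
    rw [mul_pow]
    exact mul_le_mul_of_nonneg_left (hl u) (by positivity)

variable [DecidableEq ι] [Nonempty ι]

/-- the volume product -/
noncomputable def MP (K : Set (ι → ℝ)) : ℝ := volume.real K * volume.real (pol K)

theorem mahler_of_gain {K : Set (ι → ℝ)} (hB : Body K) {d : ℝ}
    (h : ∀ᶠ θ in 𝓝[<] (1 : ℝ), ∀ C p, Family K θ C p → ∃ e > 0, ∃ t0, ∀ t, t0 ≤ t → ∀ ε hε, ε ≤ e →
      (p ε hε).V 0 + d ≤ (p ε hε).V t) :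
    (2 * π) ^ Fintype.card ι + d ≤
      (Fintype.card ι).factorial * (π / 2) ^ Fintype.card ι * MP K := by
  set n := Fintype.card ι
  have hc : ContinuousWithinAt (fun θ : ℝ => n.factorial * volume.real (pol K) * (π / 2 / θ) ^ n *
      volume.real K) (Iio 1) 1 := ContinuousAt.continuousWithinAt (by fun_prop (disch := norm_num))
  refine le_of_le_of_eq (ge_of_tendsto hc ?_) (by simp only [MP]; ring)
  filter_upwards [h, Ioo_mem_nhdsLT one_pos] with θ h hθ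
  obtain ⟨C, hC, p, hp⟩ := exists_family hB hθ.1 hθ.2
  obtain ⟨e, he, t0, h⟩ := h C p hp
  refine le_of_forall_pos_le_add fun γ hγ => ?_
  obtain ⟨β, hβ, t1, h1⟩ := endpoint hB hθ.1 hC hγ
  set t := max (max t0 t1) (β / e)
  have hε := mul_pos hβ (ic_pos t)
  have h2 := h t ((le_max_left _ _).trans (le_max_left _ _)) _ hε (by
    have h3 : β / e ≤ cc t := (le_max_right _ _).trans (show t ≤ cc t by
      unfold cc; nlinarith [sq_nonneg (t - 1)])
    rw [div_le_iff₀ he] at h3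
    nlinarith [cc_ic t, mul_le_mul_of_nonneg_left h3 (ic_pos t).le])
  rw [(hp.good _ hε).V_zero hB hθ.1] at h2
  exact h2.trans (h1 t ((le_max_right _ _).trans (le_max_left _ _)) _ (hp.good _ hε))

theorem mahler {K : Set (ι → ℝ)} (hB : Body K) :
    4 ^ Fintype.card ι / (Fintype.card ι).factorial ≤ MP K := by
  have := mahler_of_gain hB (d := 0) (by
    filter_upwards [Ioo_mem_nhdsLT one_pos] with θ hθ C p hp
    exact ⟨1, one_pos, 0, fun t ht ε hε _ => by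
      rw [add_zero]; exact (hp.good ε hε).V_mono hB hθ.1 (le_refl (0 : ℝ)) ht ht⟩)
  have hp := Real.pi_pos
  rw [add_zero, show 2 * π = π / 2 * 4 by ring, mul_pow, mul_comm (_ : ℝ) ((π / 2) ^ _),
    mul_assoc] at this
  rw [div_le_iff₀' (by positivity)]
  exact le_of_mul_le_mul_left this (by positivity)

end Vale.Agent.P248
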