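import Vale.Agent.P248.Geo2
import Vale.Agent.P248.Comb

/-! The extremal polytope or its polar splits as a free sum. -/

open Set Filter Topology Matrix Metric

namespace Vale.Agent.P248

attribute [local irreducible] hK

variable {ι : Type*} [Fintype ι]

/-- `g` lies in the smallest face containing `S` -/
def Cls (K S : Set (ι → ℝ)) (g : ι → ℝ) : Prop := ∀ w ∈ Wx K, (∀ y ∈ S, w ⬝ᵥ y = 1) → w ⬝ᵥ g = 1

/-- `[x, y]` is an edge -/
def Edge (K : Set (ι → ℝ)) (x y : ι → ℝ) : Prop := x ≠ y ∧ ∀ g ∈ Vx K,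
  (∀ w ∈ Wx K, w ⬝ᵥ x = 1 → w ⬝ᵥ y = 1 → w ⬝ᵥ g = 1) → g = x ∨ g = y

/-- both `[x, y]` and `[x, -y]` are edges -/
def Perp (K : Set (ι → ℝ)) (x y : ι → ℝ) : Prop := Edge K x y ∧ Edge K x (-y)

/-- facets through `x` missing `v` -/
def Bs (K : Set (ι → ℝ)) (x v : ι → ℝ) : Set (ι → ℝ) := {w ∈ Wx K | w ⬝ᵥ x = 1 ∧ w ⬝ᵥ v = -1}

/-- the extreme points split into two linearly independent parts -/
def Split (L : Set (ι → ℝ)) : Prop := ∃ A B : Set (ι → ℝ), A.Finite ∧ B.Finite ∧ A ⊆ L ∧ B ⊆ L ∧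
  (∃ a ∈ A, a ≠ 0) ∧ (∃ b ∈ B, b ≠ 0) ∧ (∀ u, ∀ x ∈ L, ∃ v ∈ A ∪ B, u ⬝ᵥ x ≤ u ⬝ᵥ v) ∧
  Disjoint (Submodule.span ℝ A) (Submodule.span ℝ B)

lemma Edge.symm {K : Set (ι → ℝ)} {x y : ι → ℝ} (h : Edge K x y) : Edge K y x :=
  ⟨h.1.symm, fun g hg e => (h.2 g hg fun w hw a b => e w hw b a).symm⟩

namespace Body

variable {K : Set (ι → ℝ)} (hB : Body K)
include hB

lemma edge_neg {x y : ι → ℝ} (h : Edge K x y) : Edge K (-x) (-y) :=
  ⟨fun e => h.1 (neg_injective e), fun g hg e => by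
    have := h.2 (-g) (hB.V_neg hg) fun w hw a b => by
      simpa using e (-w) (W_neg hw) (by simpa) (by simpa)
    simpa only [neg_eq_iff_eq_neg] using this⟩

lemma perp_symm {x y : ι → ℝ} (h : Perp K x y) : Perp K y x :=
  ⟨h.1.symm, by simpa using (hB.edge_neg h.2).symm⟩

omit hB in
lemma perp_neg {x y : ι → ℝ} (h : Perp K x y) : Perp K x (-y) := ⟨h.2, by simpa using h.1⟩

variable (hN : NA K) [Nonempty ι]
include hN

lemma eq_of_base {x y z : ι → ℝ} (hx : x ∈ Vx K) (h : ∀ w ∈ Wx K, w ⬝ᵥ x = 1 → w ⬝ᵥ y = w ⬝ᵥ z) :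
    y = z := sub_eq_zero.1 (hB.W_sep hN fun w hw => by
  rw [dotProduct_sub, sub_eq_zero]
  rcases hw x hx with e | e
  · exact h w hw e
  · simpa using h (-w) (W_neg hw) (by simp [e]))

lemma V_of_base {x y : ι → ℝ} (hx : x ∈ Vx K)
    (h : ∀ w ∈ Wx K, w ⬝ᵥ x = 1 → w ⬝ᵥ y = 1 ∨ w ⬝ᵥ y = -1) : y ∈ Vx K :=
  hB.V_of_pm hN fun w hw => by
    rcases hw x hx with e | e
    · exact h w hw e
    · simpa [neg_eq_iff_eq_neg, or_comm] using h (-w) (W_neg hw) (by simp [e])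

lemma Bs_inj {x y z : ι → ℝ} (hx : x ∈ Vx K) (hy : y ∈ Vx K) (hz : z ∈ Vx K)
    (h : Bs K x y = Bs K x z) : y = z := hB.eq_of_base hN hx fun w hw e => by
  have := Set.ext_iff.1 h w
  have := hw y hy
  have := hw z hz
  simp only [Bs, mem_ofPred_eq] at *
  grind

omit hB hN [Nonempty ι] in
lemma Bs_neg {x y : ι → ℝ} (hy : y ∈ Vx K) : Bs K x (-y) = Bs K x (-x) \ Bs K x y := by
  ext w
  simp only [Bs, mem_ofPred_eq, mem_diff, dotProduct_neg, neg_inj]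
  refine ⟨by grind, fun h => ?_⟩
  have := h.1.1 y hy
  grind

omit hB hN [Nonempty ι] in
lemma Bs_self (x : ι → ℝ) : Bs K x x = ∅ := by
  ext w; simp only [Bs, mem_ofPred_eq]; grind

lemma H4 {a b c d : ι → ℝ} (ha : a ∈ Vx K) (hb : b ∈ Vx K) (hc : c ∈ Vx K) (hd : d ∈ Vx K)
    (h : ∀ w ∈ Wx K, ¬(w ⬝ᵥ a = 1 ∧ w ⬝ᵥ b = 1 ∧ w ⬝ᵥ c = 1 ∧ w ⬝ᵥ d = 1)) :
    ∃ g ∈ Vx K, (∀ w ∈ Wx K, w ⬝ᵥ a = 1 → w ⬝ᵥ b = 1 → w ⬝ᵥ g = 1) ∧
      ∀ w ∈ Wx K, w ⬝ᵥ c = -1 → w ⬝ᵥ d = -1 → w ⬝ᵥ g = 1 := by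
  by_cases h1 : a = -b
  · exact ⟨-c, hB.V_neg hc, fun w _ e1 e2 => by rw [h1, dotProduct_neg] at e1; linarith,
      fun w _ e _ => by simp [e]⟩
  by_cases h2 : -c = - -d
  · refine ⟨a, ha, fun w _ e _ => e, fun w _ e1 e2 => ?_⟩
    rw [neg_injective h2, dotProduct_neg] at e1; linarith
  obtain ⟨w0, hw0, e1, e2⟩ := hB.pair hN ha hb h1
  by_contra hcon
  obtain ⟨w, hw, k1, k2, k3⟩ := hB.faces hN (S := {a, b}) (by simp [insert_subset_iff, ha, hb])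
    (by simp) hw0 (by simp [e1, e2]) (hB.V_neg hc) (hB.V_neg hd) h2 fun v hv k1 k2 =>
      hcon ⟨v, hv, fun w hw a b => k1 w hw (by simp [a, b]),
        fun w hw a b => k2 w hw (by simp [a]) (by simp [b])⟩
  exact h w hw ⟨k1 a (by simp), k1 b (by simp), by simpa using k2, by simpa using k3⟩

lemma sys {x : ι → ℝ} (hx : x ∈ Vx K) : Sys (Bs K x '' Vx K) (Bs K x (-x)) where
  fin := (hB.V_finite hN).image _
  sub := forall_mem_image.2 fun v _ w hw => ⟨hw.1, hw.2.1, by simp [hw.2.1]⟩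
  empty := ⟨x, hx, Bs_self x⟩
  top := ⟨-x, hB.V_neg hx, rfl⟩
  diff := by
    rintro _ ⟨a, ha, rfl⟩ _ ⟨b, hb, rfl⟩ e
    have key : ∀ w ∈ Wx K, w ⬝ᵥ x = 1 → w ⬝ᵥ a = -1 → w ⬝ᵥ b = -1 := fun w hw e1 e2 =>
      (e ⟨hw, e1, e2⟩).2.2
    refine ⟨x + b - a, hB.V_of_base hN hx fun w hw e1 => ?_, Set.ext fun w => ?_⟩
    · have := key w hw e1
      have := hw a ha
      have := hw b hb
      simp only [dotProduct_sub, dotProduct_add]
      grind
    · simp only [Bs, mem_ofPred_eq, mem_diff, dotProduct_sub, dotProduct_add]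
      by_cases hw : w ∈ Wx K
      · have := key w hw
        have := hw a ha
        have := hw b hb
        grind
      · grind
  h4 := by
    rintro _ ⟨a, ha, rfl⟩ _ ⟨b, hb, rfl⟩ _ ⟨c, hc, rfl⟩ _ ⟨d, hd, rfl⟩ h
    simp only [Bs, mem_ofPred_eq, dotProduct_neg, neg_inj] at h
    obtain ⟨g, hg, g1, g2⟩ := hB.H4 hN ha hb hc hd fun w hw e => by
      have := h w
      have := h (-w)
      have := W_neg hw
      have := hw x hx
      simp only [neg_dotProduct] at *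
      grind
    refine ⟨_, ⟨g, hg, rfl⟩, fun w hw => ?_, fun w hw => ?_⟩
    · have := g1 w hw.1
      have := g1 (-w) (W_neg hw.1)
      have := hw.1 a ha
      have := hw.1 b hb
      simp only [Bs, mem_ofPred_eq, neg_dotProduct] at *
      grind
    · have := g2 w hw.1
      have := g2 (-w) (W_neg hw.1)
      have := hw.1 c hc
      have := hw.1 d hd
      simp only [Bs, mem_ofPred_eq, neg_dotProduct] at *
      grind

omit hB hN [Nonempty ι] in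
lemma Bs_sub {x y g : ι → ℝ} (hy : y ∈ Vx K) (hg : g ∈ Vx K) :
    Bs K x g ⊆ Bs K x y ↔ ∀ w ∈ Wx K, w ⬝ᵥ x = 1 → w ⬝ᵥ y = 1 → w ⬝ᵥ g = 1 := by
  refine ⟨fun h w hw e1 e2 => (hw g hg).resolve_right fun e => ?_, fun h w hw => ⟨hw.1, hw.2.1,
    (hw.1 y hy).resolve_left fun e => ?_⟩⟩
  · linarith [(h ⟨hw, e1, e⟩).2.2]
  · linarith [h w hw.1 hw.2.1 e, hw.2.2]

lemma Bs_nonempty {x y : ι → ℝ} (hx : x ∈ Vx K) (hy : y ∈ Vx K) : (Bs K x y).Nonempty ↔ y ≠ x := by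
  rw [nonempty_iff_ne_empty, ← Bs_self x]
  exact ⟨fun h e => h (e ▸ rfl), fun h e => h (hB.Bs_inj hN hx hy hx e)⟩

lemma atom_iff {x y : ι → ℝ} (hx : x ∈ Vx K) (hy : y ∈ Vx K) :
    Atom (Bs K x '' Vx K) (Bs K x y) ↔ Edge K x y := by
  refine ⟨fun h => ⟨((hB.Bs_nonempty hN hx hy).1 h.2.1).symm, fun g hg e => or_iff_not_imp_left.2
    fun hne => hB.Bs_inj hN hx hg hy (h.2.2 _ ⟨g, hg, rfl⟩ ((Bs_sub hy hg).2 e)
      ((hB.Bs_nonempty hN hx hg).2 hne))⟩, fun h => ⟨⟨y, hy, rfl⟩,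
      (hB.Bs_nonempty hN hx hy).2 h.1.symm, ?_⟩⟩
  rintro _ ⟨g, hg, rfl⟩ e hne
  rw [(h.2 g hg ((Bs_sub hy hg).1 e)).resolve_left ((hB.Bs_nonempty hN hx hg).1 hne)]

lemma perp_core {x y z : ι → ℝ} (hx : x ∈ Vx K) (hy : y ∈ Vx K) (hz : z ∈ Vx K) (h : Perp K x y)
    (z1 : z ≠ x) (z2 : z ≠ -x) (z3 : z ≠ y) (z4 : z ≠ -y) : Edge K x z ∨ Edge K z y := by
  by_contra hc
  simp only [Edge, ne_eq, z1.symm, z3, not_false_eq_true, true_and, not_or, not_forall] at hc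
  obtain ⟨⟨g, hg, g1, g2, g3⟩, d, hd, d1, d2, d3⟩ := hc
  rcases (hB.sys hN hx).perp ((hB.atom_iff hN hx hy).2 h.1)
    (Bs_neg hy ▸ (hB.atom_iff hN hx (hB.V_neg hy)).2 h.2) ⟨z, hz, rfl⟩
    (fun e => z2 (hB.Bs_inj hN hx hz (hB.V_neg hx) e)) (fun e => z3 (hB.Bs_inj hN hx hz hy e))
    (fun e => z4 (hB.Bs_inj hN hx hz (hB.V_neg hy) (e.trans (Bs_neg hy).symm))) ⟨g, hg, rfl⟩
    ((Bs_sub hz hg).2 g1) ((hB.Bs_nonempty hN hx hg).2 g2)
    (fun e => g3 (hB.Bs_inj hN hx hg hz e)) ⟨d, hd, rfl⟩ (fun w h1 h2 => ⟨h1.1, h1.2.1, by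
      simpa [neg_eq_iff_eq_neg] using d1 (-w) (W_neg h1.1) (by simp [h2.2.2]) (by simp [h1.2.2])⟩)
    (fun w h1 h2 => ⟨h1.1, h1.2.1, (h1.1 z hz).resolve_left fun e => by
      linarith [d1 w h1.1 e ((h1.1 y hy).resolve_right fun e => h2 ⟨h1.1, h1.2.1, e⟩),
        h1.2.2]⟩) with e | e
  · exact d3 (hB.Bs_inj hN hx hd hy e)
  · exact d2 (hB.Bs_inj hN hx hd hz e)

lemma perp_trans {x y z : ι → ℝ} (hx : x ∈ Vx K) (hy : y ∈ Vx K) (hz : z ∈ Vx K) (h : Perp K x y)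
    (hn : ¬Perp K x z) : Perp K z y := by
  by_cases z1 : z = x
  · exact z1 ▸ h
  by_cases z2 : z = -x
  · exact z2 ▸ hB.perp_symm (perp_neg (hB.perp_symm h))
  have z3 : z ≠ y := fun e => hn (e ▸ h)
  have z4 : z ≠ -y := fun e => hn (e ▸ perp_neg h)
  have k : ∀ z ∈ Vx K, z ≠ x → z ≠ -x → z ≠ y → z ≠ -y → ¬Edge K x z → Perp K z y :=
    fun z hz z1 z2 z3 z4 hn => ⟨(hB.perp_core hN hx hy hz h z1 z2 z3 z4).resolve_left hn,
      (hB.perp_core hN hx (hB.V_neg hy) hz (perp_neg h) z1 z2 z4 (by simpa)).resolve_left hn⟩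
  rcases not_and_or.1 hn with h1 | h1
  · exact k z hz z1 z2 z3 z4 h1
  · simpa using hB.perp_symm (perp_neg (hB.perp_symm (k (-z) (hB.V_neg hz)
      (by simpa [neg_eq_iff_eq_neg] using z2) (by simpa using z1)
      (by simpa [neg_eq_iff_eq_neg] using z4) (by simpa using z3) h1)))

lemma cls_remove {a b w0 : ι → ℝ} {S : Set (ι → ℝ)} (ha : a ∈ Vx K) (hb : b ∈ Vx K)
    (h : Perp K a b) (hS : S ⊆ Vx K) (hw0 : w0 ∈ Wx K) (h0 : ∀ y ∈ insert b S, w0 ⬝ᵥ y = 1)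
    (hc : Cls K (insert b S) a) : Cls K S a := by
  rcases S.eq_empty_or_nonempty with rfl | hne
  · exact absurd (hB.eq_of_base hN hb fun w hw e => (hc w hw (by simpa)).trans e.symm) h.1.1
  by_contra hn
  obtain ⟨w, hw, k1, k2, k3⟩ := hB.faces hN hS hne hw0 (fun y hy => h0 y (mem_insert_of_mem _ hy))
    ha (hB.V_neg hb) (by simpa using h.1.1) fun v hv k1 k2 => by
      rcases h.2.2 v hv k2 with rfl | rfl
      · exact hn k1
      · have := k1 w0 hw0 fun y hy => h0 y (mem_insert_of_mem _ hy)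
        rw [dotProduct_neg, h0 b (mem_insert _ _)] at this
        norm_num at this
  linarith [hc w hw (forall_mem_insert.2 ⟨by simpa using k3, k1⟩)]

lemma join {S T : Set (ι → ℝ)} (hS : S ⊆ Vx K) (hT : T ⊆ Vx K) (hp : ∀ a ∈ S, ∀ b ∈ T, Perp K a b)
    {w1 w2 : ι → ℝ} (h1 : w1 ∈ Wx K) (h2 : w2 ∈ Wx K) (e1 : ∀ y ∈ S, w1 ⬝ᵥ y = 1)
    (e2 : ∀ y ∈ T, w2 ⬝ᵥ y = 1) : ∃ w ∈ Wx K, ∀ y ∈ S ∪ T, w ⬝ᵥ y = 1 := by
  have fT := (hB.V_finite hN).subset hT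
  induction T, fT using Finite.induction_on with
  | empty => exact ⟨w1, h1, by simpa⟩
  | @insert b T _ _ ih =>
    have hb := hT (mem_insert _ _)
    have hT' := (subset_insert _ _).trans hT
    obtain ⟨w, hw, e⟩ := ih hT' (fun a ha c hc => hp a ha c (mem_insert_of_mem _ hc))
      fun y hy => e2 y (mem_insert_of_mem _ hy)
    by_contra hcon
    have c1 : Cls K (S ∪ T) (-b) := fun w' hw' e' => by
      rw [dotProduct_neg, neg_eq_iff_eq_neg]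
      exact (hw' b hb).resolve_left fun h => hcon ⟨w', hw', by
        rw [union_insert]; exact forall_mem_insert.2 ⟨h, e'⟩⟩
    have c2 : ∀ S' : Set (ι → ℝ), S'.Finite → S' ⊆ S → Cls K (S' ∪ T) (-b) → Cls K T (-b) := by
      intro S' f
      induction S', f using Finite.induction_on with
      | empty => simp
      | @insert a S' _ _ ih' =>
        intro s c
        have s' := (subset_insert _ _).trans s
        rw [insert_union] at c
        refine ih' s' (hB.cls_remove hN (hB.V_neg hb) (hS (s (mem_insert _ _)))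
          (hB.perp_symm (perp_neg (hp a (s (mem_insert _ _)) b (mem_insert _ _))))
          (union_subset (s'.trans hS) hT') hw (fun y hy => e y ?_) c)
        rw [← insert_union] at hy
        exact union_subset_union_left _ s hy
    have := c2 S ((hB.V_finite hN).subset hS) subset_rfl c1 w2 h2
      fun y hy => e2 y (mem_insert_of_mem _ hy)
    rw [dotProduct_neg, e2 b (mem_insert _ _)] at this
    norm_num at this

lemma V_ne_zero {v : ι → ℝ} (h : v ∈ Vx K) : v ≠ 0 := fun e => hB.V_ne_neg h (by simp [e])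

lemma split_of_perp {x y : ι → ℝ} (hx : x ∈ Vx K) (hy : y ∈ Vx K) (h : Perp K x y) : Split K := by
  refine ⟨{v ∈ Vx K | ¬Perp K x v}, {v ∈ Vx K | Perp K x v},
    (hB.V_finite hN).subset (sep_subset _ _), (hB.V_finite hN).subset (sep_subset _ _),
    fun v hv => hv.1.1, fun v hv => hv.1.1, ⟨x, ⟨hx, fun e => e.1.1 rfl⟩, hB.V_ne_zero hN hx⟩,
    ⟨y, ⟨hy, h⟩, hB.V_ne_zero hN hy⟩, fun u z hz => ?_, Submodule.disjoint_def.2 fun d d1 d2 =>
      hB.W_sep hN fun w hw => ?_⟩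
  · obtain ⟨v, hv, e⟩ := hB.V_max hN u
    exact ⟨v, (em (Perp K x v)).symm.imp (fun h => ⟨hv, h⟩) fun h => ⟨hv, h⟩,
      (hB.mem_Nc hv.1).1 e z hz⟩
  obtain ⟨w', -, e⟩ := hB.join hN (S := {v ∈ Vx K | ¬Perp K x v ∧ w ⬝ᵥ v = 1})
    (T := {v ∈ Vx K | Perp K x v ∧ -w ⬝ᵥ v = 1}) (sep_subset _ _) (sep_subset _ _)
    (fun a ha b hb => hB.perp_trans hN hx hb.1 ha.1 hb.2.1 ha.2.1) hw (W_neg hw)
    (fun _ h => h.2.2) fun _ h => h.2.2
  have k1 := dot_eq_zero_of_span (d := w' - w) (fun v hv => by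
    rw [sub_dotProduct, sub_eq_zero]
    rcases hw v hv.1 with h1 | h1
    · rw [h1, e v (Or.inl ⟨hv.1, hv.2, h1⟩)]
    · have := e (-v) (Or.inl ⟨hB.V_neg hv.1, fun h => hv.2 (by simpa using perp_neg h), by simp [h1]⟩)
      rw [dotProduct_neg] at this; linarith) d1
  have k2 := dot_eq_zero_of_span (d := w' + w) (fun v hv => by
    rw [add_dotProduct]
    rcases hw v hv.1 with h1 | h1
    · have := e (-v) (Or.inr ⟨hB.V_neg hv.1, perp_neg hv.2, by simp [h1]⟩)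
      rw [dotProduct_neg] at this; linarith
    · rw [h1, e v (Or.inr ⟨hv.1, hv.2, by simp [h1]⟩)]; ring) d2
  rw [sub_dotProduct] at k1
  rw [add_dotProduct] at k2
  linarith

lemma split_of_central {x : ι → ℝ} (hx : x ∈ Vx K) {t : Set (ι → ℝ)} (ht : t ∈ Bs K x '' Vx K)
    (t1 : t.Nonempty) (t2 : t ≠ Bs K x (-x)) (hc : ∀ Y ∈ Bs K x '' Vx K, Y ∩ t ∈ Bs K x '' Vx K) :
    Split (pol K) := by
  have hS := hB.sys hN hx
  have sub := hS.sub t ht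
  have ne0 : ∀ w ∈ Bs K x (-x), w ≠ 0 := fun w hw e => by have := hw.2.1; simp [e] at this
  obtain ⟨p, hp⟩ := t1
  obtain ⟨q, hq⟩ := nonempty_of_ssubset (sub.ssubset_of_ne t2)
  refine ⟨{w ∈ Wx K | w ∈ t ∨ -w ∈ t}, {w ∈ Wx K | ¬(w ∈ t ∨ -w ∈ t)},
    (hB.W_finite hN).subset (sep_subset _ _), (hB.W_finite hN).subset (sep_subset _ _),
    fun v hv => hB.W_pol hN hv.1, fun v hv => hB.W_pol hN hv.1,
    ⟨p, ⟨(sub hp).1, Or.inl hp⟩, ne0 p (sub hp)⟩, ⟨q, ⟨hq.1.1, ?_⟩, ne0 q hq.1⟩, fun u z hz => ?_,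
    Submodule.disjoint_def.2 fun d d1 d2 => hB.V_sep hN ?_⟩
  · rintro (h | h)
    · exact hq.2 h
    · have := (sub h).2.1
      rw [neg_dotProduct, hq.1.2.1] at this
      norm_num at this
  · obtain ⟨w, hw, e⟩ := hB.W_max hN hz u
    exact ⟨w, (em (w ∈ t ∨ -w ∈ t)).imp (fun h => ⟨hw, h⟩) fun h => ⟨hw, h⟩,
      by simpa only [dotProduct_comm u] using e⟩
  have key : ∀ v ∈ Vx K, d ⬝ᵥ v = d ⬝ᵥ x := by
    intro v hv
    obtain ⟨a, ha, e⟩ := hc _ ⟨v, hv, rfl⟩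
    have k1 := dot_eq_zero_of_span (d := v - a) (fun w hw => by
      have h1 := Set.ext_iff.1 e w
      have h2 := Set.ext_iff.1 e (-w)
      have h3 := hw.1 v hv
      have h4 := hw.1 a ha
      have h5 := W_neg hw.1
      have h6 := @sub w
      have h7 := @sub (-w)
      have h8 := hw.2
      simp only [Bs, mem_ofPred_eq, mem_inter_iff, neg_dotProduct, dotProduct_neg] at h1 h2 h6 h7
      rw [dotProduct_comm, dotProduct_sub]
      grind) d1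
    have k2 := dot_eq_zero_of_span (d := x - a) (fun w hw => by
      have h1 := Set.ext_iff.1 e w
      have h2 := Set.ext_iff.1 e (-w)
      have h3 := hw.1 x hx
      have h4 := hw.1 a ha
      have h5 := W_neg hw.1
      have h8 := hw.2
      have h9 := hw.1
      simp only [Bs, mem_ofPred_eq, mem_inter_iff, neg_dotProduct] at h1 h2
      rw [dotProduct_comm, dotProduct_sub]
      grind) d2
    rw [dotProduct_comm, dotProduct_sub] at k1 k2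
    linarith
  intro v hv
  have := key (-x) (hB.V_neg hx)
  rw [dotProduct_neg] at this
  linarith [key v hv]

theorem split (hn : 2 ≤ Fintype.card ι) : Split K ∨ Split (pol K) := by
  obtain ⟨x, hx, -⟩ := hB.V_max hN 0
  rcases (hB.sys hN hx).main (by
    by_contra hc
    push Not at hc
    have h1 : Vx K ⊆ Submodule.span ℝ {x} := fun v hv => by
      by_cases e : v = x
      · exact e ▸ Submodule.mem_span_singleton_self _
      · rw [hB.Bs_inj hN hx hv (hB.V_neg hx) (hc _ ⟨v, hv, rfl⟩ ((hB.Bs_nonempty hN hx hv).2 e))]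
        exact Submodule.neg_mem _ (Submodule.mem_span_singleton_self _)
    have h2 := Submodule.finrank_mono (Submodule.span_le.2 h1)
    rw [hB.V_span hN, finrank_top, Module.finrank_fintype_fun_eq_card,
      finrank_span_singleton (hB.V_ne_zero hN hx)] at h2
    omega) with ⟨a, h1, h2⟩ | ⟨t, ht, t1, t2, hc⟩
  · obtain ⟨y, hy, rfl⟩ := h1.1
    exact Or.inl (hB.split_of_perp hN hx hy ⟨(hB.atom_iff hN hx hy).1 h1,
      (hB.atom_iff hN hx (hB.V_neg hy)).1 ((Bs_neg hy).symm ▸ h2)⟩)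
  · exact Or.inr (hB.split_of_central hN hx ht t1 t2 hc)

end Body

end Vale.Agent.P248
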