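import Vale.Agent.P248.Defs
import Vale.Agent.P248.Geo3
import Vale.Agent.P248.EqMain

/-! Volumes of products and free sums, and the equality case. -/

open MeasureTheory Set Filter Topology Matrix Metric

namespace Vale.Agent.P248

attribute [local irreducible] hK

section general

variable {ι κ : Type*} [Fintype ι] [Fintype κ] {K : Set (ι → ℝ)}

lemma Body.of_ball (h1 : IsCompact K) (h2 : Convex ℝ K) (h3 : ∀ x ∈ K, -x ∈ K)
    (h4 : K ∈ 𝓝 (0 : ι → ℝ)) : Body K := ⟨h1, h2, ⟨0, mem_interior_iff_mem_nhds.2 h4⟩, h3⟩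

lemma Body.nhds (hB : Body K) : K ∈ 𝓝 (0 : ι → ℝ) := by
  obtain ⟨δ, hδ, h⟩ := hB.exists_ball
  exact mem_of_superset (closedBall_mem_nhds 0 hδ) fun y hy => h y (by simpa using hy)

lemma Body.preimage (hB : Body K) (f : (κ → ℝ) →ₗ[ℝ] ι → ℝ) (hf : Function.Injective f) :
    Body (f ⁻¹' K) :=
  Body.of_ball ((f.isClosedEmbedding_of_injective
    (LinearMap.ker_eq_bot.2 hf)).isCompact_preimage hB.cpt) (hB.cvx.linear_preimage f)
    (fun x hx => by simpa using hB.sym _ hx)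
    (f.continuous_of_finiteDimensional.continuousAt.preimage_mem_nhds (by simpa using hB.nhds))

lemma Body.image (hB : Body K) (T : (ι → ℝ) ≃ₗ[ℝ] κ → ℝ) : Body (T '' K) := by
  rw [LinearEquiv.image_eq_preimage_symm]
  exact hB.preimage T.symm.toLinearMap T.symm.injective

lemma Body.pol (hB : Body K) : Body (pol K) := by
  obtain ⟨δ, hδ, h⟩ := hB.exists_lower
  refine Body.of_ball ?_ (fun u hu v hv a b ha hb hab x hx => ?_) (fun u hu x hx => ?_) ?_
  · rw [hB.pol_eq]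
    refine isCompact_of_isClosed_isBounded (isClosed_le hB.continuous_hK continuous_const)
      (isBounded_iff_forall_norm_le.2 ⟨1 / δ, fun u hu => ?_⟩)
    rw [le_div_iff₀' hδ]; exact (h u).trans hu
  · rw [add_dotProduct, smul_dotProduct, smul_dotProduct, ← hab]
    exact add_le_add (mul_le_of_le_one_right ha (hu x hx)) (mul_le_of_le_one_right hb (hv x hx))
  · simpa using hu _ (hB.sym x hx)
  · rw [hB.pol_eq]
    exact hB.continuous_hK.continuousAt.eventually (ge_mem_nhds (by simp [hB.hK_zero]))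

lemma Body.pol_pol (hB : Body K) : P248.pol (P248.pol K) = K :=
  Subset.antisymm (fun x hx => hB.mem_of_pol fun ξ hξ => by rw [dotProduct_comm]; exact hx ξ hξ)
    fun x hx ξ hξ => by rw [dotProduct_comm]; exact hξ x hx

lemma Body.MP_pol (hB : Body K) : MP (P248.pol K) = MP K := by rw [MP, hB.pol_pol, mul_comm, MP]

lemma pol_image (T : (ι → ℝ) ≃ₗ[ℝ] ι → ℝ) : ∃ S : (ι → ℝ) ≃ₗ[ℝ] ι → ℝ,
    LinearMap.det (S : (ι → ℝ) →ₗ[ℝ] ι → ℝ) * LinearMap.det (T : (ι → ℝ) →ₗ[ℝ] ι → ℝ) = 1 ∧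
      ∀ K, pol (T '' K) = S '' pol K := by
  classical
  have h : LinearMap.det (toLin' (LinearMap.toMatrix' (T : (ι → ℝ) →ₗ[ℝ] ι → ℝ))ᵀ) =
      LinearMap.det (T : (ι → ℝ) →ₗ[ℝ] ι → ℝ) := by
    rw [LinearMap.det_toLin', det_transpose, LinearMap.det_toMatrix']
  set S := LinearMap.equivOfDetNeZero _ (h ▸ T.isUnit_det'.ne_zero) with hS
  have e : (S : (ι → ℝ) →ₗ[ℝ] ι → ℝ) = toLin' (LinearMap.toMatrix' (T : (ι → ℝ) →ₗ[ℝ] ι → ℝ))ᵀ :=
    LinearEquiv.coe_ofIsUnitDet _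
  refine ⟨S.symm, by rw [← h, ← e, LinearEquiv.det_symm_mul_det], fun K => ?_⟩
  ext y
  rw [LinearEquiv.image_eq_preimage_symm S.symm, LinearEquiv.symm_symm]
  have : ∀ x, S y ⬝ᵥ x = y ⬝ᵥ T x := fun x => by
    rw [← LinearEquiv.coe_coe, e, toLin'_apply, mulVec_transpose, ← dotProduct_mulVec,
      LinearMap.toMatrix'_mulVec, LinearEquiv.coe_coe]
  simp only [P248.pol, mem_ofPred_eq, forall_mem_image, mem_preimage, this]

lemma MP_image (T : (ι → ℝ) ≃ₗ[ℝ] ι → ℝ) (K : Set (ι → ℝ)) : MP (T '' K) = MP K := by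
  obtain ⟨S, h1, h2⟩ := pol_image T
  have v : ∀ (T : (ι → ℝ) ≃ₗ[ℝ] ι → ℝ) (K : Set (ι → ℝ)), volume.real (T '' K) =
      |LinearMap.det (T : (ι → ℝ) →ₗ[ℝ] ι → ℝ)| * volume.real K := fun T K => by
    rw [measureReal_def, ← LinearEquiv.coe_coe, Measure.addHaar_image_linearMap,
      ENNReal.toReal_mul, ENNReal.toReal_ofReal (abs_nonneg _), measureReal_def]
  rw [MP, h2, v, v, MP, mul_mul_mul_comm, ← abs_mul, mul_comm (LinearMap.det _), h1, abs_one,
    one_mul]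

end general

variable {k l : ℕ} {A : Set (Fin k → ℝ)} {B : Set (Fin l → ℝ)}

/-- concatenation as a linear equivalence -/
def app (k l : ℕ) : ((Fin k → ℝ) × (Fin l → ℝ)) ≃ₗ[ℝ] Fin (k + l) → ℝ where
  toEquiv := Fin.appendEquiv k l
  map_add' x y := by ext i; refine Fin.addCases (fun i => ?_) (fun i => ?_) i <;> simp
  map_smul' c x := by ext i; refine Fin.addCases (fun i => ?_) (fun i => ?_) i <;> simp

def prodS (A : Set (Fin k → ℝ)) (B : Set (Fin l → ℝ)) : Set (Fin (k + l) → ℝ) :=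
  {x | (fun i => x (Fin.castAdd l i)) ∈ A ∧ (fun j => x (Fin.natAdd k j)) ∈ B}

def sumS (A : Set (Fin k → ℝ)) (B : Set (Fin l → ℝ)) : Set (Fin (k + l) → ℝ) :=
  convexHull ℝ ((fun y => app k l (y, 0)) '' A ∪ (fun z => app k l (0, z)) '' B)

lemma dot_app (u : Fin (k + l) → ℝ) (y : Fin k → ℝ) (z : Fin l → ℝ) :
    u ⬝ᵥ app k l (y, z) = ((app k l).symm u).1 ⬝ᵥ y + ((app k l).symm u).2 ⬝ᵥ z := by
  simp [dotProduct, Fin.sum_univ_add, app]

lemma mem_prodS {x : Fin (k + l) → ℝ} :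
    x ∈ prodS A B ↔ ((app k l).symm x).1 ∈ A ∧ ((app k l).symm x).2 ∈ B := Iff.rfl

lemma Body.prod (hA : Body A) (hB : Body B) : Body (prodS A B) := by
  have c := (app k l).symm.toLinearMap.continuous_of_finiteDimensional
  refine Body.of_ball (((app k l).symm.toLinearMap.isClosedEmbedding_of_injective
    (app k l).symm.ker).isCompact_preimage (hA.cpt.prod hB.cpt))
    ((hA.cvx.prod hB.cvx).linear_preimage (app k l).symm.toLinearMap)
    (fun x hx => ⟨hA.sym _ hx.1, hB.sym _ hx.2⟩) (c.continuousAt.preimage_mem_nhds (t := A ×ˢ B) ?_)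
  rw [map_zero]
  exact prod_mem_nhds hA.nhds hB.nhds

lemma pol_sum (A : Set (Fin k → ℝ)) (B : Set (Fin l → ℝ)) :
    pol (sumS A B) = prodS (pol A) (pol B) := by
  ext u
  refine ⟨fun h => ⟨fun y hy => ?_, fun z hz => ?_⟩, fun h => convexHull_min ?_
    (convex_halfSpace_le ⟨dotProduct_add u, fun c x => dotProduct_smul c u x⟩ 1)⟩
  · have := h (app k l (y, 0)) (subset_convexHull ℝ _ (Or.inl ⟨y, hy, rfl⟩))
    rw [dot_app, dotProduct_zero, add_zero] at this
    exact this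
  · have := h (app k l (0, z)) (subset_convexHull ℝ _ (Or.inr ⟨z, hz, rfl⟩))
    rw [dot_app, dotProduct_zero, zero_add] at this
    exact this
  · rintro _ (⟨y, hy, rfl⟩ | ⟨z, hz, rfl⟩)
    · show u ⬝ᵥ app k l (y, 0) ≤ 1
      rw [dot_app, dotProduct_zero, add_zero]
      exact h.1 y hy
    · show u ⬝ᵥ app k l (0, z) ≤ 1
      rw [dot_app, dotProduct_zero, zero_add]
      exact h.2 z hz

lemma Body.sum (hA : Body A) (hB : Body B) : Body (sumS A B) := by
  have c := (app k l).toLinearMap.continuous_of_finiteDimensional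
  have c' := (app k l).symm.toLinearMap.continuous_of_finiteDimensional
  rw [LinearEquiv.coe_coe] at c c'
  refine Body.of_ball ?_ (convex_convexHull _ _) ?_ ?_
  · have cA : Convex ℝ ((fun y => app k l (y, 0)) '' A) :=
      hA.cvx.is_linear_image ((app k l).toLinearMap ∘ₗ LinearMap.inl ℝ _ _).isLinear
    have cB : Convex ℝ ((fun z => app k l (0, z)) '' B) :=
      hB.cvx.is_linear_image ((app k l).toLinearMap ∘ₗ LinearMap.inr ℝ _ _).isLinear
    rw [sumS, cA.convexHull_union cB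
      (Nonempty.image _ ⟨0, hA.zero_mem⟩) (Nonempty.image _ ⟨0, hB.zero_mem⟩)]
    convert ((isCompact_Icc (a := (0 : ℝ)) (b := 1)).prod (hA.cpt.prod hB.cpt)).image
      (f := fun p => (1 - p.1) • app k l (p.2.1, 0) + p.1 • app k l (0, p.2.2)) (by fun_prop) using 1
    ext x
    simp only [mem_convexJoin, segment_eq_image, mem_image, mem_prod, Prod.exists]
    constructor
    · rintro ⟨_, ⟨a, ha, rfl⟩, _, ⟨b, hb, rfl⟩, t, ht, e⟩
      exact ⟨t, a, b, ⟨ht, ha, hb⟩, e⟩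
    · rintro ⟨t, a, b, ⟨ht, ha, hb⟩, e⟩
      exact ⟨_, ⟨a, ha, rfl⟩, _, ⟨b, hb, rfl⟩, t, ht, e⟩
  · refine convexHull_min ?_ ((convex_convexHull ℝ _).is_linear_preimage (IsLinearMap.isLinearMap_neg))
    rintro _ (⟨y, hy, rfl⟩ | ⟨z, hz, rfl⟩)
    · exact subset_convexHull ℝ _ (Or.inl ⟨-y, hA.sym y hy, by simp [← map_neg]⟩)
    · exact subset_convexHull ℝ _ (Or.inr ⟨-z, hB.sym z hz, by simp [← map_neg]⟩)
  · have : ∀ᶠ x in 𝓝 (0 : Fin (k + l) → ℝ), (2 : ℝ) • x ∈ prodS A B :=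
      ContinuousAt.eventually_mem (by fun_prop) (by simpa using (hA.prod hB).nhds)
    refine this.mono fun x hx => ?_
    have m1 : app k l (_, 0) ∈ sumS A B := subset_convexHull ℝ _ (Or.inl ⟨_, hx.1, rfl⟩)
    have m2 : app k l (0, _) ∈ sumS A B := subset_convexHull ℝ _ (Or.inr ⟨_, hx.2, rfl⟩)
    have : _ ∈ sumS A B := convex_convexHull ℝ _ m1 m2 (a := 1 / 2) (b := 1 / 2) (by norm_num)
      (by norm_num) (by norm_num)
    refine mem_of_eq_of_mem ?_ this
    ext i; refine Fin.addCases (fun i => ?_) (fun i => ?_) i <;> simp [app]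

lemma pol_prod (hA : Body A) (hB : Body B) : pol (prodS A B) = sumS (pol A) (pol B) := by
  rw [← (hA.pol.sum hB.pol).pol_pol, pol_sum, hA.pol_pol, hB.pol_pol]

/-- splitting coordinates preserves the volume -/
noncomputable def spl (k l : ℕ) : (Fin (k + l) → ℝ) ≃ᵐ (Fin k → ℝ) × (Fin l → ℝ) :=
  (MeasurableEquiv.piCongrLeft (fun _ => ℝ) finSumFinEquiv).symm.trans
    (MeasurableEquiv.sumPiEquivProdPi fun _ => ℝ)

lemma spl_mp (k l : ℕ) : MeasurePreserving (spl k l) :=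
  (volume_measurePreserving_piCongrLeft (fun _ => ℝ) finSumFinEquiv).symm.trans
    (volume_measurePreserving_sumPiEquivProdPi fun _ => ℝ)

lemma hK_prod (hA : Body A) (hB : Body B) (u : Fin (k + l) → ℝ) :
    hK (prodS A B) u = hK A (spl k l u).1 + hK B (spl k l u).2 := by
  refine le_antisymm ((hA.prod hB).hK_le fun x hx => ?_) ?_
  · rw [← (app k l).apply_symm_apply x, dot_app]
    exact add_le_add (hA.le_hK _ hx.1) (hB.le_hK _ hx.2)
  · obtain ⟨y, hy, e1⟩ := hA.exists_hK (spl k l u).1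
    obtain ⟨z, hz, e2⟩ := hB.exists_hK (spl k l u).2
    have := (hA.prod hB).le_hK u (x := app k l (y, z)) (by simpa [mem_prodS] using ⟨hy, hz⟩)
    rw [dot_app] at this
    rw [← e1, ← e2]
    exact this

lemma MP_prod (hk : 1 ≤ k) (hl : 1 ≤ l) (hA : Body A) (hB : Body B) :
    (k + l).factorial * MP (prodS A B) = k.factorial * MP A * (l.factorial * MP B) := by
  have : Nonempty (Fin k) := ⟨⟨0, hk⟩⟩
  have : Nonempty (Fin l) := ⟨⟨0, hl⟩⟩
  have : Nonempty (Fin (k + l)) := ⟨⟨0, by omega⟩⟩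
  have h1 : volume.real (prodS A B) = volume.real A * volume.real B := by
    rw [← measureReal_prod_prod, measureReal_def, measureReal_def, ← Measure.volume_eq_prod,
      ← (spl_mp k l).measure_preimage_equiv]
    rfl
  have h2 := (hA.prod hB).integral_exp one_pos
  have h3 := hA.integral_exp one_pos
  have h4 := hB.integral_exp one_pos
  simp only [one_mul, one_pow, div_one, Fintype.card_fin, hK_prod hA hB, neg_add,
    Real.exp_add] at h2 h3 h4
  rw [(spl_mp k l).integral_comp' fun z => Real.exp (-hK A z.1) * Real.exp (-hK B z.2),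
    Measure.volume_eq_prod, integral_prod_mul (fun y => Real.exp (-hK A y))
      (fun z => Real.exp (-hK B z)), h3, h4] at h2
  simp only [MP, h1]
  linear_combination (-volume.real A * volume.real B) * h2

lemma MP_sum (hk : 1 ≤ k) (hl : 1 ≤ l) (hA : Body A) (hB : Body B) :
    (k + l).factorial * MP (sumS A B) = k.factorial * MP A * (l.factorial * MP B) := by
  rw [← (hA.sum hB).MP_pol, pol_sum, MP_prod hk hl hA.pol hB.pol, hA.MP_pol, hB.MP_pol]

lemma seg_eq (a : ℝ) : {x : Fin 1 → ℝ | -a ≤ x 0 ∧ x 0 ≤ a} = Icc (fun _ => -a) fun _ => a := by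
  ext x; simp [Pi.le_def, Fin.forall_fin_one]

lemma pol_seg {a : ℝ} (ha : 0 < a) :
    pol {x : Fin 1 → ℝ | -a ≤ x 0 ∧ x 0 ≤ a} = {x | -a⁻¹ ≤ x 0 ∧ x 0 ≤ a⁻¹} := by
  ext y
  simp only [pol, mem_ofPred_eq, dotProduct, Fin.sum_univ_one, ← abs_le]
  refine ⟨fun h => ?_, fun h x hx => (le_abs_self _).trans ?_⟩
  · rw [← one_div, le_div_iff₀ ha, ← abs_of_pos ha, ← abs_mul, abs_le]
    exact ⟨by linarith [h (fun _ => -a) (by simp [abs_of_pos ha])],
      h (fun _ => a) (by simp [abs_of_pos ha])⟩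
  · rw [abs_mul, ← inv_mul_cancel₀ ha.ne']
    gcongr

theorem IsHanner.facts {n : ℕ} {H : Set (Fin n → ℝ)} (h : IsHanner n H) :
    1 ≤ n ∧ Body H ∧ n.factorial * MP H = 4 ^ n ∧ IsHanner n (pol H) := by
  induction h with
  | segment a ha =>
    refine ⟨le_rfl, ?_, ?_, pol_seg ha ▸ IsHanner.segment _ (inv_pos.2 ha)⟩
    · rw [seg_eq]
      exact Body.of_ball isCompact_Icc (convex_Icc _ _)
        (fun x hx => ⟨fun i => neg_le_neg (hx.2 i), fun i => neg_le.1 (hx.1 i)⟩)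
        (pi_Icc_mem_nhds (fun _ => by simpa) fun _ => ha)
    · have := inv_pos.2 ha
      rw [MP, pol_seg ha, seg_eq, seg_eq, measureReal_def, measureReal_def,
        Real.volume_Icc_pi_toReal fun _ => by linarith, Real.volume_Icc_pi_toReal fun _ => by linarith]
      simp
      field_simp
      norm_num
  | prod _ _ h1 h2 =>
    refine ⟨by omega, h1.2.1.prod h2.2.1, ?_, ?_⟩
    · exact (MP_prod h1.1 h2.1 h1.2.1 h2.2.1).trans (by rw [h1.2.2.1, h2.2.2.1, pow_add])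
    · exact (pol_prod h1.2.1 h2.2.1) ▸ IsHanner.hull h1.2.2.2 h2.2.2.2
  | hull _ _ h1 h2 =>
    refine ⟨by omega, h1.2.1.sum h2.2.1, ?_, ?_⟩
    · exact (MP_sum h1.1 h2.1 h1.2.1 h2.2.1).trans (by rw [h1.2.2.1, h2.2.2.1, pow_add])
    · exact (pol_sum _ _) ▸ IsHanner.prod h1.2.2.2 h2.2.2.2

/-- linear images of Hanner polytopes -/
def HI {n : ℕ} (K : Set (Fin n → ℝ)) : Prop :=
  ∃ (T : (Fin n → ℝ) ≃ₗ[ℝ] (Fin n → ℝ)) (H : Set (Fin n → ℝ)), IsHanner n H ∧ K = T '' H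

lemma mahler' {n : ℕ} (hn : 1 ≤ n) {K : Set (Fin n → ℝ)} (hB : Body K) :
    4 ^ n ≤ n.factorial * MP K := by
  have : Nonempty (Fin n) := ⟨⟨0, hn⟩⟩
  have := mahler hB
  rwa [Fintype.card_fin, div_le_iff₀' (by positivity)] at this

lemma HI.sum (hA : HI A) (hB : HI B) (T : (Fin (k + l) → ℝ) ≃ₗ[ℝ] Fin (k + l) → ℝ) :
    HI (T '' sumS A B) := by
  obtain ⟨T1, H1, h1, rfl⟩ := hA
  obtain ⟨T2, H2, h2, rfl⟩ := hB
  refine ⟨((app k l).symm ≪≫ₗ (T1.prodCongr T2) ≪≫ₗ app k l) ≪≫ₗ T, sumS H1 H2,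
    IsHanner.hull h1 h2, ?_⟩
  have : sumS (T1 '' H1) (T2 '' H2) =
      ((app k l).symm ≪≫ₗ (T1.prodCongr T2) ≪≫ₗ app k l).toLinearMap '' sumS H1 H2 := by
    rw [sumS, sumS, LinearMap.image_convexHull]
    simp [image_union, image_image]
  rw [this, image_image]
  rfl

lemma split_HI {n : ℕ} (ih : ∀ m < n, 1 ≤ m → ∀ K : Set (Fin m → ℝ), Body K →
    m.factorial * MP K = 4 ^ m → HI K) {L : Set (Fin n → ℝ)} (hL : Body L)
    (hE : n.factorial * MP L = 4 ^ n) (hS : Split L) : HI L := by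
  obtain ⟨A, B, -, -, sA, sB, ⟨a, ha, a0⟩, ⟨b, hb, b0⟩, hm, hd⟩ := hS
  have hc : IsCompl (Submodule.span ℝ A) (Submodule.span ℝ B) := by
    refine ⟨hd, codisjoint_iff.2 ?_⟩
    rw [← Submodule.span_union]
    by_contra hne
    obtain ⟨y, hy⟩ : ∃ y, y ∉ Submodule.span ℝ (A ∪ B) := by simpa [Submodule.eq_top_iff'] using hne
    obtain ⟨d, d1, d2⟩ := exists_ann hy
    have : d = 0 := hL.hK_eq_zero (le_antisymm (hL.hK_le fun x hx =>
      (hm d x hx).elim fun v hv => hv.2.trans_eq (d2 v hv.1)) (hL.hK_nonneg d))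
    simp [this] at d1
  have pos : ∀ {A : Set (Fin n → ℝ)} {a}, a ∈ A → a ≠ 0 →
      1 ≤ Module.finrank ℝ (Submodule.span ℝ A) := fun ha a0 =>
    Module.finrank_pos_iff_exists_ne_zero.2 ⟨⟨_, Submodule.subset_span ha⟩, by simpa using a0⟩
  have hk := pos ha a0
  have hl := pos hb b0
  have hkl := Submodule.finrank_add_eq_of_isCompl hc
  obtain ⟨k, ek⟩ : ∃ k, Module.finrank ℝ (Submodule.span ℝ A) = k := ⟨_, rfl⟩
  obtain ⟨l, el⟩ : ∃ l, Module.finrank ℝ (Submodule.span ℝ B) = l := ⟨_, rfl⟩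
  rw [ek, el, Module.finrank_fin_fun] at hkl
  rw [ek] at hk
  rw [el] at hl
  subst hkl
  set e1 := (Module.finBasisOfFinrankEq ℝ _ ek).equivFun
  set e2 := (Module.finBasisOfFinrankEq ℝ _ el).equivFun
  set T := (app k l).symm ≪≫ₗ (e1.symm.prodCongr e2.symm) ≪≫ₗ Submodule.prodEquivOfIsCompl _ _ hc
    with hT
  have b1 := hL.preimage (T.toLinearMap ∘ₗ (app k l).toLinearMap ∘ₗ LinearMap.inl ℝ _ _)
    (T.injective.comp ((app k l).injective.comp LinearMap.inl_injective))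
  have b2 := hL.preimage (T.toLinearMap ∘ₗ (app k l).toLinearMap ∘ₗ LinearMap.inr ℝ _ _)
    (T.injective.comp ((app k l).injective.comp LinearMap.inr_injective))
  set K1 := (T.toLinearMap ∘ₗ (app k l).toLinearMap ∘ₗ LinearMap.inl ℝ _ _) ⁻¹' L
  set K2 := (T.toLinearMap ∘ₗ (app k l).toLinearMap ∘ₗ LinearMap.inr ℝ _ _) ⁻¹' L
  have e : L = T '' sumS K1 K2 := by
    refine Subset.antisymm (fun x hx => ((b1.sum b2).image T).mem_of_le fun u => ?_)
      (image_subset_iff.2 (convexHull_min ?_ (hL.cvx.linear_preimage T.toLinearMap)))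
    · obtain ⟨v, hv, h⟩ := hm u x hx
      refine h.trans (((b1.sum b2).image T).le_hK u ?_)
      rcases hv with hv | hv
      · have : T (app k l (e1 ⟨v, Submodule.subset_span hv⟩, 0)) = v := by simp [hT]
        exact ⟨_, subset_convexHull ℝ _ (Or.inl ⟨_, (mem_of_eq_of_mem this (sA hv) :), rfl⟩), this⟩
      · have : T (app k l (0, e2 ⟨v, Submodule.subset_span hv⟩)) = v := by simp [hT]
        exact ⟨_, subset_convexHull ℝ _ (Or.inr ⟨_, (mem_of_eq_of_mem this (sB hv) :), rfl⟩), this⟩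
    · rintro _ (⟨y, hy, rfl⟩ | ⟨z, hz, rfl⟩)
      exacts [hy, hz]
  rw [e, MP_image, MP_sum hk hl b1 b2, pow_add] at hE
  have m1 := mahler' hk b1
  have m2 := mahler' hl b2
  have p1 : (0 : ℝ) < 4 ^ k := by positivity
  have p2 : (0 : ℝ) < 4 ^ l := by positivity
  rw [e]
  exact (ih k (by omega) hk K1 b1 (le_antisymm (le_of_mul_le_mul_right (by nlinarith) p2) m1)).sum
    (ih l (by omega) hl K2 b2 (le_antisymm (le_of_mul_le_mul_left (by nlinarith) p1) m2)) T

theorem equality (n : ℕ) (hn : 1 ≤ n) (K : Set (Fin n → ℝ)) (hB : Body K)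
    (hE : n.factorial * MP K = 4 ^ n) : HI K := by
  induction n using Nat.strong_induction_on with
  | _ n ih =>
  rcases hn.eq_or_lt with rfl | h2
  · have h1 : (fun _ => 1 : Fin 1 → ℝ) ≠ 0 := fun e => by simpa using congrFun e 0
    refine ⟨LinearEquiv.refl _ _, _, IsHanner.segment _ (hB.hK_pos h1), ?_⟩
    refine Eq.trans ?_ (image_id _).symm
    ext x
    simp only [mem_ofPred_eq, ← abs_le]
    refine ⟨fun hx => abs_le.2 ⟨?_, ?_⟩, fun h => hB.mem_of_le fun u => ?_⟩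
    · simpa [dotProduct, neg_le] using hB.le_hK (fun _ => 1) (hB.sym x hx)
    · simpa [dotProduct] using hB.le_hK (fun _ => 1) hx
    · have : u = u 0 • fun _ => 1 := by ext i; simp [Subsingleton.elim i 0]
      conv_rhs => rw [this, hB.hK_smul']
      simp only [dotProduct, Fin.sum_univ_one]
      exact (le_abs_self _).trans (by rw [abs_mul]; gcongr)
  have : Nonempty (Fin n) := ⟨⟨0, hn⟩⟩
  have hN : NA K := fun P R σ hσ => no_arcs hB (by
    rw [Fintype.card_fin, le_div_iff₀' (by positivity), hE]) P R hσ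
  rcases hB.split hN (by rw [Fintype.card_fin]; omega) with h | h
  · exact split_HI ih hB hE h
  · obtain ⟨T, H, h1, h2⟩ := split_HI ih hB.pol (hB.MP_pol ▸ hE) h
    obtain ⟨S, -, hS⟩ := pol_image T
    exact ⟨S, _, h1.facts.2.2.2, by rw [← hS, ← h2, hB.pol_pol]⟩

theorem equality_iff (n : ℕ) (hn : 1 ≤ n) (K : Set (Fin n → ℝ)) (hB : Body K) :
    MP K = 4 ^ n / n.factorial ↔ HI K := by
  rw [eq_div_iff (by positivity), mul_comm]
  refine ⟨equality n hn K hB, ?_⟩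
  rintro ⟨T, H, h, rfl⟩
  rw [MP_image, h.facts.2.2.1]

end Vale.Agent.P248
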