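import Vale.Agent.P248.PG
import Vale.Agent.P248.LinAlg

/-! The derivative of `∫ e^{-N} det A` under a divergence-form deformation. -/

open MeasureTheory Set Filter Topology Real Matrix

namespace Vale.Agent.P248

variable {ι : Type*} [Fintype ι] [DecidableEq ι]
variable {X : Type*} [NormedAddCommGroup X] [NormedSpace ℝ X] [FiniteDimensional ℝ X]
  [MeasurableSpace X] [BorelSpace X] {μ : Measure X} [μ.IsAddHaarMeasure]

omit [NormedSpace ℝ X] [FiniteDimensional ℝ X] [MeasurableSpace X] [BorelSpace X] in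
lemma PG.dadj {A T : X → Matrix ι ι ℝ} (hA : ∀ i j, PG fun x => A x i j)
    (hT : ∀ i j, PG fun x => T x i j) (i j : ι) : PG fun x => dadj (A x) (T x) i j := by
  unfold P248.dadj
  exact PG.sum _ fun k => PG.sum _ fun l => (PG.adj (PG.updateRow hA _ _) _ _).mul
    (PG.updateRow hT _ _ _ _)

lemma div_lemma (e : ι → X) {A : X → Matrix ι ι ℝ} {AP : ι → X → Matrix ι ι ℝ} {N : X → ℝ}
    {NP S : X → ι → ℝ} {SP : X → Matrix ι ι ℝ} (hA : ∀ i j, PG fun x => A x i j)
    (hAP : ∀ k i j, PG fun x => AP k x i j) (hN : Continuous N) (hNP : PG NP) (hS : PG S)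
    (hSP : ∀ i j, PG fun x => SP x i j) {δ D : ℝ} (hδ : 0 < δ) (hd : ∀ x, δ * ‖x‖ - D ≤ N x)
    (dA : ∀ a k i j, HasDerivAt (fun s : ℝ => A (a + s • e k) i j) (AP k a i j) 0)
    (sym : ∀ a i k l, AP i a k l = AP l a k i)
    (dN : ∀ a k, HasDerivAt (fun s : ℝ => N (a + s • e k)) (NP a k) 0)
    (dS : ∀ a k l, HasDerivAt (fun s : ℝ => S (a + s • e l) k) (SP a k l) 0) :
    ∫ a, Real.exp (-N a) * ∑ k, ∑ l, (A a).adjugate l k * SP a k l ∂μ =
      ∫ a, Real.exp (-N a) * (NP a ⬝ᵥ (A a).adjugate *ᵥ S a) ∂μ := by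
  have hadj := PG.adj hA
  have hda := fun k => PG.dadj hA (hAP k)
  have I : ∀ {f : X → ℝ}, PG f → Integrable (fun a => Real.exp (-N a) * f a) μ :=
    fun hf => hf.integrable hN hδ hd
  have key : ∀ k l, ∫ a, Real.exp (-N a) * (-(NP a l * (A a).adjugate l k * S a k) +
      dadj (A a) (AP l a) l k * S a k + (A a).adjugate l k * SP a k l) ∂μ = 0 := by
    intro k l
    refine integral_lineDeriv_eq_zero (v := e l)
      (f := fun a => Real.exp (-N a) * ((A a).adjugate l k * S a k)) (I (by fun_prop))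
      (I (by fun_prop)) fun a => ?_
    have := (dN a l).fun_neg.exp.fun_mul
      ((hasDerivAt_adj (A := fun s : ℝ => A (a + s • e l)) (dA a l) l k).fun_mul (dS a k l))
    refine this.congr_deriv ?_
    simp only [zero_smul, add_zero]
    ring
  have h2 : ∫ a, Real.exp (-N a) * ∑ k, ∑ l, (-(NP a l * (A a).adjugate l k * S a k) +
      dadj (A a) (AP l a) l k * S a k + (A a).adjugate l k * SP a k l) ∂μ = 0 := by
    simp only [Finset.mul_sum]
    rw [integral_finsetSum _ fun k _ => integrable_finsetSum _ fun l _ => I (by fun_prop)]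
    refine Finset.sum_eq_zero fun k _ => ?_
    rw [integral_finsetSum _ fun l _ => I (by fun_prop)]
    exact Finset.sum_eq_zero fun l _ => key k l
  have hv : PG fun a => (A a).adjugate *ᵥ S a := PG.mulVec hadj hS
  rw [← sub_eq_zero, ← integral_sub (I (by fun_prop)) (I (by fun_prop)), ← h2]
  refine integral_congr_ae (Eventually.of_forall fun a => ?_)
  have e1 : NP a ⬝ᵥ (A a).adjugate *ᵥ S a = ∑ k, ∑ l, NP a l * (A a).adjugate l k * S a k := by
    simp only [dotProduct, mulVec, Finset.mul_sum, mul_assoc]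
    exact Finset.sum_comm
  have e2 : ∑ k, ∑ l, dadj (A a) (AP l a) l k * S a k = 0 := by
    simp only [← Finset.sum_mul, piola (A a) (fun l => AP l a) (sym a), zero_mul,
      Finset.sum_const_zero]
  simp only [Finset.sum_add_distrib, Finset.sum_neg_distrib, e1, e2]
  ring

theorem general (eP eR : ι → X) {A At SP CR : ℝ × X → Matrix ι ι ℝ}
    {AP AR : ι → ℝ × X → Matrix ι ι ℝ} {N Nt : ℝ × X → ℝ} {NP NR S C : ℝ × X → ι → ℝ}
    (hA : ∀ i j, PG fun x => A x i j) (hAt : ∀ i j, PG fun x => At x i j)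
    (hSP : ∀ i j, PG fun x => SP x i j) (hCR : ∀ i j, PG fun x => CR x i j)
    (hAP : ∀ k i j, PG fun x => AP k x i j) (hAR : ∀ k i j, PG fun x => AR k x i j)
    (hN : Continuous N) (hNt : PG Nt) (hNP : PG NP) (hNR : PG NR) (hS : PG S) (hC : PG C)
    (hd : ∀ T, ∃ δ > 0, ∃ D, ∀ t, |t| ≤ T → ∀ a, δ * ‖a‖ - D ≤ N (t, a))
    (dAt : ∀ t a i j, HasDerivAt (fun s => A (s, a) i j) (At (t, a) i j) t)
    (dNt : ∀ t a, HasDerivAt (fun s => N (s, a)) (Nt (t, a)) t)
    (dAP : ∀ t a k i j, HasDerivAt (fun s : ℝ => A (t, a + s • eP k) i j) (AP k (t, a) i j) 0)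
    (dAR : ∀ t a k i j, HasDerivAt (fun s : ℝ => A (t, a + s • eR k) i j) (AR k (t, a) i j) 0)
    (symP : ∀ a i k l, AP i a k l = AP l a k i) (symR : ∀ a i k l, AR i a k l = AR l a k i)
    (dNP : ∀ t a k, HasDerivAt (fun s : ℝ => N (t, a + s • eP k)) (NP (t, a) k) 0)
    (dNR : ∀ t a k, HasDerivAt (fun s : ℝ => N (t, a + s • eR k)) (NR (t, a) k) 0)
    (dS : ∀ t a k l, HasDerivAt (fun s : ℝ => S (t, a + s • eP l) k) (SP (t, a) k l) 0)
    (dC : ∀ t a k l, HasDerivAt (fun s : ℝ => C (t, a + s • eR l) k) (CR (t, a) k l) 0)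
    (hE : ∀ z i j, At z i j = SP z i j - CR z i j) (t : ℝ) :
    HasDerivAt (fun s => ∫ a, Real.exp (-N (s, a)) * (A (s, a)).det ∂μ)
      (∫ a, Real.exp (-N (t, a)) * (NP (t, a) ⬝ᵥ (A (t, a)).adjugate *ᵥ S (t, a) -
        NR (t, a) ⬝ᵥ (A (t, a)).adjugate *ᵥ C (t, a) - Nt (t, a) * (A (t, a)).det) ∂μ) t := by
  have hadj := PG.adj hA
  have hdet := PG.det hA
  have h := hasDerivAt_integral_PG (μ := μ) (F := fun z => (A z).det)
    (F' := fun z => ∑ k, ∑ l, (A z).adjugate l k * At z k l) hdet (by fun_prop) hN hNt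
    (fun t a => hasDerivAt_det' (A := fun s => A (s, a)) (dAt t a)) dNt hd t
  refine h.congr_deriv ?_
  obtain ⟨δ, hδ, D, hD⟩ := hd |t|
  have c : ∀ {β : Type _} [SeminormedAddCommGroup β] {f : ℝ × X → β}, PG f → PG fun a => f (t, a) :=
    fun hf => hf.comp (by fun_prop)
  have c1 : ∀ {f : ℝ × X → ℝ}, PG f → PG fun a => f (t, a) := fun hf => hf.comp (by fun_prop)
  have hN' : Continuous fun a => N (t, a) := by fun_prop
  have I : ∀ {f : ℝ × X → ℝ}, PG f → Integrable (fun a => Real.exp (-N (t, a)) * f (t, a)) μ :=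
    fun hf => (c1 hf).integrable hN' hδ (hD t le_rfl)
  have e1 := div_lemma (μ := μ) eP (A := fun a => A (t, a)) (AP := fun k a => AP k (t, a))
    (fun i j => c1 (hA i j)) (fun k i j => c1 (hAP k i j)) hN' (c hNP) (c hS)
    (fun i j => c1 (hSP i j)) hδ (hD t le_rfl) (dAP t) (fun a => symP _) (dNP t) (dS t)
  have e2 := div_lemma (μ := μ) eR (A := fun a => A (t, a)) (AP := fun k a => AR k (t, a))
    (fun i j => c1 (hA i j)) (fun k i j => c1 (hAR k i j)) hN' (c hNR) (c hC)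
    (fun i j => c1 (hCR i j)) hδ (hD t le_rfl) (dAR t) (fun a => symR _) (dNR t) (dC t)
  have hv : PG fun z => (A z).adjugate *ᵥ S z := PG.mulVec hadj hS
  have hw : PG fun z => (A z).adjugate *ᵥ C z := PG.mulVec hadj hC
  simp only [hE, mul_sub, Finset.sum_sub_distrib]
  have J : ∀ {f g h : ℝ × X → ℝ}, PG f → PG g → PG h → ∫ a, Real.exp (-N (t, a)) * f (t, a) -
      Real.exp (-N (t, a)) * g (t, a) - Real.exp (-N (t, a)) * h (t, a) ∂μ =
      ∫ a, Real.exp (-N (t, a)) * f (t, a) ∂μ - ∫ a, Real.exp (-N (t, a)) * g (t, a) ∂μ -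
      ∫ a, Real.exp (-N (t, a)) * h (t, a) ∂μ := fun hf hg hh => by
    rw [integral_sub (by exact (I hf).sub (I hg)) (I hh), integral_sub (I hf) (I hg)]
  rw [J (f := fun z => ∑ k, ∑ l, (A z).adjugate l k * SP z k l)
      (g := fun z => ∑ k, ∑ l, (A z).adjugate l k * CR z k l) (h := fun z => Nt z * (A z).det)
      (by fun_prop) (by fun_prop) (by fun_prop), e1, e2,
    J (f := fun z => NP z ⬝ᵥ (A z).adjugate *ᵥ S z) (g := fun z => NR z ⬝ᵥ (A z).adjugate *ᵥ C z)
      (h := fun z => Nt z * (A z).det) (by fun_prop) (by fun_prop) (by fun_prop)]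

end Vale.Agent.P248
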