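import Vale.Agent.P248.EqMA

/-! Vertices visible along a line of directions. -/

open Set Filter Topology Matrix Metric

namespace Vale.Agent.P248

attribute [local irreducible] hK

variable {ι : Type*} [Fintype ι]

/-- no line of directions meets more than `n` kinks -/
def NA (K : Set (ι → ℝ)) : Prop := ∀ (P R : ι → ℝ) (σ : Fin (Fintype.card ι + 2) → ℝ),
  StrictMono σ → ∃ j : Fin (Fintype.card ι + 1),
    gap K (R + σ j.castSucc • P) (R + σ j.succ • P) ≤ 0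

/-- normal cone -/
def Nc (K : Set (ι → ℝ)) (v : ι → ℝ) : Set (ι → ℝ) := {u | u ⬝ᵥ v = hK K u}

/-- all points of `S` are seen along the line `P + t R` -/
def Vis (K : Set (ι → ℝ)) (P R : ι → ℝ) (S : Set (ι → ℝ)) : Prop :=
  ∀ v ∈ S, v ∈ K ∧ ∃ t : ℝ, P + t • R ∈ interior (Nc K v)

lemma lin_eq_dot (f : (ι → ℝ) →ₗ[ℝ] ℝ) : ∃ u : ι → ℝ, ∀ x, f x = u ⬝ᵥ x :=
  dual_eq_dot (LinearMap.toContinuousLinearMap f)

lemma exists_ann {S : Set (ι → ℝ)} {y : ι → ℝ} (h : y ∉ Submodule.span ℝ S) :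
    ∃ d : ι → ℝ, d ⬝ᵥ y ≠ 0 ∧ ∀ x ∈ S, d ⬝ᵥ x = 0 := by
  obtain ⟨f, h1, h2⟩ := Submodule.exists_le_ker_of_notMem h
  obtain ⟨d, hd⟩ := lin_eq_dot f
  exact ⟨d, hd y ▸ h1, fun x hx => hd x ▸ h2 (Submodule.subset_span hx)⟩

lemma dot_eq_zero_of_span {S : Set (ι → ℝ)} {d y : ι → ℝ} (h : ∀ x ∈ S, d ⬝ᵥ x = 0)
    (hy : y ∈ Submodule.span ℝ S) : d ⬝ᵥ y = 0 := by
  induction hy using Submodule.span_induction with
  | mem x hx => exact h x hx
  | zero => simp
  | add x y _ _ h1 h2 => rw [dotProduct_add, h1, h2, add_zero]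
  | smul a x _ h1 => rw [dotProduct_smul, h1, smul_zero]

namespace Body

variable {K : Set (ι → ℝ)} (hB : Body K)
include hB

lemma isClosed_Nc (v : ι → ℝ) : IsClosed (Nc K v) :=
  isClosed_eq (by fun_prop) hB.continuous_hK

lemma mem_Nc {v u : ι → ℝ} (hv : v ∈ K) : u ∈ Nc K v ↔ ∀ x ∈ K, u ⬝ᵥ x ≤ u ⬝ᵥ v :=
  ⟨fun h x hx => (hB.le_hK u hx).trans_eq (Eq.symm h),
    fun h => le_antisymm (hB.le_hK u hv) (hB.hK_le h)⟩

lemma convex_Nc {v : ι → ℝ} (hv : v ∈ K) : Convex ℝ (Nc K v) := fun u hu w hw a b ha hb _ => by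
  rw [hB.mem_Nc hv] at *
  intro x hx
  simp only [add_dotProduct, smul_dotProduct, smul_eq_mul]
  exact add_le_add (mul_le_mul_of_nonneg_left (hu x hx) ha) (mul_le_mul_of_nonneg_left (hw x hx) hb)

lemma uniq {u v y : ι → ℝ} (hu : u ∈ interior (Nc K v)) (hy : y ∈ K) (h : u ∈ Nc K y) : y = v := by
  have key : ∀ d, d ⬝ᵥ y ≤ d ⬝ᵥ v := fun d => by
    have h1 : ∀ᶠ s in 𝓝 (0 : ℝ), u + s • d ∈ Nc K v :=
      ContinuousAt.eventually_mem (by fun_prop) (by simpa using mem_interior_iff_mem_nhds.1 hu)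
    obtain ⟨s, hs, h2⟩ := (eventually_mem_nhdsWithin.and
      (h1.filter_mono (nhdsWithin_le_nhds (s := Ioi 0)))).exists
    have h3 := (hB.le_hK (u + s • d) hy).trans_eq (Eq.symm h2)
    have h4 : u ⬝ᵥ v = u ⬝ᵥ y := (interior_subset hu).trans (Eq.symm h)
    simp only [add_dotProduct, smul_dotProduct, smul_eq_mul, h4, add_le_add_iff_left] at h3
    exact le_of_mul_le_mul_left h3 hs
  refine dotProduct_eq _ _ fun d => ?_
  have := key (-d)
  simp only [neg_dotProduct, neg_le_neg_iff] at this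
  simpa only [dotProduct_comm d] using le_antisymm (key d) this

lemma smul_int {u v : ι → ℝ} (hu : u ∈ interior (Nc K v)) {c : ℝ} (hc : 0 < c) :
    c • u ∈ interior (Nc K v) := by
  have h1 : ∀ᶠ w in 𝓝 (c • u), c⁻¹ • w ∈ Nc K v := ContinuousAt.eventually_mem (by fun_prop)
    (by simpa [hc.ne'] using mem_interior_iff_mem_nhds.1 hu)
  refine mem_interior_iff_mem_nhds.2 (h1.mono fun w hw => ?_)
  simp only [Nc, mem_ofPred_eq, smul_dotProduct, hB.hK_smul (inv_pos.2 hc).le, smul_eq_mul] at hw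
  exact mul_left_cancel₀ (inv_pos.2 hc).ne' hw

lemma neg_int {u v : ι → ℝ} (hu : u ∈ interior (Nc K v)) : -u ∈ interior (Nc K (-v)) := by
  have h1 : ∀ᶠ w in 𝓝 (-u), -w ∈ Nc K v := ContinuousAt.eventually_mem (by fun_prop)
    (by simpa using mem_interior_iff_mem_nhds.1 hu)
  refine mem_interior_iff_mem_nhds.2 (h1.mono fun w hw => ?_)
  simpa [Nc, hB.hK_neg] using hw

lemma loc (hN : NA K) (u d : ι → ℝ) : ∃ δ : ℝ, 0 < δ ∧ gap K u (u + δ • d) ≤ 0 := by
  by_contra hcon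
  push Not at hcon
  have c := hB.continuous_hK
  have step : ∀ δ : ℝ, ∃ δ', 0 < δ → 0 < δ' ∧ δ' < δ ∧ 0 < gap K (u + δ' • d) (u + δ • d) := by
    intro δ
    by_cases hδ : 0 < δ
    swap
    · exact ⟨0, fun h => absurd h hδ⟩
    have h1 : ∀ᶠ s in 𝓝 (0 : ℝ), s < δ ∧ 0 < gap K (u + s • d) (u + δ • d) :=
      (gt_mem_nhds hδ).and (ContinuousAt.eventually_lt continuousAt_const (by unfold gap; fun_prop)
        (by simpa using hcon δ hδ))
    obtain ⟨s, hs, h2⟩ := (eventually_mem_nhdsWithin.and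
      (h1.filter_mono (nhdsWithin_le_nhds (s := Ioi 0)))).exists
    exact ⟨s, fun _ => ⟨hs, h2⟩⟩
  choose f hf using step
  have h0 : ∀ k, 0 < f^[k] 1 := fun k => by
    induction k with
    | zero => simp
    | succ k ih => rw [Function.iterate_succ_apply']; exact (hf _ ih).1
  have h1 : StrictAnti fun k => f^[k] 1 := strictAnti_nat_of_succ_lt fun k => by
    rw [Function.iterate_succ_apply']; exact (hf _ (h0 k)).2.1
  obtain ⟨j, hj⟩ := hN d u (fun j => f^[Fintype.card ι + 1 - j] 1) fun i j hij =>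
    h1 (by have := j.2; have : i.1 < j.1 := hij; omega)
  have e : Fintype.card ι + 1 - j.castSucc = Fintype.card ι + 1 - j.succ + 1 := by
    have := j.2; simp only [Fin.val_castSucc, Fin.val_succ]; omega
  simp only [e, Function.iterate_succ_apply'] at hj
  exact hj.not_gt (hf _ (h0 _)).2.2

lemma int_of_expo (hN : NA K) {u : ι → ℝ} (hu : Expo K u) : ∃ v ∈ K, u ∈ interior (Nc K v) := by
  classical
  obtain ⟨y, hy⟩ := hu
  obtain ⟨v, hv, e⟩ := hB.exists_hK u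
  have h1 : ∀ d, ∀ᶠ s in 𝓝[≥] (0 : ℝ), u + s • d ∈ Nc K v := fun d => by
    obtain ⟨δ, hδ, h⟩ := hB.loc hN u d
    obtain ⟨z, hz, z1, z2⟩ := hB.gap_le_zero.1 h
    rw [(hy z hz z1).trans (hy v hv e).symm] at z2
    filter_upwards [Icc_mem_nhdsGE hδ] with s hs
    have := (hB.convex_Nc hv).add_smul_mem (x := u) (y := δ • d) e z2 (t := s / δ)
      ⟨div_nonneg hs.1 hδ.le, (div_le_one hδ).2 hs.2⟩
    rwa [smul_smul, div_mul_cancel₀ _ hδ.ne'] at this
  have h2 : ∀ d, ∀ᶠ s in 𝓝 (0 : ℝ), u + s • d ∈ Nc K v := fun d => by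
    rw [← nhdsLE_sup_nhdsGE, eventually_sup]
    refine ⟨?_, h1 d⟩
    have : Tendsto (fun s : ℝ => -s) (𝓝[≤] 0) (𝓝[≥] 0) := by
      simpa using tendsto_neg_nhdsLE (a := (0 : ℝ))
    simpa using this.eventually (h1 (-d))
  refine ⟨v, hv, mem_interior_iff_mem_nhds.2 ?_⟩
  have h3 : ∀ᶠ w in 𝓝 u, ∀ i, u + (((Fintype.card ι + 1 : ℝ) * (w i - u i)) •
      (Pi.single i 1 : ι → ℝ)) ∈ Nc K v := eventually_all.2 fun i =>
    (Continuous.tendsto' (f := fun w : ι → ℝ => (Fintype.card ι + 1 : ℝ) * (w i - u i))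
      (by fun_prop) u 0 (by simp)).eventually (h2 (Pi.single i 1))
  refine h3.mono fun w hw => (hB.mem_Nc hv).2 fun x hx => ?_
  have h4 := Finset.sum_le_sum (s := Finset.univ) fun i _ => (hB.mem_Nc hv).1 (hw i) x hx
  have h5 := (hB.mem_Nc hv).1 e x hx
  simp only [add_dotProduct, smul_dotProduct, smul_eq_mul, single_dotProduct, one_mul, mul_assoc,
    Finset.sum_add_distrib, Finset.sum_const, Finset.card_univ, nsmul_eq_mul, ← Finset.mul_sum,
    sub_mul, Finset.sum_sub_distrib] at h4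
  have : (0 : ℝ) < Fintype.card ι + 1 := by positivity
  refine le_of_mul_le_mul_left ?_ this
  simp only [dotProduct] at *
  linarith

lemma dense_int (hN : NA K) : Dense {u | ∃ v ∈ K, u ∈ interior (Nc K v)} :=
  hB.dense_expo.mono fun _ hu => hB.int_of_expo hN hu

lemma card_le (hN : NA K) {P R : ι → ℝ} {S : Finset (ι → ℝ)} (h : Vis K P R S) :
    S.card ≤ Fintype.card ι + 1 := by
  classical
  choose! hK1 t ht using h
  have inj : InjOn t S := fun v hv w hw e =>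
    hB.uniq (ht w hw) (hK1 v hv) (e ▸ interior_subset (ht v hv))
  by_contra hc
  have h1 : Fintype.card ι + 2 ≤ (S.image t).card := by
    rw [Finset.card_image_of_injOn inj]; omega
  obtain ⟨j, hj⟩ := hN R P _ ((S.image t).orderEmbOfCardLe h1).strictMono
  obtain ⟨v, hv, e1⟩ := Finset.mem_image.1 ((S.image t).orderEmbOfCardLe_mem h1 j.castSucc)
  obtain ⟨w, hw, e2⟩ := Finset.mem_image.1 ((S.image t).orderEmbOfCardLe_mem h1 j.succ)
  have hlt := ((S.image t).orderEmbOfCardLe h1).strictMono j.castSucc_lt_succ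
  rw [← e1, ← e2] at hj hlt
  obtain ⟨y, hy, y1, y2⟩ := hB.gap_le_zero.1 hj
  rw [← hB.uniq (ht v hv) hy y1, ← hB.uniq (ht w hw) hy y2] at hlt
  exact lt_irrefl _ hlt

lemma far {P R z : ι → ℝ} (h : R ∈ interior (Nc K z)) : ∃ t : ℝ, P + t • R ∈ interior (Nc K z) := by
  have h1 : ∀ᶠ s in 𝓝 (0 : ℝ), s • P + R ∈ interior (Nc K z) :=
    ContinuousAt.eventually_mem (by fun_prop) (isOpen_interior.mem_nhds (by simpa using h))
  obtain ⟨s, hs, h2⟩ := (eventually_mem_nhdsWithin.and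
    (h1.filter_mono (nhdsWithin_le_nhds (s := Ioi 0)))).exists
  have hs' : 0 < s := hs
  refine ⟨s⁻¹, ?_⟩
  have := hB.smul_int h2 (inv_pos.2 hs')
  rwa [smul_add, smul_smul, inv_mul_cancel₀ hs'.ne', one_smul] at this

omit hB in
lemma vis_nhds {P R : ι → ℝ} {S : Set (ι → ℝ)} (hS : S.Finite) (h : Vis K P R S) :
    ∀ᶠ z in 𝓝 (P, R), Vis K z.1 z.2 S := by
  refine (hS.eventually_all.2 fun v hv => ?_)
  obtain ⟨h1, t, ht⟩ := h v hv
  have : ∀ᶠ z in 𝓝 (P, R), z.1 + t • z.2 ∈ interior (Nc K v) :=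
    ContinuousAt.eventually_mem (by fun_prop) (isOpen_interior.mem_nhds ht)
  exact this.mono fun z hz => ⟨h1, t, hz⟩

lemma card_le' (hN : NA K) {P R : ι → ℝ} {S : Finset (ι → ℝ)} (h : Vis K P R S)
    (hA : ∀ y ∈ S, -y ∉ S) : S.card ≤ Fintype.card ι := by
  classical
  have h1 : ∀ᶠ R' in 𝓝 R, Vis K P R' S :=
    Tendsto.eventually (Continuous.tendsto' (by fun_prop) _ _ rfl) (vis_nhds S.finite_toSet h)
  obtain ⟨R', ⟨z, hz, hz1⟩, h2⟩ := (hB.dense_int hN).inter_nhds_nonempty h1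
  have key : ∀ y ∉ S, y ∈ K → (∃ t : ℝ, P + t • R' ∈ interior (Nc K y)) →
      S.card ≤ Fintype.card ι := fun y hy h3 h4 => by
    have := hB.card_le hN (P := P) (R := R') (S := insert y S) (by
      rw [Finset.coe_insert]; exact forall_mem_insert.2 ⟨⟨h3, h4⟩, h2⟩)
    rw [Finset.card_insert_of_notMem hy] at this
    omega
  by_cases hzS : z ∈ S
  · obtain ⟨t, ht⟩ := hB.far (P := P) (hB.neg_int hz1)
    exact key (-z) (hA z hzS) (hB.sym z hz) ⟨-t, by simpa using ht⟩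
  · exact key z hzS hz (hB.far hz1)

lemma extend (hN : NA K) {P R ξ z0 : ι → ℝ} {S : Finset (ι → ℝ)} (h : Vis K P R S) {κ : ℝ}
    (hκ : 0 ≤ κ) (hξ : ∀ y ∈ S, ξ ⬝ᵥ y = κ) (hz0 : z0 ∈ K) (hz1 : κ < ξ ⬝ᵥ z0) :
    ∃ P' R' z, z ∉ S ∧ -z ∉ S ∧ Vis K P' R' (insert z S) := by
  classical
  rcases S.eq_empty_or_nonempty with rfl | hne
  · obtain ⟨u, v, hv, hu⟩ := (hB.dense_int hN).nonempty
    exact ⟨u, 0, v, by simp, by simp, by simpa [Vis] using ⟨hv, hu⟩⟩
  choose! hK1 t ht using h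
  have hs : ∀ y ∈ S, ∃ s : ℝ, 0 < s ∧ P + t y • R + s • ξ ∈ Nc K y ∧
      ∀ s', P + t y • R + s' • ξ ∈ Nc K y → s' ≤ s := fun y hy => by
    have b : BddAbove {s : ℝ | P + t y • R + s • ξ ∈ Nc K y} :=
      ⟨((P + t y • R) ⬝ᵥ y - (P + t y • R) ⬝ᵥ z0) / (ξ ⬝ᵥ z0 - κ), fun s hs => by
        have := (hB.mem_Nc (hK1 y hy)).1 hs z0 hz0
        rw [add_dotProduct _ (s • ξ), add_dotProduct _ (s • ξ), smul_dotProduct, smul_dotProduct,
          hξ y hy, smul_eq_mul, smul_eq_mul] at this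
        rw [le_div_iff₀ (sub_pos.2 hz1)]
        linarith⟩
    have h1 : ∀ᶠ s in 𝓝 (0 : ℝ), P + t y • R + s • ξ ∈ Nc K y := ContinuousAt.eventually_mem
      (by fun_prop) (by simpa using mem_interior_iff_mem_nhds.1 (ht y hy))
    obtain ⟨s, hs, h2⟩ := (eventually_mem_nhdsWithin.and
      (h1.filter_mono (nhdsWithin_le_nhds (s := Ioi 0)))).exists
    exact ⟨_, lt_of_lt_of_le hs (le_csSup b h2), IsClosed.csSup_mem
      ((hB.isClosed_Nc y).preimage (f := fun s : ℝ => P + t y • R + s • ξ) (by fun_prop)) ⟨s, h2⟩ b,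
      fun s' hs' => le_csSup b hs'⟩
  choose! s s0 s1 s2 using hs
  have hint : ∀ y ∈ S, ∀ s', 0 ≤ s' → s' < s y → P + t y • R + s' • ξ ∈ interior (Nc K y) := by
    intro y hy s' h1 h2
    have h3 := s0 y hy
    have := (hB.convex_Nc (hK1 y hy)).combo_interior_self_mem_interior (ht y hy) (s1 y hy)
      (a := 1 - s' / s y) (b := s' / s y) (by rw [sub_pos, div_lt_one h3]; exact h2)
      (by positivity) (by ring)
    convert this using 1
    ext i; simp; field_simp; ring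
  obtain ⟨y0, hy0, m0⟩ := S.exists_min_image s hne
  obtain ⟨y, hy, m1⟩ := (S.filter fun y => s y = s y0).exists_max_image t ⟨y0, by simpa⟩
  obtain ⟨hy, ey⟩ := Finset.mem_filter.1 hy
  have sp := s0 y hy
  have e1 : ∀ᶠ γ in 𝓝 (0 : ℝ), P + (t y - γ) • R ∈ Nc K y ∧ P + (t y + γ) • R ∈ Nc K y :=
    (ContinuousAt.eventually_mem (by fun_prop)
      (by simpa using mem_interior_iff_mem_nhds.1 (ht y hy))).and
    (ContinuousAt.eventually_mem (by fun_prop)
      (by simpa using mem_interior_iff_mem_nhds.1 (ht y hy)))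
  obtain ⟨γ, hγ, g1, g2⟩ := (eventually_mem_nhdsWithin.and
    (e1.filter_mono (nhdsWithin_le_nhds (s := Ioi 0)))).exists
  have hγ' : 0 < γ := hγ
  have e2 : ∀ᶠ η in 𝓝[>] (0 : ℝ), ∀ x ∈ S, s y / 2 ≤ s y + η * (t x - t y) ∧
      s y + η * (t x - t y) ≤ s x := by
    refine (S.eventually_all).2 fun x hx => Eventually.and (Eventually.filter_mono
      nhdsWithin_le_nhds ((ContinuousAt.eventually_lt continuousAt_const (by fun_prop)
        (by simpa using sp)).mono fun _ h => h.le)) ?_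
    rcases (m0 x hx).eq_or_lt with h | h
    · filter_upwards [self_mem_nhdsWithin] with η hη
      have := mul_nonpos_of_nonneg_of_nonpos (le_of_lt hη)
        (sub_nonpos.2 (m1 x (Finset.mem_filter.2 ⟨hx, h.symm⟩)))
      linarith
    · exact Eventually.filter_mono nhdsWithin_le_nhds ((ContinuousAt.eventually_lt (by fun_prop)
        continuousAt_const (by simpa [ey] using h)).mono fun _ h => h.le)
  obtain ⟨η, hη, hη1⟩ := (eventually_mem_nhdsWithin.and e2).exists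
  have hη' : 0 < η := hη
  obtain ⟨η', t', a1, a2, a3, a4⟩ : ∃ η' t' : ℝ, P + t' • R ∈ Nc K y ∧ 0 ≤ η' * (t' - t y) ∧
      P + t' • R + (s y + η' * (t' - t y)) • ξ ∉ Nc K y ∧ ∀ x ∈ S,
      s y / 2 ≤ s y + η' * (t x - t y) ∧ s y + η' * (t x - t y) ≤ s x := by
    by_cases h1 : P + (t y - γ) • R + s y • ξ ∈ Nc K y
    · refine ⟨η, t y + γ, g2, by simp only [add_sub_cancel_left]; positivity, fun h2 => ?_, hη1⟩
      have := hB.convex_Nc (hK1 y hy) h1 h2 (a := 1 / 2) (b := 1 / 2) (by norm_num) (by norm_num)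
        (by norm_num)
      have h3 := s2 y hy (s y + η * γ / 2) (by convert this using 1; ext i; simp; ring)
      nlinarith [mul_pos hη' hγ']
    · exact ⟨0, t y - γ, g1, by simp, by simpa using h1, fun x hx => by
        simp only [zero_mul, add_zero]; exact ⟨by linarith, ey ▸ m0 x hx⟩⟩
  have e3 : ∀ᶠ c in 𝓝 (0 : ℝ), c < s y / 2 ∧
      P + t' • R + (s y - c + η' * (t' - t y)) • ξ ∈ (Nc K y)ᶜ :=
    (gt_mem_nhds (half_pos sp)).and (ContinuousAt.eventually_mem (by fun_prop)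
      ((hB.isClosed_Nc y).isOpen_compl.mem_nhds (by simpa using a3)))
  obtain ⟨c, hc, c1, c2⟩ := (eventually_mem_nhdsWithin.and
    (e3.filter_mono (nhdsWithin_le_nhds (s := Ioi 0)))).exists
  have hc' : 0 < c := hc
  set a := P + t' • R + (s y - c + η' * (t' - t y)) • ξ with ha
  have hout : ∀ z ∈ K, ξ ⬝ᵥ z ≤ κ → a ∈ (Nc K z)ᶜ := fun z hz h1 h2 => c2 (by
    refine (hB.mem_Nc (hK1 y hy)).2 fun x hx => ((hB.mem_Nc hz).1 h2 x hx).trans ?_
    have := (hB.mem_Nc (hK1 y hy)).1 a1 z hz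
    rw [ha, add_dotProduct _ (_ • ξ), add_dotProduct _ (_ • ξ), smul_dotProduct, smul_dotProduct,
      hξ y hy]
    exact add_le_add this (mul_le_mul_of_nonneg_left h1 (by linarith)))
  have v1 : Vis K (a - t' • (R + η' • ξ)) (R + η' • ξ) S := fun x hx => ⟨hK1 x hx, t x, by
    convert hint x hx (s y - c + η' * (t x - t y)) (by linarith [a4 x hx]) (by linarith [a4 x hx])
      using 1
    ext i; simp [ha]; ring⟩
  have e4 : ∀ᶠ w in 𝓝 a, Vis K (w - t' • (R + η' • ξ)) (R + η' • ξ) S ∧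
      ∀ x ∈ S, w ∈ (Nc K x)ᶜ ∧ w ∈ (Nc K (-x))ᶜ :=
    (Tendsto.eventually (Continuous.tendsto' (f := fun w => (w - t' • (R + η' • ξ), R + η' • ξ))
      (by fun_prop) _ _ rfl) (vis_nhds S.finite_toSet v1)).and (S.eventually_all.2 fun x hx =>
      Eventually.and ((hB.isClosed_Nc _).isOpen_compl.mem_nhds (hout x (hK1 x hx) (hξ x hx).le))
        ((hB.isClosed_Nc _).isOpen_compl.mem_nhds (hout _ (hB.sym x (hK1 x hx))
          (by rw [dotProduct_neg, hξ x hx]; linarith))))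
  obtain ⟨w, ⟨z, hz, hw⟩, w1, w2⟩ := (hB.dense_int hN).inter_nhds_nonempty e4
  exact ⟨_, _, z, fun h => (w2 z h).1 (interior_subset hw),
    fun h => (w2 _ h).2 (by simpa using interior_subset hw),
    forall_mem_insert.2 ⟨⟨hz, t', by simpa using hw⟩, w1⟩⟩

theorem exists_facet (hN : NA K) {P R : ι → ℝ} {T : Finset (ι → ℝ)} (h : Vis K P R T)
    (hA : ∀ y ∈ T, -y ∉ T) : ∃ w ∈ pol K, (∀ y ∈ T, w ⬝ᵥ y = 1) ∧ ∃ S : Set (ι → ℝ),
      (∀ y ∈ S, (y ∈ K ∧ (interior (Nc K y)).Nonempty) ∧ w ⬝ᵥ y = 1) ∧ Submodule.span ℝ S = ⊤ := by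
  classical
  obtain ⟨m, hm⟩ : ∃ m, Fintype.card ι - T.card = m := ⟨_, rfl⟩
  induction m using Nat.strong_induction_on generalizing P R T with
  | _ m ih =>
  by_cases hext : ∃ ξ κ, 0 ≤ κ ∧ (∀ y ∈ T, ξ ⬝ᵥ y = κ) ∧ ∃ z0 ∈ K, κ < ξ ⬝ᵥ z0
  · obtain ⟨ξ, κ, h1, h2, z0, h3, h4⟩ := hext
    obtain ⟨P', R', z, z1, z2, z3⟩ := hB.extend hN h h1 h2 h3 h4
    rw [← Finset.coe_insert] at z3
    have hA' : ∀ y ∈ insert z T, -y ∉ insert z T := by
      simp only [Finset.mem_insert, forall_eq_or_imp, not_or]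
      refine ⟨⟨fun e => ?_, z2⟩, fun y hy => ⟨fun e => z2 (by rw [← e, neg_neg]; exact hy), hA y hy⟩⟩
      obtain ⟨hz, t, ht⟩ := z3 z (by simp)
      have z0' : z = 0 := by ext i; have := congrFun e i; simp at this; simp; linarith
      have hu : P' + t • R' = 0 := hB.hK_eq_zero (by
        have := interior_subset ht; rw [z0'] at this; simpa [Nc] using this.symm)
      rw [hu] at ht
      have e1 := hB.uniq ht h3 (by simp [Nc, hB.hK_zero])
      rw [e1, z0'] at h4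
      simp at h4; linarith
    have hc := hB.card_le' hN z3 hA'
    rw [Finset.card_insert_of_notMem z1] at hc
    obtain ⟨w, w1, w2, w3⟩ := ih _ (by rw [← hm, Finset.card_insert_of_notMem z1]; omega) z3 hA' rfl
    exact ⟨w, w1, fun y hy => w2 y (Finset.mem_insert_of_mem hy), w3⟩
  push Not at hext
  have hsp : Submodule.span ℝ (T : Set (ι → ℝ)) = ⊤ := by
    by_contra hne
    obtain ⟨y, hy⟩ : ∃ y, y ∉ Submodule.span ℝ (T : Set (ι → ℝ)) := by
      simpa [Submodule.eq_top_iff'] using hne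
    obtain ⟨d, d1, d2⟩ := exists_ann hy
    have : d = 0 := hB.hK_eq_zero (le_antisymm (hB.hK_le (hext d 0 le_rfl d2)) (hB.hK_nonneg d))
    simp [this] at d1
  have hli : LinearIndependent ℝ fun y : T => (y : ι → ℝ) :=
    linearIndependent_of_top_le_span_of_card_le_finrank (by simp [hsp])
      (by simpa using hB.card_le' hN h hA)
  obtain ⟨w, hw⟩ := lin_eq_dot ((Module.Basis.mk hli (by simp [hsp])).constr ℝ fun _ => (1 : ℝ))
  have w1 : ∀ y ∈ T, w ⬝ᵥ y = 1 := fun y hy => by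
    rw [← hw]
    have := (Module.Basis.mk hli (by simp [hsp])).constr_basis ℝ (fun _ => (1 : ℝ)) ⟨y, hy⟩
    rwa [Module.Basis.mk_apply] at this
  exact ⟨w, hext w 1 zero_le_one w1, w1, T, fun y hy =>
    ⟨⟨(h y hy).1, (h y hy).2.elim fun _ ht => ⟨_, ht⟩⟩, w1 y hy⟩, hsp⟩

end Body

end Vale.Agent.P248
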