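import Vale.Agent.P248.Geo1

/-! The extremal body is a polytope whose vertices and facets pair to `±1`. -/

open Set Filter Topology Matrix Metric

namespace Vale.Agent.P248

attribute [local irreducible] hK

variable {ι : Type*} [Fintype ι]

/-- vertices -/
def Vx (K : Set (ι → ℝ)) : Set (ι → ℝ) := {v | v ∈ K ∧ (interior (Nc K v)).Nonempty}

/-- facet normals -/
def Wx (K : Set (ι → ℝ)) : Set (ι → ℝ) := {w | ∀ v ∈ Vx K, w ⬝ᵥ v = 1 ∨ w ⬝ᵥ v = -1}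

lemma dense_ne (d : ι → ℝ) (hd : d ≠ 0) (c : ℝ) : Dense {R : ι → ℝ | R ⬝ᵥ d ≠ c} := by
  intro R
  have h0 : d ⬝ᵥ d ≠ 0 := fun h => hd (dotProduct_self_eq_zero.1 h)
  by_cases h : R ⬝ᵥ d = c
  · refine mem_closure_of_tendsto (b := 𝓝[>] (0 : ℝ)) (f := fun s => R + s • d)
      ((Continuous.tendsto' (by fun_prop) 0 R (by simp)).mono_left nhdsWithin_le_nhds) ?_
    filter_upwards [self_mem_nhdsWithin] with s hs
    simpa [h, h0] using ne_of_gt hs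
  · exact subset_closure h

lemma dense_generic {J : Type*} {s : Set J} (hs : s.Finite) (d : J → ι → ℝ) (c : J → ℝ)
    (hd : ∀ j ∈ s, d j ≠ 0) : Dense {R : ι → ℝ | ∀ j ∈ s, R ⬝ᵥ d j ≠ c j} := by
  have := dense_biInter_of_isOpen (f := fun j => {R : ι → ℝ | R ⬝ᵥ d j ≠ c j})
    (fun j _ => isOpen_ne_fun (by fun_prop) continuous_const) hs.countable fun j hj => dense_ne _ (hd j hj) _
  exact this.mono fun R hR j hj => mem_iInter₂.1 hR j hj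

lemma lp {G : Set (ι → ℝ)} (hG : G.Finite) (c : (ι → ℝ) → ℝ) (x ξ0 : ι → ℝ)
    (h0 : ∀ y ∈ G, ξ0 ⬝ᵥ y ≤ c y) (hx : ∀ d : ι → ℝ, (∃ y ∈ G, d ⬝ᵥ y ≠ 0) → ∃ e : ℝ,
      0 ≤ e * (d ⬝ᵥ x) ∧ ∃ y ∈ G, 0 < e * (d ⬝ᵥ y)) :
    ∃ ξ, (∀ y ∈ G, ξ ⬝ᵥ y ≤ c y) ∧ ξ0 ⬝ᵥ x ≤ ξ ⬝ᵥ x ∧
      G ⊆ Submodule.span ℝ {y ∈ G | ξ ⬝ᵥ y = c y} := by
  obtain ⟨m, hm⟩ : ∃ m, {y ∈ G | ξ0 ⬝ᵥ y ≠ c y}.ncard = m := ⟨_, rfl⟩
  induction m using Nat.strong_induction_on generalizing ξ0 with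
  | _ m ih =>
  by_cases h : G ⊆ Submodule.span ℝ {y ∈ G | ξ0 ⬝ᵥ y = c y}
  · exact ⟨ξ0, h0, le_rfl, h⟩
  obtain ⟨y0, hy0, hy1⟩ := not_subset.1 h
  obtain ⟨d, d1, d2⟩ := exists_ann hy1
  obtain ⟨e, e1, e2⟩ := hx d ⟨y0, hy0, d1⟩
  obtain ⟨y, ⟨hy, y1⟩, y2⟩ := exists_min_image {y ∈ G | 0 < e * (d ⬝ᵥ y)}
    (fun y => (c y - ξ0 ⬝ᵥ y) / (e * (d ⬝ᵥ y))) (hG.subset (sep_subset _ _)) e2
  set l := (c y - ξ0 ⬝ᵥ y) / (e * (d ⬝ᵥ y)) with hl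
  have l0 : 0 ≤ l := div_nonneg (sub_nonneg.2 (h0 y hy)) y1.le
  have ev : ∀ z, (ξ0 + (l * e) • d) ⬝ᵥ z = ξ0 ⬝ᵥ z + l * (e * (d ⬝ᵥ z)) := fun z => by
    rw [add_dotProduct, smul_dotProduct, smul_eq_mul, mul_assoc]
  obtain ⟨ξ, h1, h2, h3⟩ := ih _ (by
    rw [← hm]
    refine ncard_lt_ncard ⟨fun z hz => ⟨hz.1, fun e => hz.2 ?_⟩, fun hs => ?_⟩
      (hG.subset (sep_subset _ _))
    · rw [ev, d2 z ⟨hz.1, e⟩, e]; ring
    · refine (hs ⟨hy, fun e => y1.ne' (by rw [d2 y ⟨hy, e⟩, mul_zero])⟩).2 ?_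
      rw [ev, hl, div_mul_cancel₀ _ y1.ne']; ring) (ξ0 + (l * e) • d) (fun z hz => by
    rw [ev]
    by_cases h : 0 < e * (d ⬝ᵥ z)
    · have := y2 z ⟨hz, h⟩
      rw [le_div_iff₀ h] at this
      linarith
    · linarith [h0 z hz, mul_nonpos_of_nonneg_of_nonpos l0 (not_lt.1 h)]) rfl
  refine ⟨ξ, h1, le_trans ?_ h2, h3⟩
  rw [ev]; linarith [mul_nonneg l0 e1]

namespace Body

variable {K : Set (ι → ℝ)} (hB : Body K)
include hB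

lemma V_neg {v : ι → ℝ} (h : v ∈ Vx K) : -v ∈ Vx K :=
  ⟨hB.sym v h.1, h.2.elim fun _ hu => ⟨_, hB.neg_int hu⟩⟩

lemma V_ne_neg [Nonempty ι] {v : ι → ℝ} (h : v ∈ Vx K) : -v ≠ v := fun e => by
  obtain ⟨u, ⟨hu, h0⟩⟩ := (dense_compl_singleton (0 : ι → ℝ)).inter_open_nonempty _
    isOpen_interior h.2
  have z0 : v = 0 := by ext i; have := congrFun e i; simp at this; simp; linarith
  have := interior_subset hu
  rw [z0] at this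
  exact h0 (hB.hK_eq_zero (by simpa [Nc] using this.symm))

variable (hN : NA K)
include hN

lemma pair0 [Nonempty ι] {a b : ι → ℝ} (ha : a ∈ Vx K) (hb : b ∈ Vx K) (h : a ≠ -b) :
    ∃ w ∈ pol K, (w ⬝ᵥ a = 1 ∧ w ⬝ᵥ b = 1) ∧ ∃ S : Set (ι → ℝ),
      (∀ y ∈ S, y ∈ Vx K ∧ w ⬝ᵥ y = 1) ∧ Submodule.span ℝ S = ⊤ := by
  classical
  obtain ⟨u, hu⟩ := ha.2
  obtain ⟨u', hu'⟩ := hb.2
  have := hB.exists_facet hN (P := u) (R := u' - u) (T := {a, b}) (by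
    simp only [Vis, Finset.coe_insert, Finset.coe_singleton, mem_insert_iff, mem_singleton_iff,
      forall_eq_or_imp, forall_eq]
    exact ⟨⟨ha.1, 0, by simpa⟩, hb.1, 1, by simpa⟩) (by
    simp only [Finset.mem_insert, Finset.mem_singleton, forall_eq_or_imp, forall_eq, not_or]
    exact ⟨⟨hB.V_ne_neg ha, fun e => h (by rw [← e, neg_neg])⟩, h.symm, hB.V_ne_neg hb⟩)
  simp only [Finset.mem_insert, Finset.mem_singleton, forall_eq_or_imp, forall_eq] at this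
  exact this

lemma V_finite [Nonempty ι] : (Vx K).Finite := by
  obtain ⟨δ, hδ, hl⟩ := hB.exists_lower
  have hn : (0 : ℝ) < Fintype.card ι := Nat.cast_pos.2 Fintype.card_pos
  obtain ⟨T, -, hT, hc⟩ := hB.cpt.finite_cover_balls (e := δ / Fintype.card ι) (by positivity)
  choose! f f1 f2 using fun x (hx : x ∈ K) => mem_iUnion₂.1 (hc hx)
  refine Finite.of_finite_image (f := f) (hT.subset (forall_mem_image.2 fun x hx => f1 x hx.1))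
    fun a ha b hb e => ?_
  by_contra hne
  obtain ⟨w, w1, ⟨w2, w3⟩, -⟩ := hB.pair0 hN ha (hB.V_neg hb) (by simpa using hne)
  have h1 := (le_abs_self _).trans (abs_dot_le w (a - b))
  have h2 : δ * ‖w‖ ≤ 1 := (hl w).trans (hB.hK_le w1)
  have h3 : ‖a - b‖ < 2 * (δ / Fintype.card ι) := by
    rw [← dist_eq_norm]
    have := mem_ball.1 (f2 a ha.1)
    have := mem_ball.1 (f2 b hb.1)
    rw [← e] at this
    linarith [dist_triangle_right a b (f a)]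
  rw [← mul_div_assoc, lt_div_iff₀ hn] at h3
  rw [sub_eq_add_neg, dotProduct_add, w2, w3, ← sub_eq_add_neg] at h1
  nlinarith [norm_nonneg w, norm_nonneg (a - b), mul_le_mul_of_nonneg_left h3.le (norm_nonneg w),
    mul_pos hδ hδ, mul_lt_mul_of_pos_left h3 hδ, mul_le_mul_of_nonneg_left h1 hδ.le,
    mul_le_mul_of_nonneg_left h2 (mul_nonneg (norm_nonneg (a - b)) hn.le)]

variable [Nonempty ι]

lemma V_max (u : ι → ℝ) : ∃ v ∈ Vx K, u ∈ Nc K v := by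
  have h1 : IsClosed (⋃ v ∈ Vx K, Nc K v) :=
    (hB.V_finite hN).isClosed_biUnion fun v _ => hB.isClosed_Nc v
  have h2 : Dense (⋃ v ∈ Vx K, Nc K v) := by
    refine (hB.dense_int hN).mono ?_
    rintro u ⟨v, hv, h⟩
    exact mem_biUnion (show v ∈ Vx K from ⟨hv, u, h⟩) (interior_subset h)
  simpa using h1.closure_subset (h2 u)

lemma hK_le_V {u : ι → ℝ} {c : ℝ} (h : ∀ v ∈ Vx K, u ⬝ᵥ v ≤ c) : hK K u ≤ c := by
  obtain ⟨v, hv, e⟩ := hB.V_max hN u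
  exact (Eq.symm e).trans_le (h v hv)

lemma V_sep {d : ι → ℝ} (h : ∀ v ∈ Vx K, d ⬝ᵥ v = 0) : d = 0 :=
  hB.hK_eq_zero (le_antisymm (hB.hK_le_V hN fun v hv => (h v hv).le) (hB.hK_nonneg d))

lemma V_span : Submodule.span ℝ (Vx K) = ⊤ := by
  by_contra hne
  obtain ⟨y, hy⟩ : ∃ y, y ∉ Submodule.span ℝ (Vx K) := by simpa [Submodule.eq_top_iff'] using hne
  obtain ⟨d, d1, d2⟩ := exists_ann hy
  simp [hB.V_sep hN d2] at d1

lemma usc (u : ι → ℝ) : ∀ᶠ w in 𝓝 u, ∀ v ∈ Vx K, w ∈ Nc K v → u ∈ Nc K v :=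
  (hB.V_finite hN).eventually_all.2 fun v _ => by
    by_cases h : u ∈ Nc K v
    · exact Eventually.of_forall fun _ _ => h
    · exact Eventually.mono ((hB.isClosed_Nc v).isOpen_compl.mem_nhds h) fun w hw h' => absurd h' hw

lemma int_of_uniq {u v : ι → ℝ} (h : ∀ x ∈ Vx K, u ∈ Nc K x → x = v) : u ∈ interior (Nc K v) :=
  mem_interior_iff_mem_nhds.2 ((hB.usc hN u).mono fun w hw => by
    obtain ⟨x, hx, e⟩ := hB.V_max hN w
    exact h x hx (hw x hx e) ▸ e)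

lemma int_of_inj {u : ι → ℝ} (h : ∀ x ∈ Vx K, ∀ y ∈ Vx K, x ≠ y → u ⬝ᵥ (x - y) ≠ 0) :
    ∃ v ∈ Vx K, u ∈ interior (Nc K v) := by
  obtain ⟨v, hv, e⟩ := hB.V_max hN u
  refine ⟨v, hv, hB.int_of_uniq hN fun x hx e' => by_contra fun hne => h x hx v hv hne ?_⟩
  rw [dotProduct_sub, e, e', sub_self]

lemma vis0 {u R : ι → ℝ} (hu : u ≠ 0) (hR : ∀ x ∈ Vx K, ∀ y ∈ Vx K, x ≠ y → R ⬝ᵥ (x - y) ≠ 0)
    {T : Finset (ι → ℝ)} (hT : Vis K u R T) (hA : ∀ y ∈ T, -y ∉ T ∧ u ∉ Nc K (-y)) :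
    ∃ w ∈ pol K, (∀ y ∈ T, w ⬝ᵥ y = 1) ∧ (∀ y ∈ Vx K, u ∈ Nc K y → w ⬝ᵥ y = 1) ∧
      ∃ S : Set (ι → ℝ), (∀ y ∈ S, y ∈ Vx K ∧ w ⬝ᵥ y = 1) ∧ Submodule.span ℝ S = ⊤ := by
  classical
  have hp := hB.hK_pos hu
  have hG : {y ∈ Vx K | u ∈ Nc K y}.Finite := (hB.V_finite hN).subset (sep_subset _ _)
  obtain ⟨C, hC⟩ := (hG.image fun y => (R ⬝ᵥ y) ^ 2 / hK K u).bddAbove
  obtain ⟨ζ, h1, -, h2⟩ := lp hG (fun y => -(R ⬝ᵥ y) ^ 2) 0 (-C • u) (fun y hy => by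
    have := hC (mem_image_of_mem _ hy)
    rw [div_le_iff₀ hp] at this
    rw [smul_dotProduct, hy.2, smul_eq_mul]; linarith) fun d ⟨y, hy, h⟩ =>
      ⟨d ⬝ᵥ y, by simp, y, hy, mul_self_pos.2 h⟩
  set T1 := {y ∈ {y ∈ Vx K | u ∈ Nc K y} | ζ ⬝ᵥ y = -(R ⬝ᵥ y) ^ 2} with hT1
  have f1 : T1.Finite := hG.subset (sep_subset _ _)
  have e1 : ∀ᶠ δ in 𝓝 (0 : ℝ), Vis K (u + δ • ζ) R T ∧ ∀ y ∈ T1, ∀ v ∈ Vx K,
      u + δ • ζ + (δ * (2 * (R ⬝ᵥ y))) • R ∈ Nc K v → u ∈ Nc K v :=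
    ((Continuous.tendsto' (f := fun δ : ℝ => (u + δ • ζ, R)) (by fun_prop) 0 (u, R)
      (by simp)).eventually (vis_nhds T.finite_toSet hT)).and (f1.eventually_all.2 fun y _ =>
      (Continuous.tendsto' (f := fun δ : ℝ => u + δ • ζ + (δ * (2 * (R ⬝ᵥ y))) • R) (by fun_prop)
        0 u (by simp)).eventually (hB.usc hN u))
  obtain ⟨δ, hδ, v1, v2⟩ := (eventually_mem_nhdsWithin.and
    (e1.filter_mono (nhdsWithin_le_nhds (s := Ioi 0)))).exists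
  have hδ' : 0 < δ := hδ
  obtain ⟨w, w1, w2, w3⟩ := hB.exists_facet hN (P := u + δ • ζ) (R := R) (T := T ∪ f1.toFinset)
    (fun y hy => by
      rcases Finset.mem_union.1 hy with hy | hy
      · exact v1 y hy
      rw [Finite.mem_toFinset] at hy
      refine ⟨hy.1.1.1, δ * (2 * (R ⬝ᵥ y)), hB.int_of_uniq hN fun x hx e => by_contra fun hne => ?_⟩
      have a1 := v2 y hy x hx e
      have a2 := (hB.mem_Nc hx.1).1 e y hy.1.1.1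
      have a3 := h1 x ⟨hx, a1⟩
      have a4 := hR x hx y hy.1.1 hne
      rw [dotProduct_sub] at a4
      have a5 : u ⬝ᵥ x = u ⬝ᵥ y := a1.trans (Eq.symm hy.1.2)
      simp only [add_dotProduct, smul_dotProduct, smul_eq_mul, a5, hy.2] at a2
      nlinarith [mul_pos hδ' (sq_pos_of_ne_zero a4), mul_le_mul_of_nonneg_left a3 hδ'.le])
    (fun y hy h => by
      simp only [Finset.mem_union, Finite.mem_toFinset] at hy h
      rcases hy with hy | hy <;> rcases h with h | h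
      · exact (hA y hy).1 h
      · exact (hA y hy).2 h.1.2
      · exact (hA _ h).2 (by simpa using hy.1.2)
      · have a1 : u ⬝ᵥ y = hK K u := hy.1.2
        have a2 : u ⬝ᵥ -y = hK K u := h.1.2
        rw [dotProduct_neg] at a2; linarith)
  refine ⟨w, w1, fun y hy => w2 y (Finset.mem_union_left _ hy), fun y hy e => ?_, w3⟩
  have := dot_eq_zero_of_span (d := hK K u • w - u) (fun x hx => by
    rw [sub_dotProduct, smul_dotProduct, w2 x (Finset.mem_union_right _ (f1.mem_toFinset.2 hx)),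
      hx.1.2, smul_eq_mul, mul_one, sub_self]) (h2 ⟨hy, e⟩)
  rw [sub_dotProduct, smul_dotProduct, e, smul_eq_mul, sub_eq_zero] at this
  exact mul_left_cancel₀ hp.ne' (this.trans (mul_one _).symm)

lemma dense_inj : Dense {R : ι → ℝ | ∀ x ∈ Vx K, ∀ y ∈ Vx K, x ≠ y → R ⬝ᵥ (x - y) ≠ 0} := by
  refine (dense_generic (s := {z ∈ Vx K ×ˢ Vx K | z.1 ≠ z.2}) (((hB.V_finite hN).prod
    (hB.V_finite hN)).subset (sep_subset _ _)) (fun z => z.1 - z.2) (fun _ => 0)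
    fun _ hz => sub_ne_zero.2 hz.2).mono ?_
  exact fun _ h x hx y hy hne => h (x, y) ⟨⟨hx, hy⟩, hne⟩

lemma CL {w : ι → ℝ} (hw : w ∈ pol K) {S : Set (ι → ℝ)} (hS : ∀ y ∈ S, y ∈ Vx K ∧ w ⬝ᵥ y = 1)
    (hsp : Submodule.span ℝ S = ⊤) : w ∈ Wx K := by
  intro v hv
  have h1 : hK K w = 1 := by
    rcases S.eq_empty_or_nonempty with rfl | ⟨y, hy⟩
    · simp at hsp
    · exact le_antisymm (hB.hK_le hw) ((hS y hy).2 ▸ hB.le_hK w (hS y hy).1.1)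
  by_cases h : w ⬝ᵥ v = -1
  · exact Or.inr h
  obtain ⟨R, r1, r2⟩ := (hB.dense_inj hN).inter_open_nonempty _ isOpen_interior hv.2
  obtain ⟨w', -, a1, a2, -⟩ := hB.vis0 hN (u := w) (fun e => by simp [e, hB.hK_zero] at h1) r2
    (T := {v}) (by simpa [Vis] using ⟨hv.1, hB.far r1⟩) (by
      simpa [Nc, h1, neg_eq_iff_eq_neg (a := w ⬝ᵥ v)] using ⟨hB.V_ne_neg hv, h⟩)
  have := dot_eq_zero_of_span (d := w - w') (y := v) (fun x hx => by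
    rw [sub_dotProduct, (hS x hx).2, a2 x (hS x hx).1 ((hS x hx).2.trans h1.symm), sub_self])
    (hsp ▸ Submodule.mem_top)
  rw [sub_dotProduct, a1 v (by simp), sub_eq_zero] at this
  exact Or.inl this

lemma pair {a b : ι → ℝ} (ha : a ∈ Vx K) (hb : b ∈ Vx K) (h : a ≠ -b) :
    ∃ w ∈ Wx K, w ⬝ᵥ a = 1 ∧ w ⬝ᵥ b = 1 := by
  obtain ⟨w, h1, h2, S, h3, h4⟩ := hB.pair0 hN ha hb h
  exact ⟨w, hB.CL hN h1 h3 h4, h2⟩

lemma W_pol {w : ι → ℝ} (h : w ∈ Wx K) : w ∈ pol K := by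
  rw [hB.pol_eq]
  exact hB.hK_le_V hN fun v hv => by rcases h v hv with e | e <;> rw [e]; norm_num

lemma W_finite : (Wx K).Finite := by
  refine Finite.of_finite_image (f := fun w => {v ∈ Vx K | w ⬝ᵥ v = 1})
    ((hB.V_finite hN).finite_subsets.subset (forall_mem_image.2 fun _ _ => sep_subset _ _))
    fun a ha b hb e => sub_eq_zero.1 (hB.V_sep hN fun v hv => ?_)
  have := Set.ext_iff.1 e v
  simp only [mem_ofPred_eq, hv, true_and] at this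
  rw [sub_dotProduct]
  rcases ha v hv with h1 | h1 <;> rcases hb v hv with h2 | h2 <;> simp_all
  all_goals norm_num at *

lemma W_max {ξ : ι → ℝ} (hξ : ξ ∈ pol K) (x : ι → ℝ) : ∃ w ∈ Wx K, ξ ⬝ᵥ x ≤ w ⬝ᵥ x := by
  obtain ⟨w, h1, h2, h3⟩ := lp (hB.V_finite hN) (fun _ => 1) x ξ (fun y hy => hξ y hy.1)
    fun d ⟨y, hy, h⟩ => by
      have key : ∀ e : ℝ, e ≠ 0 → ∃ y ∈ Vx K, 0 < e * (d ⬝ᵥ y) := fun e he => by
        rcases (mul_ne_zero he h).lt_or_gt with h1 | h1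
        · exact ⟨-y, hB.V_neg hy, by rw [dotProduct_neg]; linarith⟩
        · exact ⟨y, hy, h1⟩
      rcases le_total 0 (d ⬝ᵥ x) with h1 | h1
      · exact ⟨1, by linarith, key 1 one_ne_zero⟩
      · exact ⟨-1, by linarith, key _ (by norm_num)⟩
  refine ⟨w, hB.CL hN ?_ (S := {y ∈ Vx K | w ⬝ᵥ y = 1}) (fun y hy => hy) ?_, h2⟩
  · rw [hB.pol_eq]; exact hB.hK_le_V hN h1
  · rw [eq_top_iff, ← hB.V_span hN]; exact Submodule.span_le.2 h3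

omit hN [Nonempty ι] in
lemma mem_of_pol {x : ι → ℝ} (h : ∀ ξ ∈ pol K, ξ ⬝ᵥ x ≤ 1) : x ∈ K := hB.mem_of_le fun u => by
  by_cases hu : u = 0
  · simp [hu, hB.hK_zero]
  have hp := hB.hK_pos hu
  have := h ((hK K u)⁻¹ • u) (by
    rw [hB.pol_eq, mem_ofPred_eq, hB.hK_smul (inv_pos.2 hp).le, inv_mul_cancel₀ hp.ne'])
  rwa [smul_dotProduct, smul_eq_mul, inv_mul_le_iff₀ hp, mul_one] at this

lemma mem_of_W {x : ι → ℝ} (h : ∀ w ∈ Wx K, w ⬝ᵥ x ≤ 1) : x ∈ K := hB.mem_of_pol fun ξ hξ => by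
  obtain ⟨w, hw, e⟩ := hB.W_max hN hξ x
  exact e.trans (h w hw)

lemma W_sep {d : ι → ℝ} (h : ∀ w ∈ Wx K, w ⬝ᵥ d = 0) : d = 0 := by
  obtain ⟨D, hD, h1, -⟩ := hB.exists_upper
  by_contra hd
  have h2 := norm_pos_iff.2 hd
  have := h1 (((D + 1) / ‖d‖) • d) (hB.mem_of_W hN fun w hw => by simp [h w hw])
  rw [norm_smul, Real.norm_of_nonneg (by positivity), div_mul_cancel₀ _ h2.ne'] at this
  linarith

omit hB hN [Nonempty ι] in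
lemma W_neg {w : ι → ℝ} (h : w ∈ Wx K) : -w ∈ Wx K := fun v hv => by
  rw [neg_dotProduct, neg_eq_iff_eq_neg, neg_inj]; exact (h v hv).symm

/-- the vertices exposed by a positive combination of facet normals -/
lemma exists_expose {A : Set (ι → ℝ)} (hA : A ⊆ Wx K) {x : ι → ℝ} (hx : x ∈ K)
    (h : ∀ w ∈ A, w ⬝ᵥ x = 1) : ∃ u : ι → ℝ, (∀ v ∈ K, u ∈ Nc K v ↔ ∀ w ∈ A, w ⬝ᵥ v = 1) ∧
      (∀ a ∈ Vx K, ∀ b ∈ Vx K, u ⬝ᵥ a = u ⬝ᵥ b → ∀ w ∈ A, w ⬝ᵥ a = w ⬝ᵥ b) ∧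
      (A.Nonempty → u ≠ 0) := by
  have := ((hB.W_finite hN).subset hA).fintype
  obtain ⟨l, l1, l2⟩ := (dense_generic (ι := A) (s := {z ∈ Vx K ×ˢ Vx K |
    (fun w : A => (w : ι → ℝ) ⬝ᵥ z.1 - (w : ι → ℝ) ⬝ᵥ z.2) ≠ 0}) (((hB.V_finite hN).prod
    (hB.V_finite hN)).subset (sep_subset _ _))
    (fun z w => (w : ι → ℝ) ⬝ᵥ z.1 - (w : ι → ℝ) ⬝ᵥ z.2) (fun _ => 0)
    fun _ hz => hz.2).inter_open_nonempty {l | ∀ w, 0 < l w} (by
      rw [ofPred_forall]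
      exact isOpen_iInter_of_finite fun w => isOpen_lt continuous_const (by fun_prop))
    ⟨fun _ => 1, fun _ => one_pos⟩
  have ev : ∀ v, (∑ w : A, l w • (w : ι → ℝ)) ⬝ᵥ v = ∑ w : A, l w * ((w : ι → ℝ) ⬝ᵥ v) := fun v => by
    simp only [sum_dotProduct, smul_dotProduct, smul_eq_mul]
  have le : ∀ v ∈ K, ∀ w : A, l w * ((w : ι → ℝ) ⬝ᵥ v) ≤ l w * 1 := fun v hv w =>
    mul_le_mul_of_nonneg_left (hB.W_pol hN (hA w.2) v hv) (l1 w).le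
  have e0 : ∀ v, (∀ w ∈ A, w ⬝ᵥ v = 1) → (∑ w : A, l w • (w : ι → ℝ)) ⬝ᵥ v = ∑ w : A, l w * 1 :=
    fun v hv => by rw [ev]; exact Finset.sum_congr rfl fun w _ => by rw [hv w w.2]
  refine ⟨∑ w : A, l w • (w : ι → ℝ), fun v hv => ?_, fun a ha b hb e w hw => ?_, fun ⟨w, hw⟩ e => ?_⟩
  · rw [hB.mem_Nc hv]
    refine ⟨fun h1 w hw => ?_, fun h1 y hy => ?_⟩
    · have h2 := h1 x hx
      rw [e0 x h, ev] at h2
      exact mul_left_cancel₀ (l1 ⟨w, hw⟩).ne' ((Finset.sum_eq_sum_iff_of_le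
        fun w _ => le v hv w).1 (le_antisymm (Finset.sum_le_sum fun w _ => le v hv w) h2)
        ⟨w, hw⟩ (Finset.mem_univ _))
    · rw [e0 v h1, ev]; exact Finset.sum_le_sum fun w _ => le y hy w
  · by_contra hne
    refine l2 (a, b) ⟨⟨ha, hb⟩, fun h0 => hne (sub_eq_zero.1 (congrFun h0 ⟨w, hw⟩))⟩ ?_
    rw [ev, ev, ← sub_eq_zero, ← Finset.sum_sub_distrib] at e
    simpa only [dotProduct.eq_1 l, mul_sub] using e
  · have := e0 x h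
    rw [e, zero_dotProduct] at this
    exact (Finset.sum_pos (fun w _ => by simpa using l1 w) ⟨⟨w, hw⟩, Finset.mem_univ _⟩).ne this

lemma V_of_pm {x : ι → ℝ} (h : ∀ w ∈ Wx K, w ⬝ᵥ x = 1 ∨ w ⬝ᵥ x = -1) : x ∈ Vx K := by
  have hx : x ∈ K := hB.mem_of_W hN fun w hw => by rcases h w hw with e | e <;> rw [e]; norm_num
  obtain ⟨u, h1, -⟩ := hB.exists_expose hN (A := {w ∈ Wx K | w ⬝ᵥ x = 1}) (sep_subset _ _) hx
    fun w hw => hw.2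
  obtain ⟨v, hv, e⟩ := hB.V_max hN u
  have h2 := (h1 v hv.1).1 e
  have : x - v = 0 := hB.W_sep hN fun w hw => by
    rw [dotProduct_sub]
    rcases h w hw with e | e
    · rw [e, h2 w ⟨hw, e⟩, sub_self]
    · have := h2 (-w) ⟨W_neg hw, by rw [neg_dotProduct, e, neg_neg]⟩
      rw [neg_dotProduct] at this
      linarith
  exact sub_eq_zero.1 this ▸ hv

theorem faces {S : Set (ι → ℝ)} (hS : S ⊆ Vx K) (hne : S.Nonempty) {w0 : ι → ℝ} (hw0 : w0 ∈ Wx K)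
    (h0 : ∀ y ∈ S, w0 ⬝ᵥ y = 1) {a b : ι → ℝ} (ha : a ∈ Vx K) (hb : b ∈ Vx K) (hab : a ≠ -b)
    (hd : ∀ v ∈ Vx K, (∀ w ∈ Wx K, (∀ y ∈ S, w ⬝ᵥ y = 1) → w ⬝ᵥ v = 1) →
      (∀ w ∈ Wx K, w ⬝ᵥ a = 1 → w ⬝ᵥ b = 1 → w ⬝ᵥ v = 1) → False) :
    ∃ w ∈ Wx K, (∀ y ∈ S, w ⬝ᵥ y = 1) ∧ w ⬝ᵥ a = -1 ∧ w ⬝ᵥ b = -1 := by
  classical
  obtain ⟨y0, hy0⟩ := hne
  obtain ⟨u, u1, u2, u3⟩ := hB.exists_expose hN (A := {w ∈ Wx K | ∀ y ∈ S, w ⬝ᵥ y = 1})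
    (sep_subset _ _) (hS hy0).1 fun w hw => hw.2 y0 hy0
  obtain ⟨f, f1, -⟩ := hB.exists_expose hN (A := {w ∈ Wx K | w ⬝ᵥ a = 1 ∧ w ⬝ᵥ b = 1})
    (sep_subset _ _) ha.1 fun w hw => hw.2.1
  have hF : ∀ v ∈ K, -f ∈ Nc K (-v) ↔ ∀ w ∈ Wx K, w ⬝ᵥ a = 1 → w ⬝ᵥ b = 1 → w ⬝ᵥ v = 1 := by
    intro v hv
    have := f1 v hv
    simp only [Nc, mem_ofPred_eq, and_imp] at this
    simp only [Nc, mem_ofPred_eq, hB.hK_neg, neg_dotProduct_neg, this]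
  have e1 : ∀ᶠ τ in 𝓝 (0 : ℝ), τ < 1 ∧
      (∀ v ∈ Vx K, u + (1 + τ) • (-f - u) ∈ Nc K v → -f ∈ Nc K v) ∧
      ∀ v ∈ Vx K, u + (1 - τ) • (-f - u) ∈ Nc K v → -f ∈ Nc K v :=
    (gt_mem_nhds one_pos).and (((Continuous.tendsto' (f := fun τ : ℝ => u + (1 + τ) • (-f - u))
      (by fun_prop) 0 (-f) (by simp)).eventually (hB.usc hN (-f))).and
      ((Continuous.tendsto' (f := fun τ : ℝ => u + (1 - τ) • (-f - u))
      (by fun_prop) 0 (-f) (by simp)).eventually (hB.usc hN (-f))))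
  obtain ⟨τ, hτ, τ1, τ2, τ3⟩ := (eventually_mem_nhdsWithin.and
    (e1.filter_mono (nhdsWithin_le_nhds (s := Ioi 0)))).exists
  have τ0 : 0 < τ := hτ
  have e2 : ∀ t : ℝ, ∀ᶠ R in 𝓝 (-f - u), ∀ v ∈ Vx K,
      u + t • R ∈ Nc K v → u + t • (-f - u) ∈ Nc K v := fun t =>
    (Continuous.tendsto (f := fun R => u + t • R) (by fun_prop) _).eventually (hB.usc hN _)
  obtain ⟨R, r1, r2, r3⟩ := (dense_generic (s := {z ∈ Vx K ×ˢ Vx K | z.1 ≠ z.2} ×ˢ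
    {(0 : ℝ), (1 + τ)⁻¹, (1 - τ)⁻¹}) ((((hB.V_finite hN).prod
    (hB.V_finite hN)).subset (sep_subset _ _)).prod (toFinite _)) (fun z => z.1.1 - z.1.2)
    (fun z => -(z.2 * (u ⬝ᵥ (z.1.1 - z.1.2)))) fun _ hz =>
      sub_ne_zero.2 hz.1.2).inter_nhds_nonempty ((e2 (1 + τ)).and (e2 (1 - τ)))
  have gen : ∀ t : ℝ, t ≠ 0 → t⁻¹ ∈ ({(0 : ℝ), (1 + τ)⁻¹, (1 - τ)⁻¹} : Set ℝ) →
      ∃ v ∈ Vx K, u + t • R ∈ interior (Nc K v) := fun t ht h =>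
    hB.int_of_inj hN fun x hx y hy hne e => r1 ((x, y), t⁻¹) ⟨⟨⟨hx, hy⟩, hne⟩, h⟩ (by
      rw [add_dotProduct, smul_dotProduct, smul_eq_mul] at e
      simp only
      field_simp
      linarith)
  obtain ⟨p, hp, p1⟩ := gen (1 + τ) (by linarith) (by simp)
  obtain ⟨q, hq, q1⟩ := gen (1 - τ) (by linarith) (by simp)
  have p2 := r2 p hp (interior_subset p1)
  have q2 := r3 q hq (interior_subset q1)
  have p3 := τ2 p hp p2
  have q3 := τ3 q hq q2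
  have p4 := (hF (-p) (hB.sym p hp.1)).1 (by simpa using p3)
  have q4 := (hF (-q) (hB.sym q hq.1)).1 (by simpa using q3)
  obtain ⟨w1, hw1, w1a, w1b⟩ := hB.pair hN ha hb hab
  obtain ⟨w, hw, a1, a2, S', a3, a4⟩ := hB.vis0 hN (u3 ⟨w0, hw0, h0⟩) (R := R)
    (fun x hx y hy hne => by simpa using r1 ((x, y), 0) ⟨⟨⟨hx, hy⟩, hne⟩, by simp⟩) (T := {p, q})
    (by
      simp only [Vis, Finset.coe_insert, Finset.coe_singleton, mem_insert_iff, mem_singleton_iff,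
        forall_eq_or_imp, forall_eq]
      exact ⟨⟨hp.1, _, p1⟩, hq.1, _, q1⟩) (by
      have b1 := p4 w1 hw1 w1a w1b
      have b2 := q4 w1 hw1 w1a w1b
      have b3 : -p ≠ q := fun e => by rw [← e, neg_neg] at b2; rw [dotProduct_neg] at b1; linarith
      simp only [Finset.mem_insert, Finset.mem_singleton, forall_eq_or_imp, forall_eq, not_or]
      exact ⟨⟨⟨hB.V_ne_neg hp, b3⟩, fun h => hd _ (hB.V_neg hp)
        (fun w hw h' => (u1 _ (hB.sym p hp.1)).1 h w ⟨hw, h'⟩) p4⟩,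
        ⟨fun e => b3 (by rw [← e, neg_neg]), hB.V_ne_neg hq⟩, fun h => hd _ (hB.V_neg hq)
        (fun w hw h' => (u1 _ (hB.sym q hq.1)).1 h w ⟨hw, h'⟩) q4⟩)
  have hW := hB.CL hN hw a3 a4
  have hwS : ∀ y ∈ S, w ⬝ᵥ y = 1 := fun y hy =>
    a2 y (hS hy) ((u1 y (hS hy).1).2 fun w hw => hw.2 y hy)
  have refl : ∀ v ∈ Vx K, -f ∈ Nc K v → -a - b - v ∈ Vx K ∧ -f ∈ Nc K (-a - b - v) := by
    intro v hv h
    have h1 := (hF (-v) (hB.sym v hv.1)).1 (by simpa using h)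
    have h2 : -a - b - v ∈ Vx K := hB.V_of_pm hN fun w hw => by
      have c1 := h1 w hw
      have c2 := h1 (-w) (W_neg hw)
      simp only [neg_dotProduct, dotProduct_neg, dotProduct_sub, neg_neg] at c1 c2 ⊢
      rcases hw a ha with h3 | h3 <;> rcases hw b hb with h4 | h4 <;> rcases hw v hv with h5 | h5 <;>
        simp only [h3, h4, h5] at c1 c2 ⊢
      all_goals first | (norm_num; done) | (norm_num at c1; done) | norm_num at c2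
    refine ⟨h2, ?_⟩
    have := (hF _ (hB.sym _ h2.1)).2 fun w hw c1 c2 => by
      have := h1 w hw c1 c2
      simp only [dotProduct_neg, dotProduct_sub, c1, c2] at this ⊢
      linarith
    simpa only [neg_neg] using this
  obtain ⟨p5, p6⟩ := refl p hp p3
  obtain ⟨q5, q6⟩ := refl q hq q3
  have c1 := (hB.mem_Nc hp.1).1 p2 _ q5.1
  have c2 := (hB.mem_Nc hq.1).1 q2 _ p5.1
  have c3 : -f ⬝ᵥ (-a - b - q) = -f ⬝ᵥ p := q6.trans (Eq.symm p3)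
  have c4 : -f ⬝ᵥ (-a - b - p) = -f ⬝ᵥ q := p6.trans (Eq.symm q3)
  simp only [add_dotProduct, smul_dotProduct, sub_dotProduct, smul_eq_mul, c3, c4] at c1 c2
  have c5 : u ⬝ᵥ (-a - b - p) = u ⬝ᵥ q := by
    have d1 : u ⬝ᵥ p ≤ u ⬝ᵥ (-a - b - q) := le_of_mul_le_mul_left (by linarith) τ0
    have d2 : u ⬝ᵥ (-a - b - p) ≤ u ⬝ᵥ q := le_of_mul_le_mul_left (by linarith) τ0
    simp only [dotProduct_sub] at *
    linarith
  have c6 := u2 _ p5 _ hq c5 w ⟨hW, hwS⟩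
  rw [dotProduct_sub, dotProduct_sub, dotProduct_neg, a1 p (by simp), a1 q (by simp)] at c6
  refine ⟨w, hW, hwS, ?_⟩
  rcases hW a ha with h3 | h3 <;> rcases hW b hb with h4 | h4 <;> simp only [h3, h4] at c6 ⊢ <;>
    first | (norm_num; done) | norm_num at c6

end Body

end Vale.Agent.P248
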