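import Mathlib

/-! Continuous functions of polynomial growth, and calculus under the integral sign. -/

open MeasureTheory Set Filter Topology Real

namespace Vale.Agent.P248

/-- continuous with polynomial growth -/
@[fun_prop]
def PG {α β : Type*} [SeminormedAddCommGroup α] [SeminormedAddCommGroup β] (f : α → β) : Prop :=
  Continuous f ∧ ∃ C : ℝ, ∃ k : ℕ, 0 ≤ C ∧ ∀ x, ‖f x‖ ≤ C * (1 + ‖x‖) ^ k

section basic

variable {α β γ : Type*} [SeminormedAddCommGroup α] [SeminormedAddCommGroup β]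
  [SeminormedAddCommGroup γ]

lemma PG.cont {f : α → β} (h : PG f) : Continuous f := h.1

lemma one_le_opow (x : α) (k : ℕ) : 1 ≤ (1 + ‖x‖) ^ k :=
  one_le_pow₀ (by linarith [norm_nonneg x])

lemma opow_le (x : α) {k l : ℕ} (h : k ≤ l) : (1 + ‖x‖) ^ k ≤ (1 + ‖x‖) ^ l :=
  pow_le_pow_right₀ (by linarith [norm_nonneg x]) h

lemma PG.of_bound {f : α → β} (hc : Continuous f) (C : ℝ) (h : ∀ x, ‖f x‖ ≤ C) : PG f :=
  ⟨hc, C, 0, (norm_nonneg _).trans (h 0), fun x => by simpa using h x⟩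

lemma PG.of_lin {f : α → β} (hc : Continuous f) (C : ℝ) (h : ∀ x, ‖f x‖ ≤ C * (1 + ‖x‖)) :
    PG f :=
  ⟨hc, C, 1, by simpa using (norm_nonneg _).trans (h 0), fun x => by simpa using h x⟩

@[fun_prop]
lemma PG.id' : PG fun x : α => x :=
  PG.of_lin continuous_id 1 fun x => by linarith [norm_nonneg x]

@[fun_prop]
lemma PG.const (b : β) : PG fun _ : α => b := PG.of_bound continuous_const ‖b‖ fun _ => le_rfl

@[fun_prop]
lemma PG.comp {f : β → γ} {g : α → β} (hf : PG f) (hg : PG g) : PG fun x => f (g x) := by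
  obtain ⟨hf1, C, k, hC, hf2⟩ := hf
  obtain ⟨hg1, D, l, hD, hg2⟩ := hg
  refine ⟨hf1.comp hg1, C * (1 + D) ^ k, l * k, by positivity, fun x => (hf2 _).trans ?_⟩
  rw [mul_assoc, pow_mul, ← mul_pow]
  have := one_le_opow x l
  have := hg2 x
  gcongr
  nlinarith

lemma PG.of_le {f : α → β} {g : α → γ} (hc : Continuous f) (hg : PG g) (h : ∀ x, ‖f x‖ ≤ ‖g x‖) :
    PG f := by
  obtain ⟨_, D, l, hD, hg2⟩ := hg
  exact ⟨hc, D, l, hD, fun x => (h x).trans (hg2 x)⟩

lemma PG.clm [NormedSpace ℝ α] [NormedSpace ℝ β] (L : α →L[ℝ] β) : PG fun x => L x :=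
  PG.of_lin L.continuous ‖L‖ fun x => (L.le_opNorm x).trans (by
    have := norm_nonneg L; nlinarith)

@[fun_prop]
lemma PG.apply' {ι : Type*} [Fintype ι] {δ : ι → Type*} [∀ i, SeminormedAddCommGroup (δ i)]
    (i : ι) : PG fun x : ∀ i, δ i => x i :=
  PG.of_le (continuous_apply i) PG.id' fun x => norm_le_pi_norm x i

@[fun_prop]
lemma PG.add {f g : α → β} (hf : PG f) (hg : PG g) : PG fun x => f x + g x := by
  obtain ⟨hf1, C, k, hC, hf2⟩ := hf
  obtain ⟨hg1, D, l, hD, hg2⟩ := hg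
  refine ⟨hf1.add hg1, C + D, k + l, by positivity, fun x => (norm_add_le _ _).trans ?_⟩
  have h1 := mul_le_mul_of_nonneg_left (opow_le x (Nat.le_add_right k l)) hC
  have h2 := mul_le_mul_of_nonneg_left (opow_le x (Nat.le_add_left l k)) hD
  linarith [hf2 x, hg2 x]

@[fun_prop]
lemma PG.neg {f : α → β} (hf : PG f) : PG fun x => -f x :=
  PG.of_le hf.1.neg hf fun x => by simp

@[fun_prop]
lemma PG.sub {f g : α → β} (hf : PG f) (hg : PG g) : PG fun x => f x - g x := by
  simpa [sub_eq_add_neg] using hf.add hg.neg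

@[fun_prop]
lemma PG.smul [NormedSpace ℝ β] {f : α → ℝ} {g : α → β} (hf : PG f) (hg : PG g) :
    PG fun x => f x • g x := by
  obtain ⟨hf1, C, k, hC, hf2⟩ := hf
  obtain ⟨hg1, D, l, hD, hg2⟩ := hg
  refine ⟨hf1.smul hg1, C * D, k + l, by positivity, fun x => ?_⟩
  rw [norm_smul, pow_add]
  calc _ ≤ C * (1 + ‖x‖) ^ k * (D * (1 + ‖x‖) ^ l) :=
        mul_le_mul (hf2 x) (hg2 x) (norm_nonneg _) (by positivity)
    _ = _ := by ring

@[fun_prop]
lemma PG.mul {f g : α → ℝ} (hf : PG f) (hg : PG g) : PG fun x => f x * g x := hf.smul hg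

@[fun_prop]
lemma PG.pow {f : α → ℝ} (hf : PG f) (m : ℕ) : PG fun x => f x ^ m := by
  induction m with
  | zero => simpa using PG.const (1 : ℝ)
  | succ m ih => simpa [pow_succ] using ih.mul hf

@[fun_prop]
lemma PG.sum {ι : Type*} (s : Finset ι) {f : ι → α → β} (hf : ∀ i, PG (f i)) :
    PG fun x => ∑ i ∈ s, f i x := by
  classical
  induction s using Finset.induction_on with
  | empty => simpa using PG.const (0 : β)
  | insert i s hi ih => simpa [Finset.sum_insert hi] using (hf i).add ih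

@[fun_prop]
lemma PG.prod {ι : Type*} (s : Finset ι) {f : ι → α → ℝ} (hf : ∀ i, PG (f i)) :
    PG fun x => ∏ i ∈ s, f i x := by
  classical
  induction s using Finset.induction_on with
  | empty => simpa using PG.const (1 : ℝ)
  | insert i s hi ih => simpa [Finset.prod_insert hi] using (hf i).mul ih

lemma PG.norm {f : α → β} (hf : PG f) : PG fun x => ‖f x‖ :=
  PG.of_le hf.1.norm hf fun x => by simp

@[fun_prop]
lemma PG.pi {ι : Type*} [Fintype ι] {δ : ι → Type*} [∀ i, SeminormedAddCommGroup (δ i)]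
    {f : α → ∀ i, δ i} (hf : ∀ i, PG fun x => f x i) : PG fun x i => f x i := by
  refine PG.of_le (continuous_pi fun i => (hf i).1) (PG.sum Finset.univ fun i => (hf i).norm)
    fun x => ?_
  rw [Real.norm_of_nonneg (Finset.sum_nonneg fun _ _ => norm_nonneg _),
    pi_norm_le_iff_of_nonneg (Finset.sum_nonneg fun _ _ => norm_nonneg _)]
  exact fun i => Finset.single_le_sum (f := fun i => ‖f x i‖) (fun _ _ => norm_nonneg _)
    (Finset.mem_univ i)

@[fun_prop]
lemma PG.fst {f : α → β × γ} (hf : PG f) : PG fun x => (f x).1 :=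
  PG.of_le hf.1.fst hf fun x => norm_fst_le _

@[fun_prop]
lemma PG.snd {f : α → β × γ} (hf : PG f) : PG fun x => (f x).2 :=
  PG.of_le hf.1.snd hf fun x => norm_snd_le _

@[fun_prop]
lemma PG.mk {f : α → β} {g : α → γ} (hf : PG f) (hg : PG g) : PG fun x => (f x, g x) := by
  refine PG.of_le (hf.1.prodMk hg.1) (hf.norm.add hg.norm) fun x => ?_
  rw [Prod.norm_def, Real.norm_of_nonneg (by positivity)]
  exact max_le (by linarith [norm_nonneg (g x)]) (by linarith [norm_nonneg (f x)])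

@[fun_prop]
lemma PG.sin {f : α → ℝ} (hf : PG f) : PG fun x => Real.sin (f x) :=
  PG.of_bound (Real.continuous_sin.comp hf.1) 1 fun _ => Real.abs_sin_le_one _

@[fun_prop]
lemma PG.cos {f : α → ℝ} (hf : PG f) : PG fun x => Real.cos (f x) :=
  PG.of_bound (Real.continuous_cos.comp hf.1) 1 fun _ => Real.abs_cos_le_one _

@[fun_prop]
lemma PG.dot {ι : Type*} [Fintype ι] {f g : α → ι → ℝ} (hf : PG f) (hg : PG g) :
    PG fun x => f x ⬝ᵥ g x := by
  unfold dotProduct
  fun_prop

lemma PG.mulVec {ι : Type*} [Fintype ι] {A : α → Matrix ι ι ℝ} {g : α → ι → ℝ}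
    (hA : ∀ i j, PG fun x => A x i j) (hg : PG g) : PG fun x => (A x).mulVec (g x) := by
  refine PG.pi fun i => ?_
  simp only [Matrix.mulVec, dotProduct]
  fun_prop

lemma PG.det {ι : Type*} [Fintype ι] [DecidableEq ι] {A : α → Matrix ι ι ℝ}
    (hA : ∀ i j, PG fun x => A x i j) : PG fun x => (A x).det := by
  simp only [Matrix.det_apply']
  fun_prop

lemma PG.updateRow {ι : Type*} [Fintype ι] [DecidableEq ι] {A : α → Matrix ι ι ℝ}
    (hA : ∀ i j, PG fun x => A x i j) (k : ι) (v : ι → ℝ) (i j : ι) :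
    PG fun x => (A x).updateRow k v i j := by
  simp only [Matrix.updateRow_apply]
  split_ifs
  · fun_prop
  · exact hA i j

lemma PG.adj {ι : Type*} [Fintype ι] [DecidableEq ι] {A : α → Matrix ι ι ℝ}
    (hA : ∀ i j, PG fun x => A x i j) (i j : ι) : PG fun x => (A x).adjugate i j := by
  simp only [Matrix.adjugate_apply]
  exact PG.det (PG.updateRow hA _ _)

end basic

/-- average over a half turn -/
noncomputable def av (f : ℝ → ℝ) : ℝ := π⁻¹ * ∫ τ in (0 : ℝ)..π, f τ

lemma PG.av {α : Type*} [SeminormedAddCommGroup α] {G : α → ℝ → ℝ}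
    (h : PG fun z : α × ℝ => G z.1 z.2) : PG fun x => av (G x) := by
  obtain ⟨h1, C, k, hC, h2⟩ := h
  refine ⟨(intervalIntegral.continuous_parametric_intervalIntegral_of_continuous' (f := G) h1 0 π).const_mul
    _, C * (1 + π) ^ k, k, by positivity, fun x => ?_⟩
  have hp := Real.pi_pos
  have : ‖∫ τ in (0 : ℝ)..π, G x τ‖ ≤ C * (1 + π) ^ k * (1 + ‖x‖) ^ k * |π - 0| := by
    refine intervalIntegral.norm_integral_le_of_norm_le_const fun τ hτ => (h2 (x, τ)).trans ?_
    rw [uIoc_of_le hp.le] at hτ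
    rw [mul_assoc, ← mul_pow]
    gcongr
    rw [Prod.norm_def]
    have : ‖τ‖ ≤ π := by rw [Real.norm_of_nonneg hτ.1.le]; exact hτ.2
    have := norm_nonneg x
    rcases le_total ‖x‖ ‖τ‖ with h | h
    · rw [max_eq_right h]; nlinarith
    · rw [max_eq_left h]; nlinarith
  rw [sub_zero, abs_of_pos hp] at this
  show ‖π⁻¹ * _‖ ≤ _
  rw [norm_mul, Real.norm_of_nonneg (inv_nonneg.2 hp.le), inv_mul_le_iff₀ hp]
  linarith

lemma hasDerivAt_intervalIntegral {F F' : ℝ → ℝ → ℝ} (hF : Continuous fun z : ℝ × ℝ => F z.1 z.2)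
    (hF' : Continuous fun z : ℝ × ℝ => F' z.1 z.2) (h : ∀ s τ, HasDerivAt (fun s => F s τ) (F' s τ) s)
    (a b s : ℝ) : HasDerivAt (fun s => ∫ τ in a..b, F s τ) (∫ τ in a..b, F' s τ) s := by
  obtain ⟨C, hC⟩ := ((isCompact_closedBall s 1).prod (isCompact_uIcc (a := a) (b := b))).exists_bound_of_continuousOn
    hF'.continuousOn
  refine (intervalIntegral.hasDerivAt_integral_of_dominated_loc_of_deriv_le (bound := fun _ => C)
    (Metric.closedBall_mem_nhds s one_pos) (Eventually.of_forall fun x => ?_) ?_ ?_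
    (Eventually.of_forall fun τ hτ x hx => hC (x, τ) ⟨hx, uIoc_subset_uIcc hτ⟩)
    intervalIntegrable_const (Eventually.of_forall fun τ _ x _ => h x τ)).2
  · exact (hF.comp (Continuous.prodMk_right x)).aestronglyMeasurable
  · exact (hF.comp (Continuous.prodMk_right s)).intervalIntegrable _ _
  · exact (hF'.comp (Continuous.prodMk_right s)).aestronglyMeasurable

lemma hasDerivAt_av {F F' : ℝ → ℝ → ℝ} (hF : Continuous fun z : ℝ × ℝ => F z.1 z.2)
    (hF' : Continuous fun z : ℝ × ℝ => F' z.1 z.2) (h : ∀ s τ, HasDerivAt (fun s => F s τ) (F' s τ) s)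
    (s : ℝ) : HasDerivAt (fun s => av (F s)) (av (F' s)) s :=
  (hasDerivAt_intervalIntegral hF hF' h 0 π s).const_mul _

lemma av_add {f g : ℝ → ℝ} (hf : Continuous f) (hg : Continuous g) :
    av (fun τ => f τ + g τ) = av f + av g := by
  rw [av, intervalIntegral.integral_add (hf.intervalIntegrable _ _) (hg.intervalIntegrable _ _),
    mul_add]; rfl

lemma av_sub {f g : ℝ → ℝ} (hf : Continuous f) (hg : Continuous g) :
    av (fun τ => f τ - g τ) = av f - av g := by
  rw [av, intervalIntegral.integral_sub (hf.intervalIntegrable _ _) (hg.intervalIntegrable _ _),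
    mul_sub]; rfl

lemma av_mul (c : ℝ) (f : ℝ → ℝ) : av (fun τ => c * f τ) = c * av f := by
  rw [av, intervalIntegral.integral_const_mul, av]; ring

lemma av_const (c : ℝ) : av (fun _ => c) = c := by
  have := Real.pi_pos.ne'
  simp [av, this]

lemma av_sum {ι : Type*} (s : Finset ι) {f : ι → ℝ → ℝ} (hf : ∀ i, Continuous (f i)) :
    av (fun τ => ∑ i ∈ s, f i τ) = ∑ i ∈ s, av (f i) := by
  rw [av, intervalIntegral.integral_finsetSum fun i _ => (hf i).intervalIntegrable _ _,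
    Finset.mul_sum]; rfl

lemma av_mono {f g : ℝ → ℝ} (hf : Continuous f) (hg : Continuous g)
    (h : ∀ τ ∈ Icc 0 π, f τ ≤ g τ) : av f ≤ av g :=
  mul_le_mul_of_nonneg_left (intervalIntegral.integral_mono_on Real.pi_pos.le
    (hf.intervalIntegrable _ _) (hg.intervalIntegrable _ _) h) (inv_nonneg.2 Real.pi_pos.le)

lemma av_nonneg {f : ℝ → ℝ} (h : ∀ τ, 0 ≤ f τ) : 0 ≤ av f :=
  mul_nonneg (inv_nonneg.2 Real.pi_pos.le)
    (intervalIntegral.integral_nonneg Real.pi_pos.le fun τ _ => h τ)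

lemma av_deriv {f f' : ℝ → ℝ} (hf' : Continuous f') (h : ∀ τ, HasDerivAt f (f' τ) τ)
    (h0 : f π = f 0) : av f' = 0 := by
  rw [av, intervalIntegral.integral_eq_sub_of_hasDerivAt (fun τ _ => h τ)
    (hf'.intervalIntegrable _ _), h0, sub_self, mul_zero]

lemma av_eq_of_deriv {f g G G' : ℝ → ℝ} (hg : Continuous g) (hG' : Continuous G')
    (h : ∀ τ, HasDerivAt G (G' τ) τ) (h0 : G π = G 0) (e : ∀ τ, f τ = g τ + G' τ) : av f = av g := by
  rw [funext e, av_add hg hG', av_deriv hG' h h0, add_zero]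

section integrable

variable {X : Type*} [NormedAddCommGroup X] [NormedSpace ℝ X] [FiniteDimensional ℝ X]
  [MeasurableSpace X] [BorelSpace X] {μ : Measure X} [μ.IsAddHaarMeasure]

lemma integrable_exp_pow {δ : ℝ} (hδ : 0 < δ) (k : ℕ) :
    Integrable (fun x : X => Real.exp (-(δ * ‖x‖)) * (1 + ‖x‖) ^ k) μ := by
  set m := Module.finrank ℝ X + 1
  have h1 := (integrable_one_add_norm (E := X) (μ := μ) (r := m) (by simp [m])).const_mul
    (Real.exp δ * ((k + m).factorial / δ ^ (k + m)))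
  refine h1.mono' (by fun_prop) (Eventually.of_forall fun x => ?_)
  have hx : 0 < 1 + ‖x‖ := by positivity
  rw [Real.norm_of_nonneg (by positivity), Real.rpow_neg hx.le, Real.rpow_natCast,
    ← div_eq_mul_inv, le_div_iff₀ (by positivity), mul_assoc, ← pow_add]
  have h2 := Real.pow_div_factorial_le_exp (δ * (1 + ‖x‖)) (by positivity) (k + m)
  rw [div_le_iff₀ (by positivity), mul_pow, mul_add, Real.exp_add, mul_one] at h2
  rw [Real.exp_neg, inv_mul_le_iff₀ (Real.exp_pos _), ← mul_div_assoc, ← mul_div_assoc,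
    le_div_iff₀ (by positivity)]
  linarith

lemma PG.integrable {f N : X → ℝ} (hf : PG f) (hN : Continuous N) {δ D : ℝ} (hδ : 0 < δ)
    (h : ∀ x, δ * ‖x‖ - D ≤ N x) : Integrable (fun x => Real.exp (-N x) * f x) μ := by
  obtain ⟨h1, C, k, hC, h2⟩ := hf
  refine ((integrable_exp_pow hδ k).const_mul (Real.exp D * C)).mono' (by fun_prop)
    (Eventually.of_forall fun x => ?_)
  rw [norm_mul, Real.norm_of_nonneg (Real.exp_pos _).le]
  have : Real.exp (-N x) ≤ Real.exp D * Real.exp (-(δ * ‖x‖)) := by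
    rw [← Real.exp_add]; exact Real.exp_le_exp.2 (by linarith [h x])
  calc _ ≤ Real.exp D * Real.exp (-(δ * ‖x‖)) * (C * (1 + ‖x‖) ^ k) :=
        mul_le_mul this (h2 x) (norm_nonneg _) (by positivity)
    _ = _ := by ring

lemma integral_lineDeriv_eq_zero {f f' : X → ℝ} {v : X} (hf : Integrable f μ) (hf' : Integrable f' μ)
    (h : ∀ x, HasDerivAt (fun s : ℝ => f (x + s • v)) (f' x) 0) : ∫ x, f' x ∂μ = 0 := by
  have := integral_bilinear_hasLineDerivAt_right_eq_neg_left_of_integrable (μ := μ)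
    (f := fun _ => (1 : ℝ)) (f' := fun _ => (0 : ℝ)) (g := f) (g' := f') (v := v)
    (B := ContinuousLinearMap.mul ℝ ℝ) (by simp) (by simpa using hf') (by simpa using hf)
    (fun x _ => hasDerivAt_const _ _) (fun x _ => h x)
  simpa using this

lemma hasDerivAt_integral_PG {F F' N N' : ℝ × X → ℝ} (hF : PG F) (hF' : PG F') (hN : Continuous N)
    (hN' : PG N') (h1 : ∀ t a, HasDerivAt (fun s => F (s, a)) (F' (t, a)) t)
    (h2 : ∀ t a, HasDerivAt (fun s => N (s, a)) (N' (t, a)) t)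
    (hd : ∀ T, ∃ δ > 0, ∃ D, ∀ t, |t| ≤ T → ∀ a, δ * ‖a‖ - D ≤ N (t, a)) (t : ℝ) :
    HasDerivAt (fun s => ∫ a, Real.exp (-N (s, a)) * F (s, a) ∂μ)
      (∫ a, Real.exp (-N (t, a)) * (F' (t, a) - N' (t, a) * F (t, a)) ∂μ) t := by
  obtain ⟨δ, hδ, D, hD⟩ := hd (|t| + 1)
  have hG : PG fun z => F' z - N' z * F z := by fun_prop
  obtain ⟨hG1, C, k, hC, hG2⟩ := hG
  have := hF.1
  have := hF'.1
  have := hN'.1
  refine (hasDerivAt_integral_of_dominated_loc_of_deriv_le
    (bound := fun a => (Real.exp D * C * (2 + |t|) ^ k) * (Real.exp (-(δ * ‖a‖)) * (1 + ‖a‖) ^ k))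
    (F' := fun s a => Real.exp (-N (s, a)) * (F' (s, a) - N' (s, a) * F (s, a)))
    (Metric.closedBall_mem_nhds t one_pos) (Eventually.of_forall fun x => by fun_prop) ?_
    (by fun_prop) (Eventually.of_forall fun a s hs => ?_) ((integrable_exp_pow hδ k).const_mul _)
    (Eventually.of_forall fun a s _ => ?_)).2
  · exact PG.integrable (by fun_prop) (by fun_prop) hδ (hD t (by linarith))
  · have hs' : |s| ≤ |t| + 1 := by
      have := abs_sub_abs_le_abs_sub s t
      rw [Metric.mem_closedBall, Real.dist_eq] at hs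
      linarith
    rw [norm_mul, Real.norm_of_nonneg (Real.exp_pos _).le]
    have e1 : Real.exp (-N (s, a)) ≤ Real.exp D * Real.exp (-(δ * ‖a‖)) := by
      rw [← Real.exp_add]; exact Real.exp_le_exp.2 (by linarith [hD s hs' a])
    have e2 : (1 + ‖(s, a)‖) ^ k ≤ (2 + |t|) ^ k * (1 + ‖a‖) ^ k := by
      rw [← mul_pow]
      gcongr
      rw [Prod.norm_def]
      have := norm_nonneg a
      have := abs_nonneg t
      rcases le_total ‖s‖ ‖a‖ with h | h
      · rw [max_eq_right h]; nlinarith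
      · rw [max_eq_left h, Real.norm_eq_abs]; nlinarith
    calc _ ≤ Real.exp D * Real.exp (-(δ * ‖a‖)) * (C * ((2 + |t|) ^ k * (1 + ‖a‖) ^ k)) :=
          mul_le_mul e1 ((hG2 _).trans (mul_le_mul_of_nonneg_left e2 hC)) (norm_nonneg _)
            (by positivity)
      _ = _ := by ring
  · exact ((h2 s a).fun_neg.exp.fun_mul (h1 s a)).congr_deriv (by ring)

end integrable

end Vale.Agent.P248
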