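import Vale.Agent.P248.General
import Vale.Agent.P248.Coef

/-! Smooth even convex potentials and the averaged quantities of the deformation. -/

open MeasureTheory Set Filter Topology Real Matrix

namespace Vale.Agent.P248

attribute [fun_prop] PG.mulVec

/-- an even convex function with three derivatives of polynomial growth -/
structure Pot (ι : Type*) [Fintype ι] where
  φ : (ι → ℝ) → ℝ
  g : (ι → ℝ) → ι → ℝ
  H : (ι → ℝ) → Matrix ι ι ℝ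
  T : (ι → ℝ) → ι → ι → ι → ℝ
  pφ : PG φ
  pg : PG g
  pH : ∀ i j, PG fun u => H u i j
  pT : PG T
  dφ : ∀ {U : ℝ → ι → ℝ} {U' : ι → ℝ} {s : ℝ}, HasDerivAt U U' s →
    HasDerivAt (fun s => φ (U s)) (g (U s) ⬝ᵥ U') s
  dg : ∀ u, HasFDerivAt g (LinearMap.toContinuousLinearMap (H u).mulVecLin) u
  dH : ∀ {U : ℝ → ι → ℝ} {U' : ι → ℝ} {s : ℝ}, HasDerivAt U U' s → ∀ i j,
    HasDerivAt (fun s => H (U s) i j) (T (U s) i j ⬝ᵥ U') s
  psd : ∀ u, PSD (H u)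
  sT : ∀ u i j k, T u i j k = T u i k j
  even : ∀ u, φ (-u) = φ u
  odd : ∀ u, g (-u) = -g u

variable {ι : Type*} [Fintype ι]

lemma HasDerivAt.dot {U V : ℝ → ι → ℝ} {U' V' : ι → ℝ} {s : ℝ} (hU : HasDerivAt U U' s)
    (hV : HasDerivAt V V' s) : HasDerivAt (fun s => U s ⬝ᵥ V s) (U' ⬝ᵥ V s + U s ⬝ᵥ V') s := by
  simp only [dotProduct, ← Finset.sum_add_distrib]
  exact HasDerivAt.fun_sum fun i _ => (hasDerivAt_pi.1 hU i).fun_mul (hasDerivAt_pi.1 hV i)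

lemma dot_av (v : ι → ℝ) {f : ℝ → ι → ℝ} (hf : Continuous f) :
    (v ⬝ᵥ fun i => av fun τ => f τ i) = av fun τ => v ⬝ᵥ f τ := by
  simp only [dotProduct]
  rw [av_sum _ fun i => by fun_prop]
  simp only [av_mul]

noncomputable def UU (t τ : ℝ) (a : (ι → ℝ) × (ι → ℝ)) : ι → ℝ := aa t τ • a.1 + bb t τ • a.2
noncomputable def WW (t τ : ℝ) (a : (ι → ℝ) × (ι → ℝ)) : ι → ℝ :=
  (-(cc t * bb t τ)) • a.1 + (aa t τ * ic t) • a.2
noncomputable def XX (t τ : ℝ) (a : (ι → ℝ) × (ι → ℝ)) : ι → ℝ :=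
  eta t τ • a.1 + (2 * aa t τ * bb t τ * ic t) • a.2
noncomputable def YY (t τ : ℝ) (a : (ι → ℝ) × (ι → ℝ)) : ι → ℝ :=
  (-(2 * aa t τ * bb t τ * cc t)) • a.1 + eta t τ • a.2

section
variable {α : Type*} [SeminormedAddCommGroup α] {f g : α → ℝ} {a : α → (ι → ℝ) × (ι → ℝ)}

@[fun_prop]
lemma PG.UU (hf : PG f) (hg : PG g) (ha : PG a) : PG fun x => UU (f x) (g x) (a x) := by
  unfold P248.UU; fun_prop
@[fun_prop]
lemma PG.WW (hf : PG f) (hg : PG g) (ha : PG a) : PG fun x => WW (f x) (g x) (a x) := by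
  unfold P248.WW; fun_prop
@[fun_prop]
lemma PG.XX (hf : PG f) (hg : PG g) (ha : PG a) : PG fun x => XX (f x) (g x) (a x) := by
  unfold P248.XX; fun_prop
@[fun_prop]
lemma PG.YY (hf : PG f) (hg : PG g) (ha : PG a) : PG fun x => YY (f x) (g x) (a x) := by
  unfold P248.YY; fun_prop
end

section
omit [Fintype ι]
variable (t τ : ℝ) (a e : (ι → ℝ) × (ι → ℝ))

lemma P_eq : a.1 = (aa t τ * ic t) • UU t τ a - bb t τ • WW t τ a := by
  ext i; simp [UU, WW]; linear_combination (-a.1 i) * ell t τ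

lemma R_eq : a.2 = (cc t * bb t τ) • UU t τ a + aa t τ • WW t τ a := by
  ext i; simp [UU, WW]; linear_combination (-a.2 i) * ell t τ

lemma X_eq : XX t τ a = (aa t τ * ic t) • UU t τ a + bb t τ • WW t τ a := by
  ext i; simp [UU, WW, XX, eta]; ring

lemma Y_eq : YY t τ a = aa t τ • WW t τ a - (cc t * bb t τ) • UU t τ a := by
  ext i; simp [UU, WW, YY, eta]; ring

lemma UU_pi : UU t π a = -UU t 0 a := by simp [UU, aa_pi, aa_zero, bb_pi, bb_zero]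
lemma WW_pi : WW t π a = -WW t 0 a := by simp [WW, aa_pi, aa_zero, bb_pi, bb_zero]
lemma eta_pi : eta t π = eta t 0 := by simp [eta, aa_pi, aa_zero, bb_pi, bb_zero]

end

section
variable (t τ : ℝ) (a e : (ι → ℝ) × (ι → ℝ))

lemma lin_e (α β : ℝ) (s : ℝ) : HasDerivAt (fun s : ℝ => α • (a + s • e).1 + β • (a + s • e).2)
    (α • e.1 + β • e.2) s := by
  have h : ∀ u v : ι → ℝ, HasDerivAt (fun s : ℝ => u + s • v) v s := fun u v => by
    simpa using ((hasDerivAt_id s).smul_const v).const_add u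
  exact ((h _ _).const_smul α).add ((h _ _).const_smul β)

lemma UU_e (s : ℝ) : HasDerivAt (fun s : ℝ => UU t τ (a + s • e)) (UU t τ e) s := lin_e ..
lemma XX_e (s : ℝ) : HasDerivAt (fun s : ℝ => XX t τ (a + s • e)) (XX t τ e) s := lin_e ..
lemma YY_e (s : ℝ) : HasDerivAt (fun s : ℝ => YY t τ (a + s • e)) (YY t τ e) s := lin_e ..

lemma UU_t : HasDerivAt (fun s => UU s τ a) ((rr t * eta t τ) • UU t τ a) t :=
  (((aa_t t τ).smul_const _).add ((bb_t t τ).smul_const _)).congr_deriv (by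
    ext i; simp [UU]; ring)

lemma UU_tau : HasDerivAt (fun τ => UU t τ a) (mu t τ • WW t τ a) τ :=
  (((aa_tau t τ).smul_const _).add ((bb_tau t τ).smul_const _)).congr_deriv (by
    ext i; simp [WW]; ring)

lemma WW_tau : HasDerivAt (fun τ => WW t τ a) (-(mu t τ • UU t τ a)) τ :=
  (((((bb_tau t τ).const_mul _).fun_neg).smul_const _).add
    (((aa_tau t τ).mul_const _).smul_const _)).congr_deriv (by
    ext i; simp [UU]; linear_combination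
      (-(mu t τ) * (aa t τ * a.1 i + bb t τ * a.2 i)) * cc_ic t)

end

namespace Pot

variable (p : Pot ι)

/-- the defect of homogeneity -/
noncomputable def χ (u : ι → ℝ) : ℝ := p.g u ⬝ᵥ u - p.φ u

section
variable {α : Type*} [SeminormedAddCommGroup α] {U : α → ι → ℝ}

@[fun_prop] lemma pφ' (hU : PG U) : PG fun x => p.φ (U x) := p.pφ.comp hU
@[fun_prop] lemma pg' (hU : PG U) : PG fun x => p.g (U x) := p.pg.comp hU
@[fun_prop] lemma pH' (hU : PG U) (i j : ι) : PG fun x => p.H (U x) i j := (p.pH i j).comp hU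
@[fun_prop] lemma pT' (hU : PG U) : PG fun x => p.T (U x) := p.pT.comp hU
@[fun_prop] lemma pχ' (hU : PG U) : PG fun x => p.χ (U x) := by unfold χ; fun_prop
end

lemma dg' {U : ℝ → ι → ℝ} {U' : ι → ℝ} {s : ℝ} (h : HasDerivAt U U' s) :
    HasDerivAt (fun s => p.g (U s)) (p.H (U s) *ᵥ U') s :=
  (p.dg (U s)).comp_hasDerivAt s h

lemma dχ {U : ℝ → ι → ℝ} {U' : ι → ℝ} {s : ℝ} (h : HasDerivAt U U' s) :
    HasDerivAt (fun s => p.χ (U s)) (U s ⬝ᵥ p.H (U s) *ᵥ U') s :=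
  ((HasDerivAt.dot (p.dg' h) h).fun_sub (p.dφ h)).congr_deriv (by rw [dotProduct_comm]; ring)

lemma dHv {U V : ℝ → ι → ℝ} {U' V' : ι → ℝ} {s : ℝ} (h : HasDerivAt U U' s)
    (hV : HasDerivAt V V' s) (k : ι) : HasDerivAt (fun s => (p.H (U s) *ᵥ V s) k)
      ((fun m => p.T (U s) k m ⬝ᵥ U') ⬝ᵥ V s + (p.H (U s) *ᵥ V') k) s :=
  HasDerivAt.dot (U := fun s => p.H (U s) k) (hasDerivAt_pi.2 fun m => p.dH h k m) hV

lemma sym (u v w : ι → ℝ) : v ⬝ᵥ p.H u *ᵥ w = w ⬝ᵥ p.H u *ᵥ v := dot_mulVec_comm (p.psd u).1 v w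

noncomputable def A (z : ℝ × (ι → ℝ) × (ι → ℝ)) : Matrix ι ι ℝ :=
  Matrix.of fun i j => av fun τ => p.H (UU z.1 τ z.2) i j
noncomputable def N (z : ℝ × (ι → ℝ) × (ι → ℝ)) : ℝ :=
  av fun τ => mu z.1 τ * p.φ (UU z.1 τ z.2) + (2 * ch z.1 - mu z.1 τ) * p.χ (UU z.1 τ z.2)
noncomputable def AD (e : (ι → ℝ) × (ι → ℝ)) (z : ℝ × (ι → ℝ) × (ι → ℝ)) : Matrix ι ι ℝ :=
  Matrix.of fun i j => av fun τ => p.T (UU z.1 τ z.2) i j ⬝ᵥ UU z.1 τ e
noncomputable def S0 (z : ℝ × (ι → ℝ) × (ι → ℝ)) : ι → ℝ := fun i =>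
  av fun τ => (eta z.1 τ • p.H (UU z.1 τ z.2) *ᵥ XX z.1 τ z.2) i
noncomputable def C0 (z : ℝ × (ι → ℝ) × (ι → ℝ)) : ι → ℝ := fun i =>
  av fun τ => (eta z.1 τ • p.H (UU z.1 τ z.2) *ᵥ YY z.1 τ z.2) i

lemma pA (i j : ι) : PG fun z => p.A z i j := PG.av (by fun_prop)
lemma pN : PG p.N := PG.av (by fun_prop)
lemma pAD (e : (ι → ℝ) × (ι → ℝ)) (i j : ι) : PG fun z => p.AD e z i j := PG.av (by fun_prop)
lemma pS0 : PG p.S0 := PG.pi fun i => PG.av (by fun_prop)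
lemma pC0 : PG p.C0 := PG.pi fun i => PG.av (by fun_prop)

lemma A_mulVec (z : ℝ × (ι → ℝ) × (ι → ℝ)) (v : ι → ℝ) :
    p.A z *ᵥ v = fun i => av fun τ => (p.H (UU z.1 τ z.2) *ᵥ v) i := by
  ext i
  simp only [mulVec, dotProduct_comm _ v]
  exact dot_av v (f := fun τ => p.H (UU z.1 τ z.2) i) (PG.cont (by fun_prop))

lemma dot_A (z : ℝ × (ι → ℝ) × (ι → ℝ)) (u v : ι → ℝ) :
    u ⬝ᵥ p.A z *ᵥ v = av fun τ => u ⬝ᵥ p.H (UU z.1 τ z.2) *ᵥ v := by
  rw [A_mulVec, dot_av u (PG.cont (by fun_prop))]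

lemma A_psd (z : ℝ × (ι → ℝ) × (ι → ℝ)) : PSD (p.A z) :=
  ⟨fun i j => by simp only [A, of_apply, (p.psd _).1 i j], fun v => by
    rw [dot_A]; exact av_nonneg fun τ => (p.psd _).2 v⟩

lemma A_e (t : ℝ) (a e : (ι → ℝ) × (ι → ℝ)) (i j : ι) :
    HasDerivAt (fun s : ℝ => p.A (t, a + s • e) i j) (p.AD e (t, a) i j) 0 := by
  have := hasDerivAt_av (F := fun s τ => p.H (UU t τ (a + s • e)) i j)
    (F' := fun s τ => p.T (UU t τ (a + s • e)) i j ⬝ᵥ UU t τ e) (PG.cont (by fun_prop))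
    (PG.cont (by fun_prop)) (fun s τ => p.dH (UU_e t τ a e s) i j) 0
  simp only [zero_smul, add_zero] at this
  exact this

lemma N_e (t : ℝ) (a e : (ι → ℝ) × (ι → ℝ)) :
    HasDerivAt (fun s : ℝ => p.N (t, a + s • e)) (av fun τ => mu t τ * (p.g (UU t τ a) ⬝ᵥ UU t τ e)
      + (2 * ch t - mu t τ) * (UU t τ a ⬝ᵥ p.H (UU t τ a) *ᵥ UU t τ e)) 0 := by
  have := hasDerivAt_av (F := fun s τ => mu t τ * p.φ (UU t τ (a + s • e)) +
      (2 * ch t - mu t τ) * p.χ (UU t τ (a + s • e)))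
    (F' := fun s τ => mu t τ * (p.g (UU t τ (a + s • e)) ⬝ᵥ UU t τ e) + (2 * ch t - mu t τ) *
      (UU t τ (a + s • e) ⬝ᵥ p.H (UU t τ (a + s • e)) *ᵥ UU t τ e)) (PG.cont (by fun_prop))
    (PG.cont (by fun_prop)) (fun s τ => ((p.dφ (UU_e t τ a e s)).const_mul _).fun_add
      ((p.dχ (UU_e t τ a e s)).const_mul _)) 0
  simp only [zero_smul, add_zero] at this
  exact this

lemma N_P (t : ℝ) (a : (ι → ℝ) × (ι → ℝ)) (v : ι → ℝ) :
    HasDerivAt (fun s : ℝ => p.N (t, a + s • (v, 0)))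
      (v ⬝ᵥ cc t • (ch t • p.A (t, a) *ᵥ a.1 - sh t • p.S0 (t, a))) 0 := by
  refine (p.N_e t a _).congr_deriv ?_
  rw [dotProduct_smul, dotProduct_sub, dotProduct_smul, dotProduct_smul, dot_A]
  unfold S0
  rw [dot_av v (PG.cont (by fun_prop)), smul_eq_mul, smul_eq_mul, smul_eq_mul, ← av_mul, ← av_mul,
    ← av_sub (PG.cont (by fun_prop)) (PG.cont (by fun_prop)), ← av_mul]
  refine av_eq_of_deriv (G := fun τ => cc t * (bb t τ * (v ⬝ᵥ p.g (UU t τ a))))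
    (G' := fun τ => cc t * (aa t τ * ic t * mu t τ * (v ⬝ᵥ p.g (UU t τ a)) + bb t τ *
      (0 ⬝ᵥ p.g (UU t τ a) + v ⬝ᵥ p.H (UU t τ a) *ᵥ (mu t τ • WW t τ a))))
    (PG.cont (by fun_prop)) (PG.cont (by fun_prop)) (fun τ => ((bb_tau t τ).fun_mul
      (HasDerivAt.dot (hasDerivAt_const _ _) (p.dg' (UU_tau t τ a)))).const_mul _)
    (by simp [bb_pi, bb_zero]) fun τ => ?_
  have e : UU t τ (v, 0) = aa t τ • v := by simp [UU]
  rw [e, X_eq]
  conv_rhs => rw [P_eq t τ a]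
  simp only [mulVec_add, mulVec_sub, mulVec_smul, dotProduct_add, dotProduct_sub, dotProduct_smul,
    smul_eq_mul, zero_dotProduct, p.sym _ (UU t τ a) v, dotProduct_comm _ v, mu_eq]
  linear_combination (-(aa t τ * (ch t + sh t * eta t τ) * (v ⬝ᵥ p.g (UU t τ a))) -
    aa t τ * (ch t - sh t * eta t τ) * (v ⬝ᵥ p.H (UU t τ a) *ᵥ UU t τ a)) * cc_ic t

lemma N_R (t : ℝ) (a : (ι → ℝ) × (ι → ℝ)) (v : ι → ℝ) :
    HasDerivAt (fun s : ℝ => p.N (t, a + s • (0, v)))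
      (v ⬝ᵥ ic t • (ch t • p.A (t, a) *ᵥ a.2 + sh t • p.C0 (t, a))) 0 := by
  refine (p.N_e t a _).congr_deriv ?_
  rw [dotProduct_smul, dotProduct_add, dotProduct_smul, dotProduct_smul, dot_A]
  unfold C0
  rw [dot_av v (PG.cont (by fun_prop)), smul_eq_mul, smul_eq_mul, smul_eq_mul, ← av_mul, ← av_mul,
    ← av_add (PG.cont (by fun_prop)) (PG.cont (by fun_prop)), ← av_mul]
  refine av_eq_of_deriv (G := fun τ => -ic t * (aa t τ * (v ⬝ᵥ p.g (UU t τ a))))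
    (G' := fun τ => -ic t * (-(cc t * bb t τ * mu t τ) * (v ⬝ᵥ p.g (UU t τ a)) + aa t τ *
      (0 ⬝ᵥ p.g (UU t τ a) + v ⬝ᵥ p.H (UU t τ a) *ᵥ (mu t τ • WW t τ a))))
    (PG.cont (by fun_prop)) (PG.cont (by fun_prop)) (fun τ => ((aa_tau t τ).fun_mul
      (HasDerivAt.dot (hasDerivAt_const _ _) (p.dg' (UU_tau t τ a)))).const_mul _)
    (by simp [aa_pi, aa_zero, UU_pi, p.odd]) fun τ => ?_
  have e : UU t τ (0, v) = bb t τ • v := by simp [UU]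
  rw [e, Y_eq]
  conv_rhs => rw [R_eq t τ a]
  simp only [mulVec_add, mulVec_sub, mulVec_smul, dotProduct_add, dotProduct_sub, dotProduct_smul,
    smul_eq_mul, zero_dotProduct, p.sym _ (UU t τ a) v, dotProduct_comm _ v, mu_eq]
  linear_combination (-(bb t τ * (ch t + sh t * eta t τ) * (v ⬝ᵥ p.g (UU t τ a))) -
    bb t τ * (ch t - sh t * eta t τ) * (v ⬝ᵥ p.H (UU t τ a) *ᵥ UU t τ a)) * cc_ic t

end Pot

end Vale.Agent.P248
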