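import Vale.Agent.P248.End2

/-! Explicit smooth potentials approximating a support function. -/

open MeasureTheory Set Filter Topology Real Matrix

namespace Vale.Agent.P248

variable {ι : Type*} [Fintype ι] {J : Type*} [Fintype J]

/-- uniform average -/
noncomputable def avg (f : J → ℝ) : ℝ := (Fintype.card J : ℝ)⁻¹ * ∑ j, f j

lemma avg_mono {f g : J → ℝ} (h : ∀ j, f j ≤ g j) : avg f ≤ avg g :=
  mul_le_mul_of_nonneg_left (Finset.sum_le_sum fun j _ => h j) (by positivity)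

lemma avg_nonneg {f : J → ℝ} (h : ∀ j, 0 ≤ f j) : 0 ≤ avg f :=
  mul_nonneg (by positivity) (Finset.sum_nonneg fun j _ => h j)

lemma avg_add (f g : J → ℝ) : avg (fun j => f j + g j) = avg f + avg g := by
  simp only [avg, Finset.sum_add_distrib, mul_add]

lemma avg_sub (f g : J → ℝ) : avg (fun j => f j - g j) = avg f - avg g := by
  simp only [avg, Finset.sum_sub_distrib, mul_sub]

lemma avg_mul (c : ℝ) (f : J → ℝ) : avg (fun j => c * f j) = c * avg f := by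
  simp only [avg, ← Finset.mul_sum]; ring

lemma avg_const_le {c : ℝ} (hc : 0 ≤ c) : avg (fun _ : J => c) ≤ c := by
  simp only [avg, Finset.sum_const, Finset.card_univ, nsmul_eq_mul, ← mul_assoc]
  exact mul_le_of_le_one_left hc inv_mul_le_one

lemma avg_dot (f : J → ι → ℝ) (y : ι → ℝ) :
    (fun i => avg fun j => f j i) ⬝ᵥ y = avg fun j => f j ⬝ᵥ y := by
  simp only [avg, dotProduct, Finset.mul_sum, Finset.sum_mul, mul_assoc]
  exact Finset.sum_comm

lemma HasDerivAt.avg {f : ℝ → J → ℝ} {f' : J → ℝ} {s : ℝ}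
    (h : ∀ j, HasDerivAt (fun s => f s j) (f' j) s) : HasDerivAt (fun s => avg (f s)) (avg f') s :=
  (HasDerivAt.fun_sum fun j _ => h j).const_mul _

@[fun_prop]
lemma PG.avg {α : Type*} [SeminormedAddCommGroup α] {f : α → J → ℝ} (h : ∀ j, PG fun x => f x j) :
    PG fun x => avg (f x) := by
  unfold P248.avg; fun_prop

lemma young (n : ℕ) {a : ℝ} (ha : 0 ≤ a) : (n + 1) * a ^ n ≤ n * a ^ (n + 1) + 1 := by
  induction n with
  | zero => simp
  | succ n ih =>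
    have : 0 ≤ ((n : ℝ) + 1) * a ^ n * (a - 1) ^ 2 := by positivity
    push_cast
    simp only [pow_succ] at *
    nlinarith

lemma hasFDerivAt_of_curve {E F : Type*} [NormedAddCommGroup E] [NormedSpace ℝ E]
    [NormedAddCommGroup F] [NormedSpace ℝ F] {f : E → F} {L : E →L[ℝ] F} {u : E}
    (hf : DifferentiableAt ℝ f u) (h : ∀ v, HasDerivAt (fun s : ℝ => f (u + s • v)) (L v) 0) :
    HasFDerivAt f L u := by
  refine hf.hasFDerivAt.congr_fderiv (ContinuousLinearMap.ext fun v => ?_)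
  exact (hf.hasFDerivAt.hasLineDerivAt v).unique (h v)

variable (v : J → ι → ℝ) (k : ℕ) (ε : ℝ)

noncomputable def qF (u : ι → ℝ) : ℝ := ε ^ (2 * k + 4) + avg fun j => (v j ⬝ᵥ u) ^ (2 * k + 4)
noncomputable def qφ (u : ι → ℝ) : ℝ := qF v k ε u ^ (((2 * k + 4 : ℕ) : ℝ))⁻¹
noncomputable def qw (u : ι → ℝ) (j : J) : ℝ := v j ⬝ᵥ u * (qφ v k ε u)⁻¹
noncomputable def qg (u : ι → ℝ) : ι → ℝ := fun i => avg fun j => qw v k ε u j ^ (2 * k + 3) * v j i
noncomputable def qM (u : ι → ℝ) (i l : ι) : ℝ :=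
  avg fun j => qw v k ε u j ^ (2 * k + 2) * v j i * v j l
noncomputable def qH (u : ι → ℝ) : Matrix ι ι ℝ := Matrix.of fun i l =>
  (2 * k + 3) * (qφ v k ε u)⁻¹ * (qM v k ε u i l - qg v k ε u i * qg v k ε u l)
noncomputable def qT (u : ι → ℝ) : ι → ι → ι → ℝ := fun i l m =>
  -((2 * k + 3) * (qφ v k ε u)⁻¹ * (qg v k ε u m * qH v k ε u i l + qg v k ε u l * qH v k ε u i m +
    qg v k ε u i * qH v k ε u l m)) + (2 * k + 3) * (2 * k + 2) * (qφ v k ε u)⁻¹ ^ 2 *
    ((avg fun j => qw v k ε u j ^ (2 * k + 1) * v j i * v j l * v j m) -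
      qg v k ε u i * qg v k ε u l * qg v k ε u m)

lemma even_q : Even (2 * k + 4) := ⟨k + 2, by ring⟩

variable {ε} (hε : 0 < ε)
include hε

lemma le_qF (u : ι → ℝ) : ε ^ (2 * k + 4) ≤ qF v k ε u :=
  le_add_of_nonneg_right (avg_nonneg fun _ => (even_q k).pow_nonneg _)

lemma qF_pos (u : ι → ℝ) : 0 < qF v k ε u := (pow_pos hε _).trans_le (le_qF v k hε u)

lemma qφ_pos (u : ι → ℝ) : 0 < qφ v k ε u := Real.rpow_pos_of_pos (qF_pos v k hε u) _

lemma qφ_pow (u : ι → ℝ) : qφ v k ε u ^ (2 * k + 4) = qF v k ε u :=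
  Real.rpow_inv_natCast_pow (qF_pos v k hε u).le (by omega)

lemma le_qφ (u : ι → ℝ) : ε ≤ qφ v k ε u :=
  le_of_pow_le_pow_left₀ (n := 2 * k + 4) (by omega) (qφ_pos v k hε u).le
    (by rw [qφ_pow v k hε]; exact le_qF v k hε u)

lemma avg_qw (u : ι → ℝ) : (avg fun j => qw v k ε u j ^ (2 * k + 4)) =
    1 - (ε * (qφ v k ε u)⁻¹) ^ (2 * k + 4) := by
  have h := qφ_pow v k hε u
  have h0 := (qF_pos v k hε u).ne'
  simp only [qw, mul_pow, inv_pow, h]
  simp only [mul_comm _ (qF v k ε u)⁻¹, avg_mul]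
  rw [eq_sub_iff_add_eq, ← mul_add, add_comm, ← qF, inv_mul_cancel₀ h0]

lemma avg_qw_le (u : ι → ℝ) : (avg fun j => qw v k ε u j ^ (2 * k + 4)) ≤ 1 := by
  rw [avg_qw v k hε]; linarith [(even_q k).pow_nonneg (ε * (qφ v k ε u)⁻¹)]

omit hε in
lemma qg_dot (u y : ι → ℝ) :
    qg v k ε u ⬝ᵥ y = avg fun j => qw v k ε u j ^ (2 * k + 3) * (v j ⬝ᵥ y) := by
  unfold qg
  rw [avg_dot (fun j i => qw v k ε u j ^ (2 * k + 3) * v j i)]
  simp only [dotProduct, Finset.mul_sum, mul_assoc]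

omit hε in
lemma qH_mulVec (u y : ι → ℝ) (i : ι) : (qH v k ε u *ᵥ y) i = (2 * k + 3) * (qφ v k ε u)⁻¹ *
    ((avg fun j => qw v k ε u j ^ (2 * k + 2) * v j i * (v j ⬝ᵥ y)) -
      qg v k ε u i * (qg v k ε u ⬝ᵥ y)) := by
  have := avg_dot (fun j l => qw v k ε u j ^ (2 * k + 2) * v j i * v j l) y
  simp only [dotProduct, Finset.mul_sum, mul_assoc] at this ⊢
  rw [← this]
  simp only [mulVec, dotProduct, qH, qM, of_apply, Finset.mul_sum, ← Finset.sum_sub_distrib,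
    mul_assoc]
  exact Finset.sum_congr rfl fun _ _ => by ring

omit hε in
lemma qH_quad (u y : ι → ℝ) : y ⬝ᵥ qH v k ε u *ᵥ y = (2 * k + 3) * (qφ v k ε u)⁻¹ *
    ((avg fun j => qw v k ε u j ^ (2 * k + 2) * (v j ⬝ᵥ y) ^ 2) - (qg v k ε u ⬝ᵥ y) ^ 2) := by
  have := avg_dot (fun j => (qw v k ε u j ^ (2 * k + 2) * (v j ⬝ᵥ y)) • v j) y
  have e : qH v k ε u *ᵥ y = ((2 * k + 3) * (qφ v k ε u)⁻¹) •
      ((fun i => avg fun j => ((qw v k ε u j ^ (2 * k + 2) * (v j ⬝ᵥ y)) • v j) i) -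
        (qg v k ε u ⬝ᵥ y) • qg v k ε u) := by
    ext i
    simp only [qH_mulVec, Pi.smul_apply, Pi.sub_apply, smul_eq_mul, mul_right_comm _ (v _ i),
      mul_comm (qg v k ε u i)]
  rw [e, dotProduct_comm, smul_dotProduct, sub_dotProduct, this]
  simp only [smul_dotProduct, smul_eq_mul, sq, mul_assoc]

section deriv

variable {U : ℝ → ι → ℝ} {U' : ι → ℝ} {s : ℝ} (h : HasDerivAt U U' s)
include h

omit hε in
lemma dx (j : J) : HasDerivAt (fun s => v j ⬝ᵥ U s) (v j ⬝ᵥ U') s :=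
  (HasDerivAt.dot (hasDerivAt_const s (v j)) h).congr_deriv (by simp)

lemma dqφ : HasDerivAt (fun s => qφ v k ε (U s)) (qg v k ε (U s) ⬝ᵥ U') s := by
  have hF := qF_pos v k hε (U s)
  have hp := qφ_pos v k hε (U s)
  refine (((HasDerivAt.avg fun j => (dx v h j).fun_pow (2 * k + 4)).const_add _).rpow_const
    (Or.inl hF.ne')).congr_deriv ?_
  change _ * _ * qF v k ε (U s) ^ _ = _
  rw [Real.rpow_sub_one hF.ne', ← qφ, ← qφ_pow v k hε, qg_dot, mul_assoc, mul_comm, ← avg_mul]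
  congr 1; ext j
  simp only [qw, mul_pow, inv_pow, show 2 * k + 4 - 1 = 2 * k + 3 from rfl]
  field_simp
  ring

lemma dqw (j : J) : HasDerivAt (fun s => qw v k ε (U s) j)
    ((qφ v k ε (U s))⁻¹ * (v j ⬝ᵥ U' - qw v k ε (U s) j * (qg v k ε (U s) ⬝ᵥ U'))) s := by
  have hp := qφ_pos v k hε (U s)
  refine ((dx v h j).fun_mul ((dqφ v k hε h).fun_inv hp.ne')).congr_deriv ?_
  rw [qw]; field_simp; ring

lemma dqg (i : ι) : HasDerivAt (fun s => qg v k ε (U s) i) ((qH v k ε (U s) *ᵥ U') i) s := by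
  refine (HasDerivAt.avg fun j => ((dqw v k hε h j).fun_pow (2 * k + 3)).mul_const
    (v j i)).congr_deriv ?_
  rw [qH_mulVec, qg, mul_comm (avg _), ← avg_mul, ← avg_sub, ← avg_mul]
  congr 1; ext j
  simp only [show 2 * k + 3 - 1 = 2 * k + 2 from rfl]
  push_cast; ring

lemma dqH (i l : ι) :
    HasDerivAt (fun s => qH v k ε (U s) i l) (qT v k ε (U s) i l ⬝ᵥ U') s := by
  have hp := qφ_pos v k hε (U s)
  have hM : HasDerivAt (fun s => qM v k ε (U s) i l) ((2 * k + 2) * (qφ v k ε (U s))⁻¹ *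
      ((avg fun j => qw v k ε (U s) j ^ (2 * k + 1) * v j i * v j l * (v j ⬝ᵥ U')) -
        (qg v k ε (U s) ⬝ᵥ U') * qM v k ε (U s) i l)) s := by
    refine (HasDerivAt.avg fun j => (((dqw v k hε h j).fun_pow (2 * k + 2)).mul_const
      (v j i)).mul_const (v j l)).congr_deriv ?_
    rw [qM, ← avg_mul, ← avg_sub, ← avg_mul]
    congr 1; ext j
    simp only [show 2 * k + 2 - 1 = 2 * k + 1 from rfl]
    push_cast; ring
  refine ((((dqφ v k hε h).fun_inv hp.ne').const_mul (2 * k + 3 : ℝ)).fun_mul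
    (hM.fun_sub ((dqg v k hε h i).fun_mul (dqg v k hε h l)))).congr_deriv ?_
  have e : qT v k ε (U s) i l = -(((2 * k + 3) * (qφ v k ε (U s))⁻¹) • (qH v k ε (U s) i l •
      qg v k ε (U s) + qg v k ε (U s) l • (fun m => qH v k ε (U s) i m) + qg v k ε (U s) i •
      fun m => qH v k ε (U s) l m)) + ((2 * k + 3) * (2 * k + 2) * (qφ v k ε (U s))⁻¹ ^ 2) •
      ((fun m => avg fun j => qw v k ε (U s) j ^ (2 * k + 1) * v j i * v j l * v j m) -
        (qg v k ε (U s) i * qg v k ε (U s) l) • qg v k ε (U s)) := by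
    ext m; simp [qT]; ring
  have e2 := avg_dot (fun j m => qw v k ε (U s) j ^ (2 * k + 1) * v j i * v j l * v j m) U'
  have e3 : ∀ j, (fun m => qw v k ε (U s) j ^ (2 * k + 1) * v j i * v j l * v j m) ⬝ᵥ U' =
      qw v k ε (U s) j ^ (2 * k + 1) * v j i * v j l * (v j ⬝ᵥ U') := fun j => by
    simp only [dotProduct, Finset.mul_sum, mul_assoc]
  have e4 : ∀ i, (fun m => qH v k ε (U s) i m) ⬝ᵥ U' = (qH v k ε (U s) *ᵥ U') i := fun _ => rfl
  simp only [e, add_dotProduct, neg_dotProduct, smul_dotProduct, sub_dotProduct, smul_eq_mul, e2,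
    e3, e4]
  rw [qH, of_apply]
  field_simp
  ring

end deriv

lemma PG_qφ : PG (qφ v k ε) ∧ PG fun u => (qφ v k ε u)⁻¹ := by
  have hF : PG (qF v k ε) := by unfold qF; fun_prop
  have c : Continuous (qφ v k ε) := hF.1.rpow_const fun u => Or.inl (qF_pos v k hε u).ne'
  refine ⟨PG.of_le (g := fun u => 1 + qF v k ε u) c (by fun_prop) fun u => ?_,
    PG.of_bound (c.inv₀ fun u => (qφ_pos v k hε u).ne') ε⁻¹ fun u => ?_⟩
  · have h1 := qF_pos v k hε u
    have h2 := qφ_pos v k hε u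
    rw [Real.norm_of_nonneg h2.le, Real.norm_of_nonneg (by linarith)]
    rcases le_total (qφ v k ε u) 1 with h | h
    · linarith
    · have := le_self_pow₀ h (show 2 * k + 4 ≠ 0 by omega)
      rw [qφ_pow v k hε] at this
      linarith
  · rw [Real.norm_of_nonneg (inv_pos.2 (qφ_pos v k hε u)).le]
    exact inv_anti₀ hε (le_qφ v k hε u)

lemma qH_nonneg (u y : ι → ℝ) : 0 ≤ y ⬝ᵥ qH v k ε u *ᵥ y := by
  rw [qH_quad]
  refine mul_nonneg (mul_nonneg (by positivity) (inv_pos.2 (qφ_pos v k hε u)).le) ?_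
  have h1 := avg_nonneg (f := fun j => qw v k ε u j ^ (2 * k + 2) *
    (v j ⬝ᵥ y - (qg v k ε u ⬝ᵥ y) * qw v k ε u j) ^ 2) fun j =>
      mul_nonneg (Even.pow_nonneg ⟨k + 1, by ring⟩ _) (sq_nonneg _)
  have h2 := mul_le_mul_of_nonneg_left (avg_qw_le v k hε u) (sq_nonneg (qg v k ε u ⬝ᵥ y))
  have e : (fun j => qw v k ε u j ^ (2 * k + 2) *
      (v j ⬝ᵥ y - (qg v k ε u ⬝ᵥ y) * qw v k ε u j) ^ 2) = fun j =>
      qw v k ε u j ^ (2 * k + 2) * (v j ⬝ᵥ y) ^ 2 - 2 * (qg v k ε u ⬝ᵥ y) *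
        (qw v k ε u j ^ (2 * k + 3) * (v j ⬝ᵥ y)) +
        (qg v k ε u ⬝ᵥ y) ^ 2 * qw v k ε u j ^ (2 * k + 4) := by
    ext j; ring
  rw [e, avg_add, avg_sub, avg_mul, avg_mul, ← qg_dot] at h1
  linarith

omit hε in
lemma qφ_neg (u : ι → ℝ) : qφ v k ε (-u) = qφ v k ε u := by
  simp only [qφ, qF, dotProduct_neg, (even_q k).neg_pow]

/-- the explicit potential -/
noncomputable def qPot : Pot ι where
  φ := qφ v k ε
  g := qg v k ε
  H := qH v k ε
  T := qT v k ε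
  pφ := (PG_qφ v k hε).1
  pg := by have := (PG_qφ v k hε).2; unfold qg qw; fun_prop
  pH i l := by have := (PG_qφ v k hε).2; simp only [qH, of_apply]; unfold qM qg qw; fun_prop
  pT := by have := (PG_qφ v k hε).2; unfold qT; simp only [qH, of_apply]; unfold qM qg qw; fun_prop
  dφ h := dqφ v k hε h
  dg u := by
    refine hasFDerivAt_of_curve ?_ fun y => ?_
    · have h1 : DifferentiableAt ℝ (qφ v k ε) u :=
        DifferentiableAt.rpow_const (by unfold qF avg dotProduct; fun_prop)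
          (Or.inl (qF_pos v k hε u).ne')
      have h2 := h1.fun_inv (qφ_pos v k hε u).ne'
      unfold qg qw avg dotProduct
      fun_prop
    · have h1 : HasDerivAt (fun s : ℝ => u + s • y) y 0 := by
        simpa using ((hasDerivAt_id (0 : ℝ)).smul_const y).const_add u
      simpa using hasDerivAt_pi.2 fun i => dqg v k hε h1 i
  dH h := dqH v k hε h
  psd u := ⟨fun i l => by simp only [qH, qM, of_apply, mul_right_comm _ (v _ i),
    mul_comm (qg v k ε u i)], qH_nonneg v k hε u⟩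
  sT u i l m := by
    have : qH v k ε u l m = qH v k ε u m l := by
      simp only [qH, qM, of_apply, mul_right_comm _ (v _ l), mul_comm (qg v k ε u l)]
    simp only [qT, this, mul_right_comm _ (v _ l)]
    ring
  even := qφ_neg v k
  odd u := by
    ext i
    simp only [qg, qw, qφ_neg, dotProduct_neg, neg_mul, Pi.neg_apply,
      Odd.neg_pow (show Odd (2 * k + 3) from ⟨k + 1, by ring⟩), avg, Finset.sum_neg_distrib, mul_neg]

lemma qg_self (u : ι → ℝ) : qg v k ε u ⬝ᵥ u =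
    qφ v k ε u * (1 - (ε * (qφ v k ε u)⁻¹) ^ (2 * k + 4)) := by
  have hp := qφ_pos v k hε u
  rw [qg_dot, ← avg_qw v k hε, ← avg_mul]
  congr 1; ext j
  have : v j ⬝ᵥ u = qφ v k ε u * qw v k ε u j := by rw [qw]; field_simp
  rw [this]; ring

lemma q_small (u : ι → ℝ) : qφ v k ε u * (ε * (qφ v k ε u)⁻¹) ^ (2 * k + 4) ≤ ε := by
  have hp := qφ_pos v k hε u
  have h1 : ε * (qφ v k ε u)⁻¹ ≤ 1 := by
    rw [mul_inv_le_iff₀ hp, one_mul]; exact le_qφ v k hε u
  have := mul_le_mul_of_nonneg_left (pow_le_of_le_one (by positivity) h1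
    (show 2 * k + 4 ≠ 0 by omega)) hp.le
  rwa [mul_comm ε, mul_inv_cancel_left₀ hp.ne', mul_comm _ ε] at this

end Vale.Agent.P248
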